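import Vale.Agent.P212.Roe

/-! Transport of finite propagation operators along a finite-to-one map. -/

namespace Vale.Agent.P212

noncomputable section

variable {X Y : Type}

lemma exists_fibre_isos (f : Y → X) (hf : ∀ x, (f ⁻¹' {x}).Finite) (s : Set Y)
    (hs : ∀ y ∈ s, ∀ y', f y' = f y → y' = y) : ∃ S : Y → Op HN, (∀ y, star (S y) * S y = 1) ∧
      (∀ y y', f y = f y' → y ≠ y' → star (S y) * S y' = 0) ∧ ∀ y ∈ s, S y = 1 := by
  classical
  obtain ⟨S, h1, h2⟩ := exists_isos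
  choose g hg using fun x => Set.countable_iff_exists_injOn.1 (hf x).countable
  refine ⟨fun y => if y ∈ s then 1 else S (g (f y) y), fun y => ?_, fun y y' e hne => ?_,
    fun y hy => if_pos hy⟩
  · simp only
    split_ifs
    · simp
    · exact h1 _
  · have a1 : y ∉ s := fun hy => hne (hs y hy y' e.symm).symm
    have a2 : y' ∉ s := fun hy => hne (hs y' hy y e)
    simp only [if_neg a1, if_neg a2]
    refine h2 _ _ fun h => hne (hg (f y) rfl e.symm ?_)
    rw [h, e]

lemma adW_zero {H K : Hilb} : adj (0 : Hom H K) = 0 := map_zero ContinuousLinearMap.adjoint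

lemma exists_cover (f : Y → X) (S : Y → Op HN) (h1 : ∀ y, star (S y) * S y = 1)
    (h2 : ∀ y y', f y = f y' → y ≠ y' → star (S y) * S y' = 0) :
    ∃ W : Hom (l2 Y HN) (l2 X HN), IsPb (adj W) f (fun y => star (S y)) ∧ adj W ∘L W = 1 := by
  obtain ⟨T, -, hT⟩ := exists_pb f (fun y => star (S y)) 1 zero_le_one fun x v s hs => by
    rw [one_pow, one_mul]
    exact bessel s S (fun y _ => h1 y) (fun y hy y' hy' => h2 y y' ((hs y hy).trans (hs y' hy').symm)) v
  refine ⟨adj T, by rwa [adj_adj], entry_ext fun y y' => ?_⟩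
  rw [adj_adj, hT.entry_comp_left, entry_adj]
  by_cases e : f y = f y'
  · rw [e, hT.entry_self, ← star_eq_adj, star_star]
    by_cases e' : y = y'
    · subst e'
      rw [entry_one_self]
      exact h1 y
    · rw [entry_one_ne e']
      exact h2 y y' e e'
  · rw [hT.entry_ne e, adW_zero, entry_one_ne fun h => e (congrArg f h),
      ContinuousLinearMap.comp_zero]

lemma entry_cover {f : Y → X} {S : Y → Op HN} {W : Hom (l2 Y HN) (l2 X HN)}
    (hW : IsPb (adj W) f fun y => star (S y)) (T : Op (l2 Y HN)) (x x' : X) (s s' : Finset Y)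
    (hs : ∀ y, f y = x → y ∈ s) (hs' : ∀ y, f y = x' → y ∈ s') (hs1 : ∀ y ∈ s, f y = x)
    (hs1' : ∀ y ∈ s', f y = x') :
    entry (W ∘L T ∘L adj W) x x' = ∑ y ∈ s, ∑ y' ∈ s', S y * entry T y y' * star (S y') := by
  have e : ∀ x y, entry W x y = adj (entry (adj W) y x) := fun x y => by
    rw [← entry_adj, adj_adj]
  rw [entry_comp_finset W _ x x' s fun y hy => Or.inl (by
    rw [e, hW.entry_ne fun h => hy (hs y h.symm), adW_zero])]
  refine Finset.sum_congr rfl fun y hy => ?_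
  rw [entry_comp_finset T _ y x' s' fun y' hy' => Or.inr (hW.entry_ne fun h => hy' (hs' y' h.symm)),
    e, ← hs1 y hy, hW.entry_self, ← star_eq_adj, star_star, ContinuousLinearMap.comp_finsetSum]
  refine Finset.sum_congr rfl fun y' hy' => ?_
  rw [← hs1' y' hy', hW.entry_self]
  rfl

variable [MetricSpace X]

theorem exists_adW (f : Y → X) (hf : ∀ x, (f ⁻¹' {x}).Finite) (s : Set Y)
    (hs : ∀ y ∈ s, ∀ y', f y' = f y → y' = y) :
    ∃ ψ : DD f →⋆ₙₐ[ℂ] DD (id : X → X), (∀ T : DD f, LocCpt T.1 → LocCpt (ψ T).1) ∧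
      (∀ (T : DD f), ∀ y ∈ s, ∀ y' ∈ s, entry (ψ T).1 (f y) (f y') = entry T.1 y y') ∧
      ∀ (T : DD f) (x x' : X), entry (ψ T).1 x x' ≠ 0 →
        ∃ y y', f y = x ∧ f y' = x' ∧ entry T.1 y y' ≠ 0 := by
  obtain ⟨S, h1, h2, h3⟩ := exists_fibre_isos f hf s hs
  obtain ⟨W, hW, hWW⟩ := exists_cover f S h1 h2
  have e : ∀ (T : Op (l2 Y HN)) x x', entry (W ∘L T ∘L adj W) x x' = ∑ y ∈ (hf x).toFinset,
      ∑ y' ∈ (hf x').toFinset, S y * entry T y y' * star (S y') := fun T x x' =>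
    entry_cover hW T x x' _ _ (by simp) (by simp) (by simp) (by simp)
  have key : ∀ (T : Op (l2 Y HN)) x x', entry (W ∘L T ∘L adj W) x x' ≠ 0 →
      ∃ y y', f y = x ∧ f y' = x' ∧ entry T y y' ≠ 0 := fun T x x' h => by
    rw [e] at h
    obtain ⟨y, hy, h⟩ := Finset.exists_ne_zero_of_sum_ne_zero h
    obtain ⟨y', hy', h⟩ := Finset.exists_ne_zero_of_sum_ne_zero h
    exact ⟨y, y', by simpa using hy, by simpa using hy', fun h0 => h (by rw [h0]; simp)⟩
  have mem : ∀ T : DD f, W ∘L T.1 ∘L adj W ∈ DD (id : X → X) := fun T => by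
    obtain ⟨R, hR⟩ := T.2
    refine ⟨R, fun x x' h => ?_⟩
    by_contra h0
    obtain ⟨y, y', rfl, rfl, h1⟩ := key _ _ _ h0
    exact h1 (hR y y' h)
  have hv : ∀ v, adj W (W v) = v := fun v => congrArg (fun T : Op (l2 Y HN) => T v) hWW
  refine ⟨{ toFun := fun T => ⟨W ∘L T.1 ∘L adj W, mem T⟩
            map_smul' := fun c T => Subtype.ext (by ext v; simp)
            map_zero' := Subtype.ext (by ext v; simp)
            map_add' := fun T T' => Subtype.ext (by ext v; simp)
            map_mul' := fun T T' => Subtype.ext (by ext v; simp [hv])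
            map_star' := fun T => Subtype.ext ?_ }, fun T hT x x' => ?_,
    fun T y hy y' hy' => ?_, fun T => key T.1⟩
  · change W ∘L adj T.1 ∘L adj W = adj (W ∘L T.1 ∘L adj W)
    rw [adj_comp, adj_comp, adj_adj]
    rfl
  · change Cpt (entry (W ∘L T.1 ∘L adj W) x x')
    rw [e]
    exact Cpt.sum _ _ fun y _ => Cpt.sum _ _ fun y' _ => ((hT y y').mul_left _).mul_right _
  · change entry (W ∘L T.1 ∘L adj W) _ _ = _
    rw [entry_cover hW T.1 _ _ {y} {y'} (fun z hz => Finset.mem_singleton.2 (hs y hy z hz))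
      (fun z hz => Finset.mem_singleton.2 (hs y' hy' z hz)) (by simp) (by simp)]
    simp [h3 y hy, h3 y' hy']

end

end Vale.Agent.P212
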