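import Vale.Agent.P212.Rips

/-! The index operator of a cycle. -/

namespace Vale.Agent.P212

noncomputable section

variable {X : Type} [MetricSpace X] {r : ℕ}

lemma asm_star_pi (h : BddGeom X) (Z : Cyc X r) (x : X) :
    star (Z.π (sq h r x)) = Z.π (sq h r x) := by
  rw [← map_star, star_sq]

lemma asm_bound (h : BddGeom X) (Z : Cyc X r) (v : HN.car) (s : Finset X) :
    ∑ y ∈ s, ‖Z.π (sq h r y) v‖ ^ 2 ≤ (1 : ℝ) ^ 2 * ‖v‖ ^ 2 := by
  have h1 : ∀ y, ‖Z.π (sq h r y) v‖ ^ 2 =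
      RCLike.re (inner ℂ v (Z.π (sq h r y * sq h r y) v)) := fun y => by
    rw [map_mul, ← inner_self_eq_norm_sq (𝕜 := ℂ), ← inner_adj_right, ← star_eq_adj, asm_star_pi]
    rfl
  have h2 : ‖Z.π (∑ y ∈ s, sq h r y * sq h r y)‖ ≤ 1 :=
    (NonUnitalStarAlgHom.norm_apply_le Z.π _).trans (norm_sum_sq_le s)
  have h3 := (Z.π (∑ y ∈ s, sq h r y * sq h r y)).le_of_opNorm_le h2 v
  simp only [h1]
  rw [← map_sum, ← inner_sum, ← sum_apply, ← map_sum]
  refine (re_inner_le_norm _ _).trans ?_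
  nlinarith [norm_nonneg v]

lemma exists_proj (h : BddGeom X) (Z : Cyc X r) : ∃ P : Op (l2 X HN),
    ∀ x y, entry P x y = Z.π (sq h r x * sq h r y) := by
  obtain ⟨V, -, hV⟩ := exists_col (fun y : X => Z.π (sq h r y)) 1 zero_le_one (asm_bound h Z)
  have h1 : ∀ y, (ev y ∘L V : Op HN) = Z.π (sq h r y) := fun y =>
    ContinuousLinearMap.ext fun v => hV v y
  have h2 : ∀ y, (adj V ∘L inc y : Op HN) = Z.π (sq h r y) := fun y => by
    rw [← adj_ev, ← adj_comp, h1, ← star_eq_adj, asm_star_pi]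
  refine ⟨V ∘L adj V, fun x y => ?_⟩
  rw [map_mul, ← h1 x, ← h2 y]
  rfl

/-- The projection with entries `π(√t_x √t_y)`. -/
def proj (h : BddGeom X) (Z : Cyc X r) : Op (l2 X HN) := (exists_proj h Z).choose

variable {h : BddGeom X}

lemma entry_proj (Z : Cyc X r) (x y : X) : entry (proj h Z) x y = Z.π (sq h r x * sq h r y) :=
  (exists_proj h Z).choose_spec x y

lemma proj_mem (Z : Cyc X r) : proj h Z ∈ DD (id : X → X) := by
  exact ⟨r, fun x y hxy => by rw [entry_proj, sq_mul_sq_eq_zero (x := x) (y := y) hxy, map_zero]⟩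

lemma asm_zero (Z : Cyc X r) {x z : X} (hz : z ∉ (h.finBalls x r).toFinset) :
    entry (proj h Z) x z = 0 := by
  rw [entry_proj, sq_mul_sq_eq_zero (by simpa using hz), map_zero]

lemma asm_sum (Z : Cyc X r) (x y : X) :
    ∑ z ∈ (h.finBalls x r).toFinset, Z.π (sq h r x * sq h r z) * Z.π (sq h r z * sq h r y) =
      Z.π (sq h r x * sq h r y) := by
  simp only [← map_mul]
  rw [← map_sum, sum_sq_mul _ x fun z hz => by simpa using hz]

lemma proj_idem (Z : Cyc X r) : proj h Z * proj h Z = proj h Z := by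
  refine entry_ext fun x y => ?_
  rw [entry_mul_finset _ _ x y (h.finBalls x r).toFinset fun z hz => Or.inl (asm_zero Z hz)]
  simp only [entry_proj]
  exact asm_sum Z x y

lemma star_proj (Z : Cyc X r) : star (proj h Z) = proj h Z := by
  refine entry_ext fun x y => ?_
  rw [entry_star, entry_proj, entry_proj, ← map_star, star_mul, star_sq, star_sq]

/-- The index operator `P (1 + F) P / 2`. -/
def az (h : BddGeom X) (Z : Cyc X r) : DD (id : X → X) :=
  ⟨proj h Z * dg X HN ((1 / 2 : ℂ) • (1 + Z.F)) * proj h Z,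
    mul_mem (mul_mem (proj_mem Z) (dg_mem_DD _ _)) (proj_mem Z)⟩

lemma az_val (Z : Cyc X r) :
    (az h Z).1 = proj h Z * dg X HN ((1 / 2 : ℂ) • (1 + Z.F)) * proj h Z := rfl

lemma asm_entry_az (Z : Cyc X r) (x y : X) :
    entry (az h Z).1 x y = ∑ z ∈ (h.finBalls x r).toFinset,
      Z.π (sq h r x * sq h r z) * ((1 / 2 : ℂ) • (1 + Z.F)) * Z.π (sq h r z * sq h r y) := by
  rw [az_val, entry_mul_finset _ _ x y (h.finBalls x r).toFinset fun z hz =>
    Or.inl (by rw [entry_mul_dg, asm_zero Z hz, zero_mul])]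
  simp only [entry_mul_dg, entry_proj]

lemma isIndexOp_az (Z : Cyc X r) : IsIndexOp Z (az h Z).1 := by
  refine ⟨sq h r, val_sq, fun x y => ?_⟩
  show _ = (1 / 2 : ℂ) • (Z.π (sq h r x * sq h r y) +
    finsum fun z => Z.π (sq h r x * sq h r z) * Z.F * Z.π (sq h r z * sq h r y))
  rw [asm_entry_az, finsum_eq_sum_of_support_subset
    (s := (h.finBalls x r).toFinset) _ fun z hz => ?_, ← asm_sum Z x y, ← Finset.sum_add_distrib,
    Finset.smul_sum]
  · refine Finset.sum_congr rfl fun z _ => ?_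
    rw [mul_smul_comm, smul_mul_assoc, mul_add, add_mul, mul_one]
  · by_contra h1
    refine hz ?_
    have h2 := asm_zero (h := h) Z h1
    rw [entry_proj] at h2
    show Z.π (sq h r x * sq h r z) * Z.F * Z.π (sq h r z * sq h r y) = 0
    rw [h2, zero_mul, zero_mul]

lemma locCpt_az (Z : Cyc X r) : LocCpt ((az h Z).1 * (az h Z).1 - (az h Z).1) := by
  obtain ⟨e, he⟩ : ∃ e : Op HN, e = (1 / 2 : ℂ) • (1 + Z.F) := ⟨_, rfl⟩
  have e1 : e * e - e = (1 / 4 : ℂ) • (Z.F * Z.F - 1) := by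
    rw [he]
    simp only [mul_smul_comm, smul_mul_assoc, mul_add, add_mul, mul_one, one_mul]
    module
  have e2 : ∀ a : Op HN, e * a - a * e = (-1 / 2 : ℂ) • (a * Z.F - Z.F * a) := fun a => by
    rw [he]
    simp only [mul_smul_comm, smul_mul_assoc, mul_add, add_mul, mul_one, one_mul]
    module
  have h1 : LocCpt (dg X HN e * proj h Z - proj h Z * dg X HN e) := fun x y => by
    rw [entry_sub, entry_dg_mul, entry_mul_dg, e2, entry_proj]
    exact Cpt.smul (Z.c_comm _) _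
  have h2 : LocCpt (proj h Z * dg X HN (e * e - e)) := fun x y => by
    rw [entry_mul_dg, e1, entry_proj, mul_smul_comm]
    exact Cpt.smul (Z.c_sq _) _
  have h3 := ((LocCpt.mul_left h.finBalls (proj_mem (h := h) Z) h1).mul_right h.finBalls
    (mul_mem (dg_mem_DD id e) (proj_mem (h := h) Z))).add
    (h2.mul_right h.finBalls (proj_mem (h := h) Z))
  have h4 : ∀ a, proj h Z * (proj h Z * a) = proj h Z * a := fun a => by
    rw [← mul_assoc, proj_idem]
  rw [az_val, ← he]
  refine (congrArg LocCpt ?_).mp h3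
  simp only [map_sub, map_mul, mul_sub, sub_mul, mul_assoc, h4]
  abel

lemma star_az (Z : Cyc X r) (hF : star Z.F = Z.F) : star (az h Z).1 = (az h Z).1 := by
  have h1 : star ((1 / 2 : ℂ) • (1 + Z.F)) = (1 / 2 : ℂ) • (1 + Z.F) := by
    rw [star_smul, star_add, star_one, hF]
    simp
  rw [az_val, star_mul, star_mul, star_proj, ← map_star, h1, mul_assoc]

/-- A nonzero entry of the index operator comes from a chain of two nonzero entries of `P`. -/
lemma entry_az_ne (Z : Cyc X r) {x y : X} (hxy : entry (az h Z).1 x y ≠ 0) :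
    ∃ z, Z.π (sq h r x * sq h r z) ≠ 0 ∧ Z.π (sq h r z * sq h r y) ≠ 0 := by
  rw [asm_entry_az] at hxy
  obtain ⟨z, -, hz⟩ := Finset.exists_ne_zero_of_sum_ne_zero hxy
  exact ⟨z, left_ne_zero_of_mul (left_ne_zero_of_mul hz), right_ne_zero_of_mul hz⟩

end

end Vale.Agent.P212
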