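import Vale.Agent.P212.L2c

/-! Compact operators. -/

namespace Vale.Agent.P212

noncomputable section

variable {X Y : Type} {H K L : Hilb}

namespace Cpt

lemma zero : Cpt (0 : Hom H K) := isCompactOperator_zero

lemma add {S T : Hom H K} (hS : Cpt S) (hT : Cpt T) : Cpt (S + T) :=
  IsCompactOperator.add hS hT

lemma sub {S T : Hom H K} (hS : Cpt S) (hT : Cpt T) : Cpt (S - T) :=
  IsCompactOperator.sub hS hT

lemma neg {S : Hom H K} (hS : Cpt S) : Cpt (-S) := IsCompactOperator.neg hS

lemma smul {S : Hom H K} (hS : Cpt S) (c : ℂ) : Cpt (c • S) := IsCompactOperator.smul hS c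

lemma sum {ι : Type} (s : Finset ι) (T : ι → Hom H K) (h : ∀ i ∈ s, Cpt (T i)) :
    Cpt (∑ i ∈ s, T i) :=
  Finset.sum_induction T Cpt (fun _ _ => add) zero h

lemma comp_left {T : Hom H K} (hT : Cpt T) (S : Hom K L) : Cpt (S ∘L T : Hom H L) :=
  IsCompactOperator.clm_comp hT S

lemma comp_right {S : Hom K L} (hS : Cpt S) (T : Hom H K) : Cpt (S ∘L T : Hom H L) :=
  IsCompactOperator.comp_clm hS T

lemma mul_left {T : Op H} (hT : Cpt T) (S : Op H) : Cpt (S * T) := hT.comp_left S

lemma mul_right {S : Op H} (hS : Cpt S) (T : Op H) : Cpt (S * T) := hS.comp_right T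

/-- Norm limits of compact operators are compact. -/
lemma of_approx {T : Hom H K} (h : ∀ ε : ℝ, 0 < ε → ∃ S, Cpt S ∧ ‖T - S‖ < ε) : Cpt T := by
  have hc : IsClosed {T : Hom H K | Cpt T} := isClosed_setOfPred_isCompactOperator
  refine hc.closure_subset (Metric.mem_closure_iff.2 fun ε hε => ?_)
  obtain ⟨S, hS, h1⟩ := h ε hε
  exact ⟨S, hS, by rwa [dist_eq_norm]⟩

lemma isClosed : IsClosed {T : Hom H K | Cpt T} := isClosed_setOfPred_isCompactOperator

lemma rankOne (a : K.car) (b : H.car) : Cpt (InnerProductSpace.rankOne ℂ a b : Hom H K) :=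
  (isCompactOperator_of_locallyCompactSpace_dom (innerSL ℂ b)).clm_comp
    (ContinuousLinearMap.toSpanSingleton ℂ a)

lemma exists_proj (s : Finset K.car) : ∃ Q : Op K, ‖Q‖ ≤ 1 ∧ (∀ y ∈ s, Q y = y) ∧
    ∃ (n : ℕ) (x : Fin n → K.car), Q = ∑ k, InnerProductSpace.rankOne ℂ (x k) (x k) := by
  let U := Submodule.span ℂ (s : Set K.car)
  have : CompleteSpace U := FiniteDimensional.complete ℂ U
  exact ⟨U.starProjection, U.starProjection_norm_le,
    fun y hy => Submodule.starProjection_eq_self_iff.2 (Submodule.subset_span hy), _, _,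
    (stdOrthonormalBasis ℂ U).starProjection_eq_sum_rankOne⟩

/-- Compact operators are limits of finite rank operators. -/
lemma approx {T : Hom H K} (hT : Cpt T) {ε : ℝ} (hε : 0 < ε) :
    ∃ (r : ℕ) (a : Fin r → K.car) (b : Fin r → H.car),
      ‖T - ∑ i, (InnerProductSpace.rankOne ℂ (a i) (b i) : Hom H K)‖ < ε := by
  obtain ⟨t, -, ht, hc⟩ := finite_cover_balls_of_compact
    (IsCompactOperator.isCompact_closure_image_closedBall (f := (T : H.car →ₗ[ℂ] K.car)) hT 1)
    (show 0 < ε / 4 by positivity)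
  obtain ⟨Q, q1, q2, n, x, hQ⟩ := exists_proj ht.toFinset
  refine ⟨n, x, fun i => P212.adj T (x i), ?_⟩
  have e : ∑ i, (InnerProductSpace.rankOne ℂ (x i) (P212.adj T (x i)) : Hom H K) = Q ∘L T := by
    rw [hQ, ContinuousLinearMap.finsetSum_comp]
    exact Finset.sum_congr rfl fun i _ => (InnerProductSpace.rankOne_comp _ _ _).symm
  rw [e]
  refine (ContinuousLinearMap.opNorm_le_of_unit_norm (half_pos hε).le fun v hv => ?_).trans_lt
    (half_lt_self hε)
  obtain ⟨y, hy, h⟩ := Set.mem_iUnion₂.1 (hc (subset_closure ⟨v, by simp [hv], rfl⟩))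
  have h1 : ‖T v - y‖ < ε / 4 := by simpa [dist_eq_norm] using h
  have h2 : ‖Q (T v - y)‖ ≤ ‖T v - y‖ := (Q.le_of_opNorm_le q1 _).trans_eq (one_mul _)
  rw [map_sub, q2 y (ht.mem_toFinset.2 hy), norm_sub_rev] at h2
  have h3 := norm_sub_le_norm_sub_add_norm_sub (T v) y (Q (T v))
  show ‖T v - Q (T v)‖ ≤ ε / 2
  linarith

lemma adj {T : Hom H K} (hT : Cpt T) : Cpt (adj T) := by
  refine of_approx fun ε hε => ?_
  obtain ⟨r, a, b, h⟩ := hT.approx hε
  refine ⟨∑ i, (InnerProductSpace.rankOne ℂ (b i) (a i) : Hom K H),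
    sum _ _ fun i _ => rankOne _ _, ?_⟩
  rw [← ContinuousLinearMap.adjoint.norm_map, map_sub, map_sum] at h
  simp only [InnerProductSpace.adjoint_rankOne] at h
  exact h

lemma star {T : Op H} (hT : Cpt T) : Cpt (star T) := hT.adj

lemma entry {T : Hom (l2 Y H) (l2 X K)} (hT : Cpt T) (x : X) (y : Y) : Cpt (entry T x y) :=
  (hT.comp_right (inc y)).comp_left (ev x)

lemma mat (s : Finset X) (M : X → X → Op H) (h : ∀ x ∈ s, ∀ y ∈ s, Cpt (M x y)) :
    Cpt (mat s M) :=
  sum _ _ fun x hx => sum _ _ fun y hy => ((h x hx y hy).comp_right (ev y)).comp_left (inc x)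

/-- An operator with finitely many nonzero entries, all compact, is compact. -/
lemma of_finite {T : Op (l2 X H)} {s : Set X} (hs : s.Finite)
    (h0 : ∀ x y, P212.entry T x y ≠ 0 → x ∈ s ∧ y ∈ s) (h : ∀ x y, Cpt (P212.entry T x y)) :
    Cpt T := by
  have e : T = P212.mat hs.toFinset (P212.entry T) := entry_ext fun x y => by
    rw [entry_mat]
    split_ifs with h1
    · rfl
    · by_contra h2
      exact h1 (by simpa using h0 x y h2)
  rw [e]
  exact mat _ _ fun x _ y _ => h x y

/-- A diagonal operator with compact entries tending to zero is compact. -/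
lemma diag {T : Op (l2 X H)} {d : X → Op H} (hT : IsPb T id d) (h : ∀ x, Cpt (d x))
    (h0 : ∀ ε : ℝ, 0 < ε → {x | ε ≤ ‖d x‖}.Finite) : Cpt T := by
  classical
  refine of_approx fun ε hε => ?_
  have hs := h0 (ε / 2) (half_pos hε)
  obtain ⟨S, hS, hS'⟩ := exists_pb_inj (φ := (id : X → X)) Function.injective_id
    (fun x => if ε / 2 ≤ ‖d x‖ then 0 else d x) (ε / 2) (half_pos hε).le fun x => by
      split_ifs with h1
      · simpa using (half_pos hε).le
      · exact (not_le.1 h1).le
  have e1 : ∀ y, P212.entry T y y = d y := hT.entry_self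
  have e2 : ∀ y, P212.entry S y y = if ε / 2 ≤ ‖d y‖ then 0 else d y := hS'.entry_self
  refine ⟨T - S, of_finite hs (fun x y h1 => ?_) fun x y => ?_, ?_⟩
  · by_cases e : y = x
    · subst e
      rw [entry_sub, e1, e2] at h1
      rw [and_self]
      by_contra h2
      exact h1 (by rw [if_neg (by exact h2), sub_self])
    · exact absurd (by rw [entry_sub, hT.entry_ne e, hS'.entry_ne e, sub_self]) h1
  · by_cases e : y = x
    · subst e
      rw [entry_sub, e1, e2]
      refine (h y).sub ?_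
      split_ifs
      exacts [zero, h y]
    · rw [entry_sub, hT.entry_ne e, hS'.entry_ne e, sub_self]
      exact zero
  · rw [sub_sub_cancel]
    exact hS.trans_lt (half_lt_self hε)

end Cpt

end

end Vale.Agent.P212
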