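import Vale.Agent.P212.PropT2

/-! The elementary group `EL₃` of a polynomial ring over `𝔽₅`. -/

namespace Vale.Agent.P212

noncomputable section

open Matrix

/-- `SL₃(R)`. -/
abbrev SL3 (R : Type) [CommRing R] : Type := SpecialLinearGroup (Fin 3) R

/-- The elementary subgroup of `SL₃(R)`. -/
def EL (R : Type) [CommRing R] : Subgroup (SL3 R) :=
  Subgroup.closure {g | ∃ (i j : Fin 3) (h : i ≠ j) (r : R), g = SpecialLinearGroup.transvection h r}

lemma tv_mem {R : Type} [CommRing R] {i j : Fin 3} (h : i ≠ j) (r : R) :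
    SpecialLinearGroup.transvection h r ∈ EL R := Subgroup.subset_closure ⟨i, j, h, r, rfl⟩

lemma map_tv {R S : Type} [CommRing R] [CommRing S] (φ : R →+* S) {i j : Fin 3} (h : i ≠ j)
    (r : R) : SpecialLinearGroup.map φ (SpecialLinearGroup.transvection h r) =
      SpecialLinearGroup.transvection h (φ r) := by
  apply Subtype.ext
  ext a b
  simp only [SpecialLinearGroup.map_apply_coe, SpecialLinearGroup.transvection_coe,
    RingHom.mapMatrix_apply, Matrix.map_apply, Matrix.add_apply, map_add, Matrix.one_apply,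
    Matrix.single_apply]
  split_ifs <;> simp

lemma map_mem_EL {R S : Type} [CommRing R] [CommRing S] (φ : R →+* S) {g : SL3 R}
    (hg : g ∈ EL R) : SpecialLinearGroup.map φ g ∈ EL S := by
  unfold EL at hg
  induction hg using Subgroup.closure_induction with
  | mem x hx =>
    obtain ⟨i, j, h, r, rfl⟩ := hx
    rw [map_tv]
    exact tv_mem h _
  | one => rw [map_one]; exact one_mem _
  | mul x y _ _ hx hy => rw [map_mul]; exact mul_mem hx hy
  | inv x _ hx => rw [map_inv]; exact inv_mem hx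

/-- The Steinberg relation. -/
lemma tv_comm {R : Type} [CommRing R] {i j k : Fin 3} (hij : i ≠ j) (hjk : j ≠ k) (hik : i ≠ k)
    (a b : R) : SpecialLinearGroup.transvection hij a * SpecialLinearGroup.transvection hjk b =
      SpecialLinearGroup.transvection hik (a * b) * SpecialLinearGroup.transvection hjk b *
        SpecialLinearGroup.transvection hij a := by
  apply Subtype.ext
  change ((1 : Matrix (Fin 3) (Fin 3) R) + single i j a) * (1 + single j k b) =
    (1 + single i k (a * b)) * (1 + single j k b) * (1 + single i j a)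
  simp only [mul_add, add_mul, one_mul, mul_one, Matrix.single_mul_single_same,
    Matrix.single_mul_single_of_ne _ _ _ _ hik.symm,
    Matrix.single_mul_single_of_ne _ _ _ _ hjk.symm, add_zero]
  abel

lemma EL3_commute {R : Type} [CommRing R] {i j k l : Fin 3} (hij : i ≠ j) (hkl : k ≠ l)
    (hjk : j ≠ k) (hli : l ≠ i) (a b : R) :
    SpecialLinearGroup.transvection hij a * SpecialLinearGroup.transvection hkl b =
      SpecialLinearGroup.transvection hkl b * SpecialLinearGroup.transvection hij a := by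
  apply Subtype.ext
  change ((1 : Matrix (Fin 3) (Fin 3) R) + single i j a) * (1 + single k l b) =
    (1 + single k l b) * (1 + single i j a)
  simp only [mul_add, add_mul, one_mul, mul_one, Matrix.single_mul_single_of_ne _ _ _ _ hjk,
    Matrix.single_mul_single_of_ne _ _ _ _ hli, add_zero]
  abel

/-- The ring `𝔽₅[t, s, u]`. -/
abbrev R0 : Type := MvPolynomial (Fin 3) (ZMod 5)

/-- The group `EL₃(𝔽₅[t, s, u])`. -/
abbrev Gam : Type := EL R0

/-- Elementary matrices as elements of `Gam`. -/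
def EL3_tv {i j : Fin 3} (h : i ≠ j) (r : R0) : Gam :=
  ⟨SpecialLinearGroup.transvection h r, tv_mem h r⟩

lemma EL3_tv_add {i j : Fin 3} (h : i ≠ j) (r s : R0) :
    EL3_tv h (r + s) = EL3_tv h r * EL3_tv h s :=
  Subtype.ext (SpecialLinearGroup.transvection_add h r s)

lemma EL3_tv_neg {i j : Fin 3} (h : i ≠ j) (r : R0) : EL3_tv h (-r) = (EL3_tv h r)⁻¹ :=
  Subtype.ext (SpecialLinearGroup.transvection_inv h r).symm

lemma EL3_tv_comm {i j k : Fin 3} (hij : i ≠ j) (hjk : j ≠ k) (hik : i ≠ k) (a b : R0) :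
    EL3_tv hij a * EL3_tv hjk b = EL3_tv hik (a * b) * EL3_tv hjk b * EL3_tv hij a :=
  Subtype.ext (tv_comm hij hjk hik a b)

lemma EL3_tv_commute {i j k l : Fin 3} (hij : i ≠ j) (hkl : k ≠ l) (hjk : j ≠ k) (hli : l ≠ i)
    (a b : R0) : Commute (EL3_tv hij a) (EL3_tv hkl b) :=
  Subtype.ext (EL3_commute hij hkl hjk hli a b)

/-- The affine linear polynomials. -/
def EL3_L (b : Fin 4 → ZMod 5) : R0 :=
  MvPolynomial.C (b 0) + MvPolynomial.C (b 1) * MvPolynomial.X 0 +
    MvPolynomial.C (b 2) * MvPolynomial.X 1 + MvPolynomial.C (b 3) * MvPolynomial.X 2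

lemma EL3_L_add (b c : Fin 4 → ZMod 5) : EL3_L (b + c) = EL3_L b + EL3_L c := by
  simp only [EL3_L, Pi.add_apply, map_add]
  ring

lemma EL3_L_smul (a : ZMod 5) (b : Fin 4 → ZMod 5) :
    EL3_L (a • b) = MvPolynomial.C a * EL3_L b := by
  simp only [EL3_L, Pi.smul_apply, smul_eq_mul, map_mul]
  ring

lemma EL3_mul_mem {H : Subgroup Gam} {i j k : Fin 3} (hij : i ≠ j) (hjk : j ≠ k) (hik : i ≠ k)
    {a b : R0} (ha : EL3_tv hij a ∈ H) (hb : EL3_tv hjk b ∈ H) : EL3_tv hik (a * b) ∈ H := by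
  have h : EL3_tv hik (a * b) =
      EL3_tv hij a * EL3_tv hjk b * (EL3_tv hij a)⁻¹ * (EL3_tv hjk b)⁻¹ := by
    rw [EL3_tv_comm hij hjk hik]
    group
  rw [h]
  exact mul_mem (mul_mem (mul_mem ha hb) (inv_mem ha)) (inv_mem hb)

lemma EL3_gen {H : Subgroup Gam} (h01 : EL3_tv (show (0 : Fin 3) ≠ 1 by decide) 1 ∈ H)
    (h12 : EL3_tv (show (1 : Fin 3) ≠ 2 by decide) 1 ∈ H)
    (h20 : ∀ b, EL3_tv (show (2 : Fin 3) ≠ 0 by decide) (EL3_L b) ∈ H) : H = ⊤ := by
  have h02 : EL3_tv (show (0 : Fin 3) ≠ 2 by decide) 1 ∈ H := by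
    simpa using EL3_mul_mem _ _ (show (0 : Fin 3) ≠ 2 by decide) h01 h12
  have all : ∀ r, EL3_tv (show (2 : Fin 3) ≠ 0 by decide) r ∈ H →
      ∀ i j (h : i ≠ j), EL3_tv h r ∈ H := by
    intro r hr
    have k21 : EL3_tv (show (2 : Fin 3) ≠ 1 by decide) r ∈ H := by
      simpa using EL3_mul_mem _ _ (show (2 : Fin 3) ≠ 1 by decide) hr h01
    have k10 : EL3_tv (show (1 : Fin 3) ≠ 0 by decide) r ∈ H := by
      simpa using EL3_mul_mem _ _ (show (1 : Fin 3) ≠ 0 by decide) h12 hr
    have k01 : EL3_tv (show (0 : Fin 3) ≠ 1 by decide) r ∈ H := by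
      simpa using EL3_mul_mem _ _ (show (0 : Fin 3) ≠ 1 by decide) h02 k21
    have k12 : EL3_tv (show (1 : Fin 3) ≠ 2 by decide) r ∈ H := by
      simpa using EL3_mul_mem _ _ (show (1 : Fin 3) ≠ 2 by decide) k10 h02
    have k02 : EL3_tv (show (0 : Fin 3) ≠ 2 by decide) r ∈ H := by
      simpa using EL3_mul_mem _ _ (show (0 : Fin 3) ≠ 2 by decide) k01 h12
    intro i j h
    fin_cases i <;> fin_cases j
    · exact absurd rfl h
    · exact k01
    · exact k02
    · exact k10
    · exact absurd rfl h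
    · exact k12
    · exact hr
    · exact k21
    · exact absurd rfl h
  have third : ∀ i k : Fin 3, i ≠ k → ∃ j, i ≠ j ∧ j ≠ k := by decide
  have main : ∀ r : R0, ∀ i j (h : i ≠ j), EL3_tv h r ∈ H := by
    intro r
    induction r using MvPolynomial.induction_on with
    | C a =>
      refine all _ ?_
      have := h20 ![a, 0, 0, 0]
      simpa [EL3_L] using this
    | add p q hp hq =>
      intro i j h
      rw [EL3_tv_add]
      exact mul_mem (hp i j h) (hq i j h)
    | mul_X p n hp =>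
      intro i k h
      obtain ⟨j, hij, hjk⟩ := third i k h
      refine EL3_mul_mem hij hjk h (hp i j hij) (all _ ?_ j k hjk)
      fin_cases n
      · simpa [EL3_L] using h20 ![0, 1, 0, 0]
      · simpa [EL3_L] using h20 ![0, 0, 1, 0]
      · simpa [EL3_L] using h20 ![0, 0, 0, 1]
  have hle : EL R0 ≤ H.map (EL R0).subtype := by
    refine (Subgroup.closure_le _).2 ?_
    rintro x ⟨i, j, h, r, rfl⟩
    exact ⟨EL3_tv h r, main r i j h, rfl⟩
  rw [eq_top_iff]
  intro g _
  obtain ⟨x, hx, e⟩ := hle g.2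
  have : x = g := Subtype.ext e
  exact this ▸ hx

theorem gam_triple : ∃ (x₁ x₂ : ZMod 5 → Gam) (x₃ : (Fin 4 → ZMod 5) → Gam),
    AddFam x₁ ∧ AddFam x₂ ∧ AddFam x₃ ∧ Heis x₁ x₂ ∧ Heis x₂ x₃ ∧ Heis x₁ x₃ ∧
      Subgroup.closure (Set.range x₁ ∪ Set.range x₂ ∪ Set.range x₃) = ⊤ := by
  have n01 : (0 : Fin 3) ≠ 1 := by decide
  have n12 : (1 : Fin 3) ≠ 2 := by decide
  have n20 : (2 : Fin 3) ≠ 0 := by decide
  refine ⟨fun a => EL3_tv n01 (MvPolynomial.C a), fun a => EL3_tv n12 (MvPolynomial.C a),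
    fun b => EL3_tv n20 (EL3_L b), ?_, ?_, ?_, ?_, ?_, ?_, ?_⟩
  · intro a b
    simp only [map_add, EL3_tv_add]
  · intro a b
    simp only [map_add, EL3_tv_add]
  · intro a b
    simp only [EL3_L_add, EL3_tv_add]
  · refine ⟨fun c => EL3_tv n20.symm (MvPolynomial.C c), ?_, ?_, ?_, ?_⟩
    · intro a b
      simp only [map_add, EL3_tv_add]
    · intro a b
      simp only [smul_eq_mul, map_mul]
      exact EL3_tv_comm _ _ _ _ _
    · intro a c
      exact EL3_tv_commute _ _ n20 n01.symm _ _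
    · intro a c
      exact EL3_tv_commute _ _ n12.symm n20 _ _
  · refine ⟨fun c => EL3_tv n01.symm (EL3_L c), ?_, ?_, ?_, ?_⟩
    · intro a b
      simp only [EL3_L_add, EL3_tv_add]
    · intro a b
      simp only [EL3_L_smul]
      exact EL3_tv_comm _ _ _ _ _
    · intro a c
      exact EL3_tv_commute _ _ n01 n12.symm _ _
    · intro a c
      exact EL3_tv_commute _ _ n20.symm n01 _ _
  · refine ⟨fun c => EL3_tv n12.symm (-EL3_L c), ?_, ?_, ?_, ?_⟩
    · intro a b
      simp only [EL3_L_add, neg_add, EL3_tv_add]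
    · intro a b
      simp only [EL3_L_smul, EL3_tv_neg]
      rw [mul_assoc, EL3_tv_comm n20 n01 n12.symm, mul_comm (EL3_L b)]
      group
    · intro a c
      exact EL3_tv_commute _ _ n01.symm n12 _ _
    · intro a c
      exact EL3_tv_commute _ _ n12 n20.symm _ _
  · refine EL3_gen ?_ ?_ fun b => ?_
    · exact Subgroup.subset_closure (Or.inl (Or.inl ⟨1, by simp⟩))
    · exact Subgroup.subset_closure (Or.inl (Or.inr ⟨1, by simp⟩))
    · exact Subgroup.subset_closure (Or.inr ⟨b, rfl⟩)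

theorem gam_hasQ : HasQ Gam := by
  obtain ⟨x₁, x₂, x₃, a₁, a₂, a₃, h₁, h₂, h₃, hg⟩ := gam_triple
  exact hasQ_of_triple a₁ a₂ a₃ h₁ h₂ h₃ hg

theorem gam_fg : Group.FG Gam := by
  obtain ⟨x₁, x₂, x₃, -, -, -, -, -, -, hg⟩ := gam_triple
  exact Group.fg_iff.2 ⟨_, hg, ((Set.finite_range _).union (Set.finite_range _)).union
    (Set.finite_range _)⟩

end

end Vale.Agent.P212
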