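import Vale.Agent.P212.Piece

/-! Extension of representations from an ideal `C` of a star algebra `D` to `D`. -/

namespace Vale.Agent.P212

noncomputable section

variable {B : Type} [CStarAlgebra B] {D : StarSubalgebra ℂ B} {C : NonUnitalStarSubalgebra ℂ B}

/-- Left multiplication by `m` is bounded by `c` in every representation of `C`. -/
def Bd (C : NonUnitalStarSubalgebra ℂ B) (m : B) (c : ℝ) : Prop :=
  ∀ (K : Hilb) (ρ : SHom C (Op K)) (ι : Type) (s : Finset ι) (T T' : ι → C) (ξ : ι → K.car),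
    (∀ i, (T' i).1 = m * (T i).1) → ‖∑ i ∈ s, ρ (T' i) (ξ i)‖ ≤ c * ‖∑ i ∈ s, ρ (T i) (ξ i)‖

lemma Ext_inner {K : Hilb} (ρ : SHom C (Op K)) (T T' : C) (u v : K.car) :
    inner ℂ (ρ T u) (ρ T' v) = inner ℂ u (ρ (star T * T') v) := by
  rw [map_mul, map_star]
  exact (inner_adj_right (ρ T) u (ρ T' v)).symm

lemma Piece.bd (hI : ∀ m ∈ D, ∀ T ∈ C, m * T ∈ C) {m : B} (h : Piece D m) :
    ∃ c, 0 ≤ c ∧ Bd C m c := by
  obtain ⟨-, n, hn, c, hc, e⟩ := h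
  refine ⟨c, hc, fun K ρ ι s T T' ξ hT => ?_⟩
  let T'' : ι → C := fun i => ⟨n * (T i).1, hI n hn _ (T i).2⟩
  have e1 : ∀ i j, star (T' i) * T' j + star (T'' i) * T'' j = (c : ℂ) ^ 2 • (star (T i) * T j) :=
    fun i j => Subtype.ext <| by
      show star (T' i).1 * (T' j).1 + star (n * (T i).1) * (n * (T j).1) =
        (c : ℂ) ^ 2 • (star (T i).1 * (T j).1)
      rw [hT, hT, ← mul_smul_comm, Algebra.smul_def, ← e, star_mul, star_mul]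
      noncomm_ring
  have e2 : ∀ T : ι → C, ((‖∑ i ∈ s, ρ (T i) (ξ i)‖ ^ 2 : ℝ) : ℂ) =
      ∑ i ∈ s, ∑ j ∈ s, inner ℂ (ξ i) (ρ (star (T i) * T j) (ξ j)) := fun T => by
    simp only [← Ext_inner, ← inner_sum, ← sum_inner, inner_self_eq_norm_sq_to_K]
    simp
  have e3 : ‖∑ i ∈ s, ρ (T' i) (ξ i)‖ ^ 2 + ‖∑ i ∈ s, ρ (T'' i) (ξ i)‖ ^ 2 =
      c ^ 2 * ‖∑ i ∈ s, ρ (T i) (ξ i)‖ ^ 2 := by
    rw [← Complex.ofReal_inj, Complex.ofReal_add, Complex.ofReal_mul, e2, e2, e2,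
      Complex.ofReal_pow]
    simp only [← Finset.sum_add_distrib, ← inner_add_right, Finset.mul_sum, ← inner_smul_right,
      ← add_apply, ← map_add, e1, map_smul, smul_apply]
  refine (sq_le_sq₀ (by positivity) (by positivity)).1 ?_
  rw [mul_pow, ← e3]
  exact le_add_of_nonneg_right (sq_nonneg _)

lemma bd_of_pieces (hI : ∀ m ∈ D, ∀ T ∈ C, m * T ∈ C) {ι : Type} (s : Finset ι) (a : ι → B)
    (h : ∀ i ∈ s, Piece D (a i)) : ∃ c, 0 ≤ c ∧ Bd C (∑ i ∈ s, a i) c := by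
  classical
  suffices (∑ i ∈ s, a i) ∈ D ∧ ∃ c, 0 ≤ c ∧ Bd C (∑ i ∈ s, a i) c from this.2
  induction s using Finset.induction_on with
  | empty =>
    refine ⟨by simp, 0, le_rfl, fun K ρ ι s T T' ξ hT => ?_⟩
    have e : ∀ i, T' i = 0 := fun i => Subtype.ext (by simpa using hT i)
    simp [e]
  | insert i s hi ih =>
    obtain ⟨h1, c, hc, h2⟩ := ih fun j hj => h j (Finset.mem_insert_of_mem hj)
    have h3 := h i (Finset.mem_insert_self _ _)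
    obtain ⟨c', hc', h4⟩ := h3.bd hI
    rw [Finset.sum_insert hi]
    refine ⟨add_mem h3.1 h1, c' + c, add_nonneg hc' hc, fun K ρ ι t T T' ξ hT => ?_⟩
    have e : ∀ j, T' j = ⟨_, hI _ h3.1 _ (T j).2⟩ + ⟨_, hI _ h1 _ (T j).2⟩ := fun j =>
      Subtype.ext ((hT j).trans (add_mul _ _ _))
    simp only [e, map_add, add_apply, Finset.sum_add_distrib, add_mul]
    exact norm_add_le_of_le (h4 K ρ ι t T _ ξ fun _ => rfl) (h2 K ρ ι t T _ ξ fun _ => rfl)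

lemma Ext_dense {K : Hilb} (ρ : SHom C (Op K)) {W : Submodule ℂ K.car} (h1 : ∀ T ξ, ρ T ξ ∈ W)
    (h2 : ∀ η, (∀ T ξ, inner ℂ (ρ T ξ) η = 0) → η ∈ W) : Dense (W : Set K.car) :=
  Submodule.dense_iff_topologicalClosure_eq_top.2 <| Submodule.topologicalClosure_eq_top_iff.2 <|
    (Submodule.eq_bot_iff _).2 fun v hv =>
      inner_self_eq_zero.1 (hv v (h2 v fun T ξ => hv _ (h1 T ξ)))

lemma Ext_ext {K : Hilb} (ρ : SHom C (Op K)) {F : Type} [NormedAddCommGroup F] [NormedSpace ℂ F]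
    {A A' : K.car →L[ℂ] F} (h1 : ∀ T ξ, A (ρ T ξ) = A' (ρ T ξ))
    (h2 : ∀ η, (∀ T ξ, inner ℂ (ρ T ξ) η = 0) → A η = A' η) : A = A' :=
  DFunLike.coe_injective <| Continuous.ext_on
    (Ext_dense ρ (W := LinearMap.eqLocus A.toLinearMap A'.toLinearMap) h1 h2) A.continuous
    A'.continuous fun _ h => h

lemma Ext_op (hI : ∀ m ∈ D, ∀ T ∈ C, m * T ∈ C) {K : Hilb} (ρ : SHom C (Op K)) {m : B}
    (hm : m ∈ D) (hb : ∃ c, 0 ≤ c ∧ Bd C m c) : ∃ S : Op K,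
      (∀ T ξ, S (ρ T ξ) = ρ ⟨m * T.1, hI m hm _ T.2⟩ ξ) ∧
      (∀ η, (∀ T ξ, inner ℂ (ρ T ξ) η = 0) → S η = 0) ∧ ∀ c, 0 ≤ c → Bd C m c → ‖S‖ ≤ c := by
  let e0 := Finsupp.linearCombination ℂ fun p : C × K.car => ρ p.1 p.2
  let e := e0.coprod (LinearMap.range e0)ᗮ.subtype
  let f := (Finsupp.linearCombination ℂ fun p : C × K.car =>
    ρ ⟨m * p.1.1, hI m hm _ p.1.2⟩ p.2).coprod (0 : (LinearMap.range e0)ᗮ →ₗ[ℂ] K.car)
  have h0 : ∀ η, (∀ T ξ, inner ℂ (ρ T ξ) η = 0) → η ∈ (LinearMap.range e0)ᗮ := by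
    rintro η hη _ ⟨t, rfl⟩
    simp [e0, Finsupp.linearCombination_apply, Finsupp.sum, sum_inner, inner_smul_left, hη]
  have h1 : ∀ T ξ, e (Finsupp.single (T, ξ) 1, 0) = ρ T ξ := fun T ξ => by simp [e, e0]
  have h2 : ∀ η, e (0, η) = η := fun η => by simp [e]
  have hd : DenseRange e := Ext_dense ρ (W := LinearMap.range e) (fun T ξ => ⟨_, h1 T ξ⟩)
    fun η hη => ⟨_, h2 ⟨η, h0 η hη⟩⟩
  have hn : ∀ c, 0 ≤ c → Bd C m c → ∀ x, ‖f x‖ ≤ c * ‖e x‖ := fun c hc h x => by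
    have e1 := h K ρ _ x.1.support Prod.fst (fun p => ⟨m * p.1.1, hI m hm _ p.1.2⟩)
      (fun p => x.1 p • p.2) fun _ => rfl
    have e2 := norm_add_sq_eq_norm_sq_add_norm_sq_of_inner_eq_zero _ _ (x.2.2 _ ⟨x.1, rfl⟩)
    have e3 : ‖e0 x.1‖ ≤ ‖e x‖ := (mul_self_le_mul_self_iff (norm_nonneg _) (norm_nonneg _)).2
      (le_of_le_of_eq (le_add_of_nonneg_right (mul_self_nonneg _)) e2.symm)
    simp only [map_smul] at e1
    exact (le_of_eq_of_le (congrArg _ (add_zero _)) e1).trans (mul_le_mul_of_nonneg_left e3 hc)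
  obtain ⟨c, hc, h⟩ := hb
  refine ⟨f.extendOfNorm e, fun T ξ => ?_, fun η hη => ?_,
    fun c hc h => LinearMap.opNorm_extendOfNorm_le hd hc (hn c hc h)⟩
  · rw [← h1, LinearMap.extendOfNorm_eq hd ⟨c, hn c hc h⟩]
    simp [f]
  · refine (congrArg _ (h2 ⟨η, h0 η hη⟩).symm).trans ?_
    rw [LinearMap.extendOfNorm_eq hd ⟨c, hn c hc h⟩]
    simp [f]

theorem exists_ext (hCD : ∀ T ∈ C, T ∈ D) (hI : ∀ m ∈ D, ∀ T ∈ C, m * T ∈ C)
    (hb : ∀ m ∈ D, ∃ c, 0 ≤ c ∧ Bd C m c) (K : Hilb) (ρ : SHom C (Op K)) :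
    ∃ σ : D →⋆ₙₐ[ℂ] Op K, (∀ T : C, σ ⟨T.1, hCD _ T.2⟩ = ρ T) ∧
      ∀ (m : D) (c : ℝ), 0 ≤ c → Bd C m.1 c → ‖σ m‖ ≤ c := by
  choose σ h1 h2 h3 using fun m : D => Ext_op hI ρ m.2 (hb _ m.2)
  have k : ∀ {T T' : C} (ξ : K.car), T.1 = T'.1 → ρ T ξ = ρ T' ξ := fun ξ e => by
    rw [Subtype.ext e]
  refine ⟨⟨⟨⟨⟨σ, fun c m => Ext_ext ρ (fun T ξ => ?_) fun η hη => ?_⟩,
    Ext_ext ρ (fun T ξ => ?_) fun η hη => h2 _ _ hη,
    fun m m' => Ext_ext ρ (fun T ξ => ?_) fun η hη => ?_⟩,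
    fun m m' => Ext_ext ρ (fun T ξ => ?_) fun η hη => ?_⟩,
    fun m => Ext_ext ρ (fun T ξ => ?_) fun η hη => ?_⟩,
    fun T => Ext_ext ρ (fun T' ξ => ?_) fun η hη => ?_, h3⟩
  · show _ = c • σ m (ρ T ξ)
    rw [h1, h1, ← smul_apply, ← map_smul]
    exact k ξ (smul_mul_assoc _ _ _)
  · show _ = c • σ m η
    rw [h2 _ _ hη, h2 _ _ hη, smul_zero]
  · show σ 0 _ = 0
    rw [h1, k (T' := 0) ξ (zero_mul _), map_zero, zero_apply]
  · show σ _ _ = σ m _ + σ m' _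
    rw [h1, h1, h1, ← add_apply, ← map_add]
    exact k ξ (add_mul _ _ _)
  · show σ _ _ = σ m _ + σ m' _
    rw [h2 _ _ hη, h2 _ _ hη, h2 _ _ hη, add_zero]
  · show σ _ _ = σ m (σ m' _)
    rw [h1, h1, h1]
    exact k ξ (mul_assoc _ _ _)
  · show σ _ _ = σ m (σ m' _)
    rw [h2 _ _ hη, h2 _ _ hη, map_zero]
  · refine ext_inner_right ℂ fun v => Eq.trans ?_ (inner_adj_left (σ m) _ v).symm
    refine DFunLike.congr_fun (Ext_ext ρ (A := innerSL ℂ (σ (star m) (ρ T ξ)))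
      (A' := innerSL ℂ (ρ T ξ) ∘L σ m) (fun T' ξ' => ?_) fun η hη => ?_) v
    · show inner ℂ (σ _ _) _ = inner ℂ _ (σ m _)
      rw [h1, h1, Ext_inner, Ext_inner]
      refine congrArg _ (k _ ?_)
      show star (star m.1 * T.1) * T'.1 = star T.1 * (m.1 * T'.1)
      rw [star_mul, star_star, mul_assoc]
    · show inner ℂ (σ _ _) _ = inner ℂ _ (σ m _)
      rw [h1, hη, h2 _ _ hη, inner_zero_right]
  · refine ext_inner_right ℂ fun v => Eq.trans ?_ (inner_adj_left (σ m) _ v).symm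
    refine DFunLike.congr_fun (Ext_ext ρ (A := innerSL ℂ (σ (star m) η))
      (A' := innerSL ℂ η ∘L σ m) (fun T' ξ' => ?_) fun η' hη' => ?_) v
    · show inner ℂ (σ _ _) _ = inner ℂ _ (σ m _)
      rw [h1, h2 _ _ hη, inner_zero_left, inner_eq_zero_symm.1 (hη _ _)]
    · show inner ℂ (σ _ _) _ = inner ℂ _ (σ m _)
      rw [h2 _ _ hη, h2 _ _ hη', inner_zero_left, inner_zero_right]
  · show σ _ _ = (ρ T * ρ T') ξ
    rw [h1, ← map_mul]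
    rfl
  · refine (h2 _ _ hη).trans (ext_inner_left ℂ fun v => ?_)
    rw [inner_zero_right, ← hη (star T) v, map_star]
    exact inner_adj_left (ρ T) v η

end

end Vale.Agent.P212
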