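import Mathlib

/-! Abstract towers of finite quotients. -/

namespace Vale.Agent.P212

/-- The length of the `n`-th loop and the order of its monodromy. -/
def MM (n : ℕ) : ℕ := 5 ^ (n + 2)

/-- For each `n` a decreasing sequence of finite index normal subgroups `N n i` of `G`, with
homomorphisms `θ n i : Γ → G` that change boundedly from one level to the next. -/
structure GT (Γ G : Type) [Group Γ] [Group G] where
  c : ℕ → ℕ
  N : ℕ → ℕ → Subgroup G
  θ : ℕ → ℕ → Γ →* G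
  θ₀ : Γ →* G
  g : ℕ → G
  normal : ∀ n i, (N n i).Normal
  finIdx : ∀ n i, (N n i).FiniteIndex
  bot : ∀ n, N n 0 = ⊤
  anti : ∀ n i, N n (i + 1) ≤ N n i
  stabN : ∀ n i, c n ≤ i → N n i = N n (c n)
  stabθ : ∀ n i, c n ≤ i → θ n i = θ₀
  gpow : ∀ n, g n ^ MM n ∈ N n (c n)
  up : ∀ γ, ∃ S : Finset Γ, ∀ n i, ∃ s ∈ S, θ n (i + 1) γ = θ n i s
  down : ∀ γ, ∃ S : Finset Γ, ∀ n i, ∃ s ∈ S, θ n i γ = θ n (i + 1) s
  ker : ∃ K : Finset Γ, ∀ n i, ∀ w ∈ N n i, ∃ k ∈ K, (θ n (i + 1) k)⁻¹ * w ∈ N n (i + 1)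
  disp : ∀ γ, ∃ n₀, ∀ n, n₀ ≤ n → ∀ (w : G) (k : ℤ),
    (θ₀ γ * w)⁻¹ * (w * g n ^ k) ∈ N n (c n) → (MM n : ℤ) ∣ k

/-- A chain for a reflexive relation, as an eventually constant sequence. -/
lemma exists_seq_of_chain {α : Type} {r : α → α → Prop} (hr : ∀ a, r a a) {a b : α}
    (h : Relation.ReflTransGen r a b) :
    ∃ (c : ℕ) (P : ℕ → α), P 0 = a ∧ (∀ i, c ≤ i → P i = b) ∧ ∀ i, r (P i) (P (i + 1)) := by
  induction h using Relation.ReflTransGen.head_induction_on with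
  | refl => exact ⟨0, fun _ => b, rfl, fun _ _ => rfl, fun _ => hr b⟩
  | @head a a' h _ ih =>
    obtain ⟨c, P, h0, hc, hP⟩ := ih
    refine ⟨c + 1, fun i => Nat.casesOn i a P, rfl, fun i hi => ?_, fun i => ?_⟩
    · cases i with
      | zero => omega
      | succ i => exact hc i (by omega)
    · cases i with
      | zero =>
        change r a (P 0)
        rwa [h0]
      | succ i => exact hP i

end Vale.Agent.P212
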