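import Vale.Agent.P212.EL3
import Vale.Agent.P212.GT

/-! Congruence subgroups over `𝔽₅⟦Y⟧` and the homomorphisms from `EL₃(𝔽₅[t, s, u])`. -/

namespace Vale.Agent.P212

noncomputable section

open Matrix

instance fact5 : Fact (Nat.Prime 5) := ⟨by norm_num⟩

/-- The ring `𝔽₅⟦Y⟧`. -/
abbrev PS : Type := PowerSeries (ZMod 5)

/-- The unit `1 + Y`. -/
def tY : PS := 1 + PowerSeries.X

/-- The inverse of `1 + Y`. -/
def sY : PS := PowerSeries.invOfUnit tY 1

lemma tY_mul_sY : tY * sY = 1 := PowerSeries.mul_invOfUnit _ _ (by simp [tY])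

/-- The matrices that are elementary modulo `Y`. -/
def EE : Subgroup (SL3 PS) :=
  (EL (ZMod 5)).comap (SpecialLinearGroup.map (PowerSeries.constantCoeff (R := ZMod 5)))

/-- The evaluation `t ↦ 1 + Y`, `s ↦ (1 + Y)⁻¹`, `u ↦ a`. -/
def evalR (a : PS) : R0 →+* PS := (MvPolynomial.aeval ![tY, sY, a]).toRingHom

lemma map_evalR_mem (a : PS) (γ : Gam) : SpecialLinearGroup.map (evalR a) γ.1 ∈ EE :=
  map_mem_EL _ (map_mem_EL _ γ.2)

/-- The homomorphism `θ_a`. -/
def th (a : PS) : Gam →* EE :=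
  ((SpecialLinearGroup.map (evalR a)).comp (EL R0).subtype).codRestrict EE (map_evalR_mem a)

/-- The congruence subgroup of level `Y ^ e`. -/
def NN (e : ℕ) : Subgroup EE :=
  ((SpecialLinearGroup.map
    (Ideal.Quotient.mk (Ideal.span {(PowerSeries.X : PS) ^ e}))).comp EE.subtype).ker

lemma mem_NN {e : ℕ} {w : EE} :
    w ∈ NN e ↔ ∀ i j, (PowerSeries.X : PS) ^ e ∣ (w.1.1 - 1) i j := by
  refine (MonoidHom.mem_ker.trans (Matrix.SpecialLinearGroup.ext_iff _ _)).trans ?_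
  refine forall_congr' fun i => forall_congr' fun j => ?_
  rw [← Ideal.mem_span_singleton, Matrix.sub_apply, ← Ideal.Quotient.eq]
  change Ideal.Quotient.mk _ (w.1.1 i j) = (1 : Matrix (Fin 3) (Fin 3) _) i j ↔ _
  have : (1 : Matrix (Fin 3) (Fin 3) (PS ⧸ Ideal.span {(PowerSeries.X : PS) ^ e})) i j =
      Ideal.Quotient.mk _ ((1 : Matrix (Fin 3) (Fin 3) PS) i j) := by
    simp only [Matrix.one_apply]
    split_ifs <;> simp
  rw [this]

lemma NN_normal (e : ℕ) : (NN e).Normal := MonoidHom.normal_ker _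

lemma GT1_finite (e : ℕ) : Finite (PS ⧸ Ideal.span {(PowerSeries.X : PS) ^ e}) := by
  refine Finite.of_surjective (fun c : Fin e → ZMod 5 => Ideal.Quotient.mk _
    (PowerSeries.mk fun n => if h : n < e then c ⟨n, h⟩ else 0)) ?_
  intro x
  obtain ⟨f, rfl⟩ := Ideal.Quotient.mk_surjective x
  refine ⟨fun n => PowerSeries.coeff n.1 f, ?_⟩
  rw [Ideal.Quotient.eq, Ideal.mem_span_singleton, PowerSeries.X_pow_dvd_iff]
  intro m hm
  simp [hm]

lemma NN_finIdx (e : ℕ) : (NN e).FiniteIndex := by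
  have := GT1_finite e
  have : Finite (SL3 (PS ⧸ Ideal.span {(PowerSeries.X : PS) ^ e})) :=
    inferInstanceAs (Finite { A : Matrix (Fin 3) (Fin 3) _ // A.det = 1 })
  exact Subgroup.finiteIndex_ker _

lemma NN_zero : NN 0 = ⊤ := by
  rw [eq_top_iff]
  intro w _
  rw [mem_NN]
  intro i j
  simp

lemma NN_anti (e : ℕ) : NN (e + 1) ≤ NN e := by
  intro w hw
  rw [mem_NN] at hw ⊢
  intro i j
  exact (pow_dvd_pow _ (Nat.le_succ e)).trans (hw i j)

/-- The elementary moves of the parameter `a`. -/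
def MoveA (a a' : PS) : Prop := a' = a ∨ a' = a + 1 ∨ a' = a - 1 ∨ a' = tY * a ∨ a' = sY * a

lemma MoveA.symm {a a' : PS} (h : MoveA a a') : MoveA a' a := by
  rcases h with h | h | h | h | h
  · exact Or.inl h.symm
  · exact Or.inr (Or.inr (Or.inl (by rw [h]; ring)))
  · exact Or.inr (Or.inl (by rw [h]; ring))
  · refine Or.inr (Or.inr (Or.inr (Or.inr ?_)))
    rw [h, ← mul_assoc, mul_comm sY, tY_mul_sY, one_mul]
  · refine Or.inr (Or.inr (Or.inr (Or.inl ?_)))
    rw [h, ← mul_assoc, tY_mul_sY, one_mul]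

lemma GT1_evalR_X0 (a : PS) : evalR a (MvPolynomial.X 0) = tY := by simp [evalR]

lemma GT1_evalR_X1 (a : PS) : evalR a (MvPolynomial.X 1) = sY := by simp [evalR]

lemma GT1_evalR_X2 (a : PS) : evalR a (MvPolynomial.X 2) = a := by simp [evalR]

lemma GT1_evalR_C (a : PS) (c : ZMod 5) : evalR a (MvPolynomial.C c) = PowerSeries.C c :=
  RingHom.congr_fun (RingHom.ext_zmod ((evalR a).comp MvPolynomial.C) PowerSeries.C) c

/-- The substitution `u ↦ p`. -/
def GT1_sub (p : R0) : R0 →+* R0 :=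
  (MvPolynomial.aeval ![MvPolynomial.X 0, MvPolynomial.X 1, p]).toRingHom

lemma GT1_comp (a : PS) (p : R0) : (evalR a).comp (GT1_sub p) = evalR (evalR a p) := by
  refine MvPolynomial.ringHom_ext (fun c => ?_) fun i => ?_
  · exact RingHom.congr_fun (RingHom.ext_zmod (((evalR a).comp (GT1_sub p)).comp MvPolynomial.C)
      ((evalR (evalR a p)).comp MvPolynomial.C)) c
  · fin_cases i
    · change evalR a (GT1_sub p (MvPolynomial.X 0)) = evalR _ (MvPolynomial.X 0)
      have : GT1_sub p (MvPolynomial.X 0) = MvPolynomial.X 0 := by simp [GT1_sub]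
      rw [this, GT1_evalR_X0, GT1_evalR_X0]
    · change evalR a (GT1_sub p (MvPolynomial.X 1)) = evalR _ (MvPolynomial.X 1)
      have : GT1_sub p (MvPolynomial.X 1) = MvPolynomial.X 1 := by simp [GT1_sub]
      rw [this, GT1_evalR_X1, GT1_evalR_X1]
    · change evalR a (GT1_sub p (MvPolynomial.X 2)) = evalR _ (MvPolynomial.X 2)
      have : GT1_sub p (MvPolynomial.X 2) = p := by simp [GT1_sub]
      rw [this, GT1_evalR_X2]

lemma GT1_th_apply (a : PS) (γ : Gam) (i j : Fin 3) :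
    (th a γ).1.1 i j = evalR a (γ.1.1 i j) := rfl

lemma GT1_ext {v w : EE} (h : ∀ i j, v.1.1 i j = w.1.1 i j) : v = w :=
  Subtype.ext (Subtype.ext (Matrix.ext h))

lemma GT1_th_sub (a : PS) (p : R0) (γ : Gam) :
    th (evalR a p) γ =
      th a ⟨SpecialLinearGroup.map (GT1_sub p) γ.1, map_mem_EL _ γ.2⟩ := by
  refine GT1_ext fun i j => ?_
  rw [GT1_th_apply, GT1_th_apply, ← GT1_comp]
  rfl

lemma th_move (γ : Gam) : ∃ S : Finset Gam, ∀ a a', MoveA a a' → ∃ s ∈ S, th a' γ = th a s := by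
  classical
  let P : Finset R0 := {MvPolynomial.X 2, MvPolynomial.X 2 + 1, MvPolynomial.X 2 - 1,
    MvPolynomial.X 0 * MvPolynomial.X 2, MvPolynomial.X 1 * MvPolynomial.X 2}
  refine ⟨P.image fun p => ⟨SpecialLinearGroup.map (GT1_sub p) γ.1, map_mem_EL _ γ.2⟩, ?_⟩
  intro a a' h
  have : ∃ p ∈ P, a' = evalR a p := by
    rcases h with h | h | h | h | h
    · exact ⟨MvPolynomial.X 2, by simp [P], by rw [h, GT1_evalR_X2]⟩
    · exact ⟨MvPolynomial.X 2 + 1, by simp [P], by rw [h, map_add, map_one, GT1_evalR_X2]⟩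
    · exact ⟨MvPolynomial.X 2 - 1, by simp [P], by rw [h, map_sub, map_one, GT1_evalR_X2]⟩
    · exact ⟨MvPolynomial.X 0 * MvPolynomial.X 2, by simp [P],
        by rw [h, map_mul, GT1_evalR_X0, GT1_evalR_X2]⟩
    · exact ⟨MvPolynomial.X 1 * MvPolynomial.X 2, by simp [P],
        by rw [h, map_mul, GT1_evalR_X1, GT1_evalR_X2]⟩
  obtain ⟨p, hp, rfl⟩ := this
  exact ⟨_, Finset.mem_image_of_mem _ hp, GT1_th_sub a p γ⟩

lemma GT1_reach_nat {a : PS} (h : Relation.ReflTransGen MoveA 0 a) (n : ℕ) :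
    Relation.ReflTransGen MoveA 0 (a + n) := by
  induction n with
  | zero => simpa using h
  | succ n ih => exact ih.tail (Or.inr (Or.inl (by push_cast; ring)))

lemma GT1_reach_poly (p : Polynomial (ZMod 5)) :
    Relation.ReflTransGen MoveA 0 (Polynomial.aeval tY p) := by
  induction p using Polynomial.recOnHorner with
  | M0 => simpa using Relation.ReflTransGen.refl
  | MC p a _ _ ih =>
    have e : Polynomial.aeval tY (Polynomial.C a) = ((a.val : ℕ) : PS) := by
      rw [Polynomial.aeval_C, ← map_natCast (algebraMap (ZMod 5) PS), ZMod.natCast_zmod_val]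
    rw [map_add, e]
    exact GT1_reach_nat ih _
  | MX p _ ih =>
    refine ih.tail (Or.inr (Or.inr (Or.inr (Or.inl ?_))))
    rw [map_mul, Polynomial.aeval_X, mul_comm]

lemma reach_pow (e : ℕ) : Relation.ReflTransGen MoveA 0 (PowerSeries.X ^ e) := by
  have h := GT1_reach_poly ((Polynomial.X - 1) ^ e)
  rwa [map_pow, map_sub, map_one, Polynomial.aeval_X, tY, add_sub_cancel_left] at h

/-- Reduction modulo `Y ^ e`. -/
abbrev GT1_q (e : ℕ) : PS →+* PS ⧸ Ideal.span {(PowerSeries.X : PS) ^ e} := Ideal.Quotient.mk _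

/-- Reduction of matrices modulo `Y ^ e`. -/
def GT1_red (e : ℕ) (w : EE) : Matrix (Fin 3) (Fin 3) (PS ⧸ Ideal.span {(PowerSeries.X : PS) ^ e}) :=
  w.1.1.map (GT1_q e)

lemma GT1_red_mul (e : ℕ) (v w : EE) : GT1_red e (v * w) = GT1_red e v * GT1_red e w :=
  Matrix.map_mul (L := v.1.1) (M := w.1.1) (f := GT1_q e)

lemma GT1_mem_of_red {e : ℕ} {v w : EE} (h : GT1_red e v = GT1_red e w) : v⁻¹ * w ∈ NN e := by
  unfold NN
  rw [MonoidHom.mem_ker, map_mul, map_inv, inv_mul_eq_one]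
  exact Subtype.ext h

/-- Constants modulo `Y ^ e`. -/
def GT1_c (e : ℕ) : ZMod 5 →+* PS ⧸ Ideal.span {(PowerSeries.X : PS) ^ e} :=
  (GT1_q e).comp PowerSeries.C

/-- The matrices realised in the successive quotients. -/
def GT1_P (M : Matrix (Fin 3) (Fin 3) (ZMod 5)) : Prop :=
  ∃ κ : Gam, ∀ e, 1 ≤ e → GT1_red (e + 1) (th (PowerSeries.X ^ e) κ) =
    1 + GT1_q (e + 1) (PowerSeries.X ^ e) • (GT1_c (e + 1)).mapMatrix M

lemma GT1_eps {e : ℕ} (he : 1 ≤ e) :
    GT1_q (e + 1) (PowerSeries.X ^ e) * GT1_q (e + 1) (PowerSeries.X ^ e) = 0 := by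
  rw [← map_mul, Ideal.Quotient.eq_zero_iff_mem, Ideal.mem_span_singleton, ← pow_add]
  exact pow_dvd_pow _ (by omega)

lemma GT1_alg1 {S : Type} [CommRing S] {ε : S} (h : ε * ε = 0) (A B : Matrix (Fin 3) (Fin 3) S) :
    (1 + ε • A) * (1 + ε • B) = 1 + ε • (A + B) := by
  have : ε • A * ε • B = 0 := by
    rw [Matrix.smul_mul, Matrix.mul_smul, smul_smul, h, zero_smul]
  rw [mul_add, add_mul, add_mul, this, smul_add, mul_one, mul_one, one_mul, add_zero, add_assoc]

lemma GT1_alg2 {S : Type} [CommRing S] (ε : S) {U V : Matrix (Fin 3) (Fin 3) S} (h : U * V = 1)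
    (A : Matrix (Fin 3) (Fin 3) S) : U * (1 + ε • A) * V = 1 + ε • (U * A * V) := by
  rw [mul_add, add_mul, mul_one, h, Matrix.mul_smul, Matrix.smul_mul]

lemma GT1_P_add {M N : Matrix (Fin 3) (Fin 3) (ZMod 5)} (hM : GT1_P M) (hN : GT1_P N) :
    GT1_P (M + N) := by
  obtain ⟨κ, hκ⟩ := hM
  obtain ⟨μ, hμ⟩ := hN
  refine ⟨κ * μ, fun e he => ?_⟩
  rw [map_mul, GT1_red_mul, hκ e he, hμ e he, map_add, GT1_alg1 (GT1_eps he)]

lemma GT1_red_tv (e : ℕ) (a : PS) {i j : Fin 3} (h : i ≠ j) (r : R0) :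
    GT1_red e (th a (EL3_tv h r)) = 1 + single i j (GT1_q e (evalR a r)) := by
  have h1 := map_tv ((GT1_q e).comp (evalR a)) h r
  exact congrArg Subtype.val h1

lemma GT1_map_single (e : ℕ) (i j : Fin 3) (c : ZMod 5) :
    (GT1_c e).mapMatrix (single i j c) = single i j (GT1_c e c) := by
  ext a b
  simp only [RingHom.mapMatrix_apply, Matrix.map_apply, Matrix.single_apply]
  split_ifs <;> simp

lemma GT1_P_single {i j : Fin 3} (h : i ≠ j) (c : ZMod 5) : GT1_P (single i j c) := by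
  refine ⟨EL3_tv h (MvPolynomial.X 2 * MvPolynomial.C c), fun e _ => ?_⟩
  rw [GT1_red_tv, GT1_map_single, Matrix.smul_single, map_mul, map_mul, GT1_evalR_X2,
    GT1_evalR_C]
  rfl

lemma GT1_P_conj {M : Matrix (Fin 3) (Fin 3) (ZMod 5)} (hM : GT1_P M) {i j : Fin 3} (h : i ≠ j) :
    GT1_P ((1 + single i j 1) * M * (1 + single i j (-1))) := by
  obtain ⟨κ, hκ⟩ := hM
  refine ⟨EL3_tv h 1 * κ * EL3_tv h (-1), fun e he => ?_⟩
  rw [map_mul, map_mul, GT1_red_mul, GT1_red_mul, hκ e he, GT1_red_tv, GT1_red_tv, map_mul,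
    map_mul, map_add, map_add, GT1_map_single, GT1_map_single]
  simp only [map_one, map_neg]
  have h0 : ((1 : Matrix (Fin 3) (Fin 3) (PS ⧸ Ideal.span {(PowerSeries.X : PS) ^ (e + 1)})) +
      single i j 1) * (1 + single i j (-1)) = 1 := by
    simp only [mul_add, add_mul, one_mul, mul_one, Matrix.single_mul_single_of_ne _ _ _ _ h.symm,
      add_zero]
    rw [add_assoc, ← Matrix.single_add, add_neg_cancel, Matrix.single_zero, add_zero]
  exact GT1_alg2 _ h0 _

lemma GT1_P_all {M : Matrix (Fin 3) (Fin 3) (ZMod 5)} (hM : M.trace = 0) : GT1_P M := by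
  have n01 : (0 : Fin 3) ≠ 1 := by decide
  have n12 : (1 : Fin 3) ≠ 2 := by decide
  have n20 : (2 : Fin 3) ≠ 0 := by decide
  have h1 := GT1_P_conj (GT1_P_single n01 (-M 0 0)) n01.symm
  have h2 := GT1_P_conj (GT1_P_single n12 (M 2 2)) n12.symm
  have h := GT1_P_add (GT1_P_add (GT1_P_add (GT1_P_add (GT1_P_add (GT1_P_add (GT1_P_add h1 h2)
    (GT1_P_single n01 (M 0 1 + M 0 0))) (GT1_P_single n01.symm (M 1 0 - M 0 0)))
    (GT1_P_single n12 (M 1 2 - M 2 2))) (GT1_P_single n12.symm (M 2 1 + M 2 2)))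
    (GT1_P_single n20 (M 2 0))) (GT1_P_single n20.symm (M 0 2))
  have h11 : M 1 1 = -M 0 0 - M 2 2 := by
    rw [Matrix.trace_fin_three] at hM
    linear_combination hM
  refine (congrArg GT1_P ?_).mp h
  ext a b
  fin_cases a <;> fin_cases b <;>
    simp [Matrix.mul_apply, Fin.sum_univ_three, Matrix.one_apply, Matrix.single_apply, h11,
      sub_eq_add_neg]

lemma GT1_level {e : ℕ} (he : 1 ≤ e) {w : EE} (hw : w ∈ NN e) :
    ∃ M : Matrix (Fin 3) (Fin 3) (ZMod 5), M.trace = 0 ∧ GT1_red (e + 1) w =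
      1 + GT1_q (e + 1) (PowerSeries.X ^ e) • (GT1_c (e + 1)).mapMatrix M := by
  rw [mem_NN] at hw
  choose N hN using hw
  have hwN : w.1.1 = 1 + ((PowerSeries.X : PS) ^ e) • Matrix.of N := by
    ext1 i j
    have := hN i j
    rw [Matrix.sub_apply] at this
    rw [Matrix.add_apply, Matrix.smul_apply, Matrix.of_apply, smul_eq_mul, ← this]
    ring
  refine ⟨(Matrix.of N).map PowerSeries.constantCoeff, ?_, ?_⟩
  · have hd := w.1.2
    rw [hwN, Matrix.det_one_add_smul, add_assoc, add_eq_left, pow_two, ← mul_assoc, ← add_mul,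
      mul_eq_zero] at hd
    rcases hd with hd | hd
    · have := congrArg PowerSeries.constantCoeff hd
      rw [map_add, map_mul, map_pow, PowerSeries.constantCoeff_X, zero_pow (by omega), mul_zero,
        add_zero, map_zero, Matrix.trace_fin_three, map_add, map_add] at this
      rw [Matrix.trace_fin_three]
      exact this
    · exact absurd hd (pow_ne_zero _ PowerSeries.X_ne_zero)
  · ext i j
    have h1 : GT1_q (e + 1) (PowerSeries.X ^ e * N i j) = GT1_q (e + 1)
        (PowerSeries.X ^ e * PowerSeries.C (PowerSeries.constantCoeff (N i j))) := by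
      rw [Ideal.Quotient.eq, Ideal.mem_span_singleton, ← mul_sub, pow_succ]
      refine mul_dvd_mul_left _ ?_
      rw [PowerSeries.X_dvd_iff]
      simp
    rw [map_mul, map_mul] at h1
    unfold GT1_red
    rw [hwN]
    simp only [Matrix.map_apply, Matrix.add_apply, Matrix.smul_apply, Matrix.of_apply,
      smul_eq_mul, map_add, map_mul, h1, RingHom.mapMatrix_apply, Matrix.one_apply]
    congr 1
    split_ifs <;> simp

/-- The successive quotients of the congruence filtration are covered by a fixed finite set. -/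
lemma th_ker : ∃ K : Finset Gam, ∀ e, ∀ w ∈ NN e, ∃ k ∈ K,
    (th (PowerSeries.X ^ e) k)⁻¹ * w ∈ NN (e + 1) := by
  classical
  have hall : ∀ M : Matrix (Fin 3) (Fin 3) (ZMod 5), ∃ κ : Gam, M.trace = 0 → ∀ e, 1 ≤ e →
      GT1_red (e + 1) (th (PowerSeries.X ^ e) κ) =
        1 + GT1_q (e + 1) (PowerSeries.X ^ e) • (GT1_c (e + 1)).mapMatrix M := by
    intro M
    by_cases h : M.trace = 0
    · obtain ⟨κ, hκ⟩ := GT1_P_all h
      exact ⟨κ, fun _ => hκ⟩
    · exact ⟨1, fun h' => absurd h' h⟩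
  choose κ hκ using hall
  have : Finite (SL3 (ZMod 5)) :=
    inferInstanceAs (Finite { A : Matrix (Fin 3) (Fin 3) (ZMod 5) // A.det = 1 })
  let f : EL (ZMod 5) → Gam := fun g =>
    ⟨SpecialLinearGroup.map MvPolynomial.C g.1, map_mem_EL _ g.2⟩
  refine ⟨(Set.finite_range κ).toFinset ∪ (Set.finite_range f).toFinset, fun e w hw => ?_⟩
  rcases Nat.eq_zero_or_pos e with rfl | he
  · refine ⟨f ⟨_, w.2⟩, by simp, GT1_mem_of_red ?_⟩
    ext i j
    change GT1_q _ (evalR _ (MvPolynomial.C (PowerSeries.constantCoeff (w.1.1 i j)))) =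
      GT1_q _ (w.1.1 i j)
    rw [GT1_evalR_C, Ideal.Quotient.eq, Ideal.mem_span_singleton, zero_add, pow_one,
      PowerSeries.X_dvd_iff]
    simp
  · obtain ⟨M, hM, h⟩ := GT1_level he hw
    exact ⟨κ M, by simp, GT1_mem_of_red ((hκ M hM e he).trans h.symm)⟩

end

end Vale.Agent.P212
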