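import Vale.Agent.P212.GT1

/-! The monodromy elements and the construction of the tower. -/

namespace Vale.Agent.P212

noncomputable section

open Matrix

lemma GT2_cc_tY : PowerSeries.constantCoeff tY = 1 := by simp [tY]

lemma GT2_cc_sY : PowerSeries.constantCoeff sY = 1 := by
  have := congrArg PowerSeries.constantCoeff tY_mul_sY
  rwa [map_mul, GT2_cc_tY, one_mul, map_one] at this

lemma GT2_ts (m : ℕ) : tY ^ m * sY ^ m = 1 := by rw [← mul_pow, tY_mul_sY, one_pow]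

lemma exists_gg (n : ℕ) : ∃ g : EE, g.1.1 = diagonal ![tY ^ MM n, sY ^ MM n, 1] := by
  have hd : (diagonal ![tY ^ MM n, sY ^ MM n, 1] : Matrix (Fin 3) (Fin 3) PS).det = 1 := by
    rw [det_diagonal, Fin.prod_univ_three]
    simp [GT2_ts]
  refine ⟨⟨⟨_, hd⟩, ?_⟩, rfl⟩
  have : SpecialLinearGroup.map (PowerSeries.constantCoeff (R := ZMod 5))
      (⟨_, hd⟩ : SL3 PS) = 1 := by
    refine Subtype.ext (Matrix.ext fun i j => ?_)
    change PowerSeries.constantCoeff (diagonal ![tY ^ MM n, sY ^ MM n, 1] i j) =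
      (1 : Matrix (Fin 3) (Fin 3) (ZMod 5)) i j
    fin_cases i <;> fin_cases j <;> simp [GT2_cc_tY, GT2_cc_sY]
  exact Subgroup.mem_comap.2 ((congrArg (· ∈ EL (ZMod 5)) this).mpr (one_mem _))

/-- The monodromy element `diag (T ^ M, T ^ (-M), 1)`. -/
def gg (n : ℕ) : EE := (exists_gg n).choose

lemma gg_val (n : ℕ) : (gg n).1.1 = diagonal ![tY ^ MM n, sY ^ MM n, 1] :=
  (exists_gg n).choose_spec

lemma GT2_pow_val (n m : ℕ) :
    (gg n ^ m).1.1 = diagonal ![tY ^ (MM n * m), sY ^ (MM n * m), 1] := by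
  induction m with
  | zero =>
    rw [pow_zero]
    change (1 : Matrix (Fin 3) (Fin 3) PS) = _
    ext1 i j
    fin_cases i <;> fin_cases j <;> simp
  | succ m ih =>
    rw [pow_succ]
    change (gg n ^ m).1.1 * (gg n).1.1 = _
    rw [ih, gg_val, diagonal_mul_diagonal]
    congr 1
    funext i
    fin_cases i <;> simp [mul_add, pow_add]

lemma GT2_inv_val (n m : ℕ) :
    (gg n ^ m)⁻¹.1.1 = diagonal ![sY ^ (MM n * m), tY ^ (MM n * m), 1] := by
  have h1 : (gg n ^ m).1.1 * (gg n ^ m)⁻¹.1.1 = 1 :=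
    congrArg (fun x : EE => x.1.1) (mul_inv_cancel (gg n ^ m))
  have h2 : diagonal ![sY ^ (MM n * m), tY ^ (MM n * m), 1] * (gg n ^ m).1.1 = 1 := by
    rw [GT2_pow_val, diagonal_mul_diagonal]
    have h3 := GT2_ts (MM n * m)
    have h4 := (mul_comm _ _).trans h3
    ext1 i j
    fin_cases i <;> fin_cases j <;> simp [h3, h4]
  exact (left_inv_eq_right_inv h2 h1).symm

lemma GT2_trace (n : ℕ) (k : ℤ) : (gg n ^ k).1.1.trace =
    tY ^ (MM n * k.natAbs) + sY ^ (MM n * k.natAbs) + 1 := by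
  obtain ⟨m, rfl | rfl⟩ := Int.eq_nat_or_neg k
  · rw [zpow_natCast, GT2_pow_val, trace_diagonal, Fin.sum_univ_three]
    simp
  · rw [_root_.zpow_neg, zpow_natCast, GT2_inv_val, trace_diagonal, Fin.sum_univ_three]
    simp [add_comm]

lemma GT2_charP : CharP PS 5 :=
  charP_of_injective_ringHom (f := PowerSeries.C (R := ZMod 5)) PowerSeries.C_injective 5

lemma GT2_frob (j : ℕ) : tY ^ 5 ^ j = 1 + PowerSeries.X ^ 5 ^ j := by
  have := GT2_charP
  rw [tY, add_pow_char_pow, one_pow]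

lemma gg_pow (n : ℕ) : gg n ^ MM n ∈ NN (MM n * MM n) := by
  rw [mem_NN, GT2_pow_val]
  have h1 : tY ^ (MM n * MM n) - 1 = PowerSeries.X ^ (MM n * MM n) := by
    rw [MM, ← pow_add, GT2_frob, add_sub_cancel_left]
  have h2 : sY ^ (MM n * MM n) - 1 = PowerSeries.X ^ (MM n * MM n) * -sY ^ (MM n * MM n) := by
    rw [← h1]
    linear_combination GT2_ts (MM n * MM n)
  intro i j
  fin_cases i <;> fin_cases j <;> simp [h1, h2]

/-- The order of vanishing of `(1 + Y) ^ k - 1`. -/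
lemma tY_pow_sub_one {k : ℕ} (hk : ¬ 5 ∣ k) (j : ℕ) :
    ∃ u : PS, IsUnit u ∧ tY ^ (k * 5 ^ j) - 1 = PowerSeries.X ^ 5 ^ j * u := by
  refine ⟨∑ i ∈ Finset.range k, (tY ^ 5 ^ j) ^ i, ?_, ?_⟩
  · rw [PowerSeries.isUnit_iff_constantCoeff, map_sum]
    simp only [map_pow, GT2_cc_tY, one_pow, Finset.sum_const, Finset.card_range, nsmul_eq_mul,
      mul_one]
    refine IsUnit.mk0 _ ?_
    rwa [Ne, ZMod.natCast_eq_zero_iff]
  · rw [mul_comm k, pow_mul, ← mul_geom_sum]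
    congr 1
    rw [GT2_frob, add_sub_cancel_left]

lemma GT2_red_of_mem {e : ℕ} {v w : EE} (h : v⁻¹ * w ∈ NN e) : GT1_red e v = GT1_red e w := by
  unfold NN at h
  rw [MonoidHom.mem_ker, map_mul, map_inv, inv_mul_eq_one] at h
  exact congrArg Subtype.val h

lemma GT2_trace_red (e : ℕ) (w : EE) : (GT1_red e w).trace = GT1_q e w.1.1.trace := by
  rw [trace_fin_three, trace_fin_three, map_add, map_add]
  rfl

lemma GT2_conj {e : ℕ} {v w x : EE} (h : (v * w)⁻¹ * (w * x) ∈ NN e) :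
    (PowerSeries.X : PS) ^ e ∣ v.1.1.trace - x.1.1.trace := by
  have h1 := GT2_red_of_mem h
  have h2 : GT1_red e v = GT1_red e (w * x) * GT1_red e w⁻¹ := by
    rw [← h1, ← GT1_red_mul, mul_inv_cancel_right]
  have h3 : (GT1_red e v).trace = (GT1_red e x).trace := by
    rw [h2, trace_mul_comm, ← GT1_red_mul, inv_mul_cancel_left]
  rwa [GT2_trace_red, GT2_trace_red, Ideal.Quotient.eq, Ideal.mem_span_singleton] at h3

lemma gg_disp (v : EE) : ∃ n₀, ∀ n, n₀ ≤ n → ∀ (w : EE) (k : ℤ),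
    (v * w)⁻¹ * (w * gg n ^ k) ∈ NN (MM n * MM n) → (MM n : ℤ) ∣ k := by
  have key : ∀ n (w : EE) (k : ℤ), (v * w)⁻¹ * (w * gg n ^ k) ∈ NN (MM n * MM n) →
      ¬ (MM n : ℤ) ∣ k → ∃ (d : ℕ) (t u : PS), MM n ≤ d ∧ d < MM n * MM n ∧ IsUnit t ∧ IsUnit u ∧
        (PowerSeries.X : PS) ^ (MM n * MM n) ∣
          t * (v.1.1.trace - 3) - PowerSeries.X ^ d * u := by
    intro n w k h hk
    rw [Int.natCast_dvd] at hk
    have hk0 : k.natAbs ≠ 0 := fun h0 => hk (h0 ▸ dvd_zero _)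
    obtain ⟨j, k', hk', e⟩ := Nat.exists_eq_pow_mul_and_not_dvd hk0 5 (by norm_num)
    have hj : j ≤ n + 1 := by
      by_contra hj
      exact hk (e ▸ (pow_dvd_pow 5 (by omega)).mul_right _)
    obtain ⟨u, hu, hu'⟩ := tY_pow_sub_one hk' (n + 2 + j)
    have hκ : MM n * k.natAbs = k' * 5 ^ (n + 2 + j) := by
      rw [e, MM, pow_add 5 (n + 2)]
      ring
    have h1 := GT2_conj h
    rw [GT2_trace, hκ] at h1
    refine ⟨5 ^ (n + 2 + j) * 2, tY ^ (k' * 5 ^ (n + 2 + j)), u ^ 2, ?_, ?_,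
      IsUnit.of_mul_eq_one _ (GT2_ts _), hu.pow 2, ?_⟩
    · have := Nat.pow_le_pow_right (show 0 < 5 by norm_num) (show n + 2 ≤ n + 2 + j by omega)
      rw [MM]
      omega
    · have := Nat.pow_le_pow_right (show 0 < 5 by norm_num)
        (show n + 2 + j ≤ n + 2 + (n + 1) by omega)
      have h5 : MM n * MM n = 5 ^ (n + 2 + (n + 1)) * 5 := by
        rw [MM]
        ring
      have : 0 < 5 ^ (n + 2 + (n + 1)) := by positivity
      omega
    · have h2 := GT2_ts (k' * 5 ^ (n + 2 + j))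
      have h3 : tY ^ (k' * 5 ^ (n + 2 + j)) * (v.1.1.trace - 3) -
          PowerSeries.X ^ (5 ^ (n + 2 + j) * 2) * u ^ 2 = tY ^ (k' * 5 ^ (n + 2 + j)) *
          (v.1.1.trace - (tY ^ (k' * 5 ^ (n + 2 + j)) + sY ^ (k' * 5 ^ (n + 2 + j)) + 1)) := by
        rw [pow_mul PowerSeries.X, ← mul_pow, ← hu']
        linear_combination h2
      rw [h3]
      exact h1.mul_left _
  by_cases hτ : v.1.1.trace - 3 = 0
  · refine ⟨0, fun n _ w k h => ?_⟩
    by_contra hk
    obtain ⟨d, t, u, -, hd, -, hu, h1⟩ := key n w k h hk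
    rw [hτ, mul_zero, zero_sub, dvd_neg] at h1
    have h2 : (PowerSeries.X : PS) ^ d * PowerSeries.X ∣ PowerSeries.X ^ d * u := by
      rw [← pow_succ]
      exact (pow_dvd_pow _ hd).trans h1
    rw [mul_dvd_mul_iff_left (pow_ne_zero _ PowerSeries.X_ne_zero), PowerSeries.X_dvd_iff] at h2
    exact (PowerSeries.isUnit_iff_constantCoeff.1 hu).ne_zero h2
  · obtain ⟨m, hm⟩ : ∃ m, PowerSeries.coeff m (v.1.1.trace - 3) ≠ 0 := by
      by_contra hc
      push Not at hc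
      exact hτ (PowerSeries.ext fun m => by rw [hc m, map_zero])
    refine ⟨m, fun n hn w k h => ?_⟩
    by_contra hk
    obtain ⟨d, t, u, hd, hd', ht, -, h1⟩ := key n w k h hk
    have h2 : (PowerSeries.X : PS) ^ MM n ∣ t * (v.1.1.trace - 3) := by
      have a1 := (pow_dvd_pow PowerSeries.X (hd.trans hd'.le)).trans h1
      have a2 : (PowerSeries.X : PS) ^ MM n ∣ PowerSeries.X ^ d * u :=
        (pow_dvd_pow _ hd).mul_right _
      simpa using a1.add a2
    rw [ht.dvd_mul_left, PowerSeries.X_pow_dvd_iff] at h2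
    refine hm (h2 m ?_)
    have := Nat.lt_pow_self (show 1 < 5 by norm_num) (n := n + 2)
    rw [MM]
    omega

/-- The steps of the tower. -/
def GT2_step (s s' : ℕ × PS) : Prop :=
  (s'.1 = s.1 ∧ MoveA s.2 s'.2) ∨ (s'.1 = s.1 + 1 ∧ s.2 = PowerSeries.X ^ s.1 ∧ s'.2 = s.2)

lemma GT2_lift (e : ℕ) {a b : PS} (h : Relation.ReflTransGen MoveA a b) :
    Relation.ReflTransGen GT2_step (e, a) (e, b) ∧
      Relation.ReflTransGen GT2_step (e, b) (e, a) := by
  induction h with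
  | refl => exact ⟨.refl, .refl⟩
  | @tail b c _ h ih =>
    have h' : GT2_step (e, c) (e, b) := Or.inl ⟨rfl, h.symm⟩
    exact ⟨ih.1.tail (Or.inl ⟨rfl, h⟩), ih.2.head h'⟩

lemma GT2_chain (e : ℕ) : Relation.ReflTransGen GT2_step (0, 0) (e, 0) := by
  induction e with
  | zero => exact .refl
  | succ e ih =>
    have h : GT2_step (e, PowerSeries.X ^ e) (e + 1, PowerSeries.X ^ e) := Or.inr ⟨rfl, rfl, rfl⟩
    exact ((ih.trans (GT2_lift e (reach_pow e)).1).tail h).trans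
      (GT2_lift (e + 1) (reach_pow e)).2

lemma GT2_move {s s' : ℕ × PS} (h : GT2_step s s') : MoveA s.2 s'.2 := by
  rcases h with h | h
  · exact h.2
  · exact Or.inl h.2.2

theorem exists_GT : Nonempty (GT Gam EE) := by
  classical
  choose c P h0 hc hP using fun n => exists_seq_of_chain (r := GT2_step)
    (fun a => Or.inl ⟨rfl, Or.inl rfl⟩) (GT2_chain (MM n * MM n))
  refine ⟨⟨c, fun n i => NN (P n i).1, fun n i => th (P n i).2, th 0, gg, fun n i => NN_normal _,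
    fun n i => NN_finIdx _, fun n => ?_, fun n i => ?_, fun n i h => ?_, fun n i h => ?_,
    fun n => ?_, fun γ => ?_, fun γ => ?_, ?_, fun γ => ?_⟩⟩
  · rw [h0]
    exact NN_zero
  · rcases hP n i with h | h
    · rw [h.1]
    · rw [h.1]
      exact NN_anti _
  · rw [hc n i h, hc n _ le_rfl]
  · rw [hc n i h]
  · rw [hc n _ le_rfl]
    exact gg_pow n
  · obtain ⟨S, hS⟩ := th_move γ
    exact ⟨S, fun n i => hS _ _ (GT2_move (hP n i))⟩
  · obtain ⟨S, hS⟩ := th_move γ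
    exact ⟨S, fun n i => hS _ _ (GT2_move (hP n i)).symm⟩
  · obtain ⟨K, hK⟩ := th_ker
    refine ⟨insert 1 K, fun n i w hw => ?_⟩
    rcases hP n i with h | h
    · refine ⟨1, Finset.mem_insert_self _ _, ?_⟩
      rw [map_one, inv_one, one_mul, h.1]
      exact hw
    · obtain ⟨k, hk, hk'⟩ := hK _ w hw
      refine ⟨k, Finset.mem_insert_of_mem hk, ?_⟩
      rw [h.1, h.2.2, h.2.1]
      exact hk'
  · obtain ⟨n₀, hn⟩ := gg_disp (th 0 γ)
    refine ⟨n₀, fun n h w k hw => hn n h w k ?_⟩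
    rwa [hc n _ le_rfl] at hw

end

end Vale.Agent.P212
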