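import Vale.Agent.P212.Stmt

/-! The metric of a coarse disjoint union of finite graphs of bounded degree. -/

namespace Vale.Agent.P212

/-- Chains of length `k` for a relation. -/
inductive Reach {α : Type} (r : α → α → Prop) : ℕ → α → α → Prop
  | refl (a : α) : Reach r 0 a a
  | step {k : ℕ} {a b c : α} (h : Reach r k a b) (h' : r b c) : Reach r (k + 1) a c

namespace Reach

variable {α : Type} {r : α → α → Prop}

lemma single {a b : α} (h : r a b) : Reach r 1 a b := (refl a).step h

lemma trans {k l : ℕ} {a b c : α} (h : Reach r k a b) (h' : Reach r l b c) :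
    Reach r (k + l) a c := by
  induction h' with
  | refl => exact h
  | step _ h' ih => exact (ih h).step h'

lemma symm (hr : ∀ a b, r a b → r b a) {k : ℕ} {a b : α} (h : Reach r k a b) : Reach r k b a := by
  induction h with
  | refl => exact refl _
  | step _ h' ih =>
    rw [add_comm]
    exact (single (hr _ _ h')).trans ih

lemma mono (hr : ∀ a, r a a) {k l : ℕ} (hkl : k ≤ l) {a b : α} (h : Reach r k a b) :
    Reach r l a b := by
  induction hkl with
  | refl => exact h
  | step _ ih => exact ih.step (hr b)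

lemma inv {β : Type} (f : α → β) (hf : ∀ a b, r a b → f a = f b) {k : ℕ} {a b : α}
    (h : Reach r k a b) : f a = f b := by
  induction h with
  | refl => rfl
  | step _ h' ih => exact ih.trans (hf _ _ h')

lemma zero_eq {a b : α} (h : Reach r 0 a b) : a = b := by
  cases h
  rfl

lemma succ_elim {k : ℕ} {a c : α} (h : Reach r (k + 1) a c) : ∃ b, Reach r k a b ∧ r b c := by
  cases h with
  | step h h' => exact ⟨_, h, h'⟩

lemma graph_ball (D : ℕ) (hD : ∀ x, {y | r x y}.encard ≤ D) (k : ℕ) (x : α) :
    ∃ s : Finset α, s.card ≤ D ^ k ∧ ∀ y, Reach r k x y → y ∈ s := by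
  classical
  have hfin : ∀ x, {y | r x y}.Finite := fun x => Set.finite_of_encard_le_coe (hD x)
  induction k with
  | zero => exact ⟨{x}, by simp, fun y h => by simp [h.zero_eq]⟩
  | succ k ih =>
    obtain ⟨s, hs, hs'⟩ := ih
    refine ⟨s.biUnion fun z => (hfin z).toFinset, ?_, fun y h => ?_⟩
    · refine (Finset.card_biUnion_le_card_mul s _ D fun z _ => ?_).trans ?_
      · have := hD z
        rw [(hfin z).encard_eq_coe_toFinset_card] at this
        exact_mod_cast this
      · rw [pow_succ]
        exact Nat.mul_le_mul_right _ hs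
    · obtain ⟨z, hz, hz'⟩ := h.succ_elim
      exact Finset.mem_biUnion.2 ⟨z, hs' z hz, by simpa using hz'⟩

end Reach

theorem exists_graph_metric {X : Type} (adj : X → X → Prop) (hr : ∀ x, adj x x)
    (hs : ∀ x y, adj x y → adj y x) (b : X → ℕ) (hb : ∀ x y, adj x y → b x = b y)
    (hf : ∀ n, {x | b x = n}.Finite) (D : ℕ) (hD : ∀ x, {y | adj x y}.encard ≤ D) :
    ∃ _ : MetricSpace X, UnifDiscrete X ∧ BddGeom X ∧ (∀ x y, adj x y → dist x y ≤ 1) ∧
      ∀ (R : ℕ) (x y : X), R ≤ b x → dist x y ≤ R → Reach adj R x y := by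
  classical
  have ex : ∀ x y, ∃ k, Reach adj k x y ∨ b x + b y + 2 ≤ k := fun x y => ⟨_, Or.inr le_rfl⟩
  let d : X → X → ℕ := fun x y => Nat.find (ex x y)
  have spec : ∀ x y, Reach adj (d x y) x y ∨ b x + b y + 2 ≤ d x y := fun x y =>
    Nat.find_spec (ex x y)
  have le : ∀ x y k, Reach adj k x y ∨ b x + b y + 2 ≤ k → d x y ≤ k := fun x y k h =>
    Nat.find_min' (ex x y) h
  have symm : ∀ x y, d x y ≤ d y x := fun x y => le x y _ <| by
    rcases spec y x with h | h
    · exact Or.inl (h.symm hs)
    · exact Or.inr (by omega)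
  have tri : ∀ x y z, d x z ≤ d x y + d y z := fun x y z => le x z _ <| by
    rcases spec x y with h | h <;> rcases spec y z with h' | h'
    · exact Or.inl (h.trans h')
    · have := h.inv b hb
      exact Or.inr (by omega)
    · have := h'.inv b hb
      exact Or.inr (by omega)
    · exact Or.inr (by omega)
  have zero : ∀ x y, d x y = 0 → x = y := fun x y h => by
    rcases spec x y with h' | h'
    · rw [h] at h'
      exact h'.zero_eq
    · omega
  let M : MetricSpace X :=
    { dist := fun x y => d x y
      dist_self := fun x => by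
        have := le x x 0 (Or.inl (Reach.refl x))
        exact_mod_cast Nat.le_zero.1 this
      dist_comm := fun x y => by exact_mod_cast le_antisymm (symm x y) (symm y x)
      dist_triangle := fun x y z => by exact_mod_cast tri x y z
      eq_of_dist_eq_zero := fun {x y} h => zero x y (by exact_mod_cast h) }
  have hd : ∀ x y, dist x y = (d x y : ℝ) := fun _ _ => rfl
  refine ⟨M, ⟨1, one_pos, fun x y h => ?_⟩, fun R => ?_, fun x y h => ?_, fun R x y hR h => ?_⟩
  · rw [hd]
    exact_mod_cast Nat.pos_of_ne_zero fun h0 => h (zero x y h0)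
  · have hB : {y | b y ≤ ⌊R⌋₊}.Finite := by
      refine ((Set.finite_Iic ⌊R⌋₊).biUnion fun n _ => hf n).subset fun y hy => ?_
      exact Set.mem_biUnion hy rfl
    refine ⟨D ^ ⌊R⌋₊ + hB.toFinset.card, fun x => ?_⟩
    obtain ⟨s, hs1, hs2⟩ := Reach.graph_ball D hD ⌊R⌋₊ x
    have hsub : Metric.closedBall x R ⊆ ↑(s ∪ hB.toFinset) := by
      intro y hy
      rw [Metric.mem_closedBall', hd] at hy
      have h1 : d x y ≤ ⌊R⌋₊ := Nat.le_floor hy
      rw [Finset.mem_coe, Finset.mem_union, Set.Finite.mem_toFinset, Set.mem_ofPred_eq]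
      rcases spec x y with h | h
      · exact Or.inl (hs2 y (h.mono hr h1))
      · exact Or.inr (by omega)
    refine (Set.encard_le_encard hsub).trans ?_
    rw [Set.encard_coe_eq_coe_finsetCard]
    exact_mod_cast (Finset.card_union_le _ _).trans (Nat.add_le_add_right hs1 _)
  · rw [hd]
    exact_mod_cast le x y 1 (Or.inl (Reach.single h))
  · rw [hd] at h
    have h1 : d x y ≤ R := by exact_mod_cast h
    rcases spec x y with h | h
    · exact h.mono hr h1
    · omega

end Vale.Agent.P212
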