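import Vale.Agent.P212.Stmt

/-! Interfaces between the geometry of the space and the analytic arguments. -/

namespace Vale.Agent.P212

/-- The combinatorial data for the swindle along the levels of the towers. -/
structure SW (X Γ : Type) [MetricSpace X] [Group Γ] where
  Y : Type
  f : Y → X
  act : Γ →* Equiv.Perm Y
  ρ : Equiv.Perm Y
  Bot : Set Y
  Top : Set Y
  p : Y → Y
  sec : Y → Y
  β : Y → Y
  blk : Y → ℕ
  fib_fin : ∀ x, (f ⁻¹' {x}).Finite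
  act_dist : ∀ γ, ∃ C : ℝ, ∀ y, dist (f (act γ y)) (f y) ≤ C
  ρ_dist : ∀ y, dist (f (ρ y)) (f y) ≤ 1
  p_dist : ∀ y, dist (f (p y)) (f y) ≤ 1
  act_ρ : ∀ γ y, act γ (ρ y) = ρ (act γ y)
  bot_act : ∀ γ, ∀ y ∈ Bot, act γ y = y
  top_act : ∀ γ y, act γ y ∈ Top ↔ y ∈ Top
  bot_ρ : ∀ y, ρ y ∈ Bot ↔ y ∈ Bot
  top_ρ : ∀ y, ρ y ∈ Top ↔ y ∈ Top
  disj : ∀ y ∈ Bot, y ∉ Top
  p_mem : ∀ y, p y ∉ Top
  sec_mem : ∀ y, sec y ∉ Bot
  p_sec : ∀ y, y ∉ Top → p (sec y) = y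
  p_ρ : ∀ y, p (ρ y) = ρ (p y)
  P1 : ∀ γ, ∃ S : Finset Γ, ∀ y, y ∉ Bot → ∃ s ∈ S, p (act γ y) = act s (p y)
  P2 : ∀ γ, ∃ S : Finset Γ, ∀ y, y ∉ Top → ∃ s ∈ S, sec (act γ y) = act s (sec y)
  P3 : ∃ S : Finset Γ, ∀ y, y ∉ Bot → ∃ s ∈ S, sec (p y) = act s y
  β_mem : ∀ y, β y ∈ Bot
  β_bot : ∀ y ∈ Bot, β y = y
  β_p : ∀ y, β (p y) = β y
  β_act : ∀ γ y, β (act γ y) = β y
  β_ρ : ∀ y, β (ρ y) = ρ (β y)
  f_bot : ∀ y ∈ Bot, ∀ y', f y' = f y → y' = y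
  ρ_free : ∀ y ∈ Bot, ∀ δ : ℤ, |δ| ≤ 8 → (ρ ^ δ) y = y → δ = 0
  top_f : ∀ y ∈ Top, f (ρ y) = f y
  blk_act : ∀ γ y, blk (act γ y) = blk y
  blk_ρ : ∀ y, blk (ρ y) = blk y
  blk_fin : ∀ n, {y | blk y = n}.Finite

/-- A sequence of disjoint loops in a metric space. -/
structure Loops (X : Type) [MetricSpace X] where
  len : ℕ → ℕ
  lp : ℕ → ℤ → X
  pos : X → ℤ
  len_ge : ∀ n, 9 ≤ len n
  lp_eq : ∀ n n' k k', lp n k = lp n' k' ↔ n = n' ∧ (len n : ℤ) ∣ k - k'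
  lp_dist : ∀ n k, dist (lp n k) (lp n (k + 1)) ≤ 1
  lp_pos : ∀ n k, lp n (pos (lp n k)) = lp n k

/-- A cocycle with values in `ZMod m` at scale `R` on an `R`-isolated finite set `T`. -/
structure Valid {X : Type} [MetricSpace X] (R : ℕ) {m : ℕ} (T : Finset X) (g : X → X → ZMod m) :
    Prop where
  iso : ∀ x ∈ T, ∀ y, dist x y ≤ R → y ∈ T
  coc : ∀ x ∈ T, ∀ y ∈ T, ∀ z ∈ T, dist x y ≤ R → dist y z ≤ R → dist x z ≤ R →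
    g x y + g y z = g x z

/-- The cocycle `g` on `T` measures the winding number of the `n`-th loop. -/
structure LoopOK {X : Type} [MetricSpace X] (lo : Loops X) (n : ℕ) {m : ℕ} (T : Finset X)
    (g : X → X → ZMod m) : Prop where
  mem : ∀ n' k, lo.lp n' k ∈ T ↔ n' = n
  val : ∀ (k k' i : ℤ), |lo.pos (lo.lp n k) - lo.pos (lo.lp n k') - i * lo.len n| ≤ 1 →
    g (lo.lp n k) (lo.lp n k') = i

/-- All geometric data of the counterexample. -/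
structure Geo (X Γ : Type) [MetricSpace X] [Group Γ] where
  ud : UnifDiscrete X
  bg : BddGeom X
  sw : SW X Γ
  lo : Loops X
  bot_lp : ∀ n k, ∃ y ∈ sw.Bot, ∀ δ : ℤ, lo.lp n (k + δ) = sw.f ((sw.ρ ^ δ) y)
  coc : ∀ R j : ℕ, ∃ (n m : ℕ) (T : Finset X) (g : X → X → ZMod m),
    j < m ∧ Valid R T g ∧ LoopOK lo n T g

end Vale.Agent.P212
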