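import Vale.Agent.P212.GT
import Vale.Agent.P212.Graph
import Vale.Agent.P212.Iface

/-! The spaces attached to a tower: definitions. -/

namespace Vale.Agent.P212

noncomputable section

namespace GT

variable {Γ G : Type} [Group Γ] [Group G] (t : GT Γ G)

/-- The index of the top level. -/
def T (n : ℕ) : ℕ := t.c n + n + (2 * n + 4)

/-- The period of the circle coordinate at level `i` of the `n`-th tower. -/
def cX (n i : ℕ) : ℤ := 5 ^ (2 * n + 4 - (i - (t.c n + n)))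

/-- Lifted points: tower, level, circle coordinate and fibre coordinate. -/
@[ext] structure Zp where
  n : ℕ
  i : ℕ
  z : ℤ
  w : G
  hi : i ≤ t.T n

lemma N_le (n : ℕ) {i i' : ℕ} (h : i ≤ i') : t.N n i' ≤ t.N n i := by
  induction h with
  | refl => exact le_rfl
  | step _ ih => exact (t.anti n _).trans ih

lemma gpow_mem (n i : ℕ) : t.g n ^ MM n ∈ t.N n i := by
  rcases le_total i (t.c n) with h | h
  · exact t.N_le n h (t.gpow n)
  · rw [t.stabN n i h]; exact t.gpow n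

/-- Identification of lifted points, with period `cc` for the circle coordinate. -/
def rel (cc : ℕ → ℕ → ℤ) (a b : t.Zp) : Prop :=
  a.n = b.n ∧ a.i = b.i ∧ ∃ k : ℤ, cc a.n a.i ∣ b.z - a.z - k * MM a.n ∧
    (a.w * t.g a.n ^ k)⁻¹ * b.w ∈ t.N a.n a.i

lemma rel_equiv (cc : ℕ → ℕ → ℤ) : Equivalence (t.rel cc) := by
  refine ⟨fun a => ⟨rfl, rfl, 0, by simp, by simp⟩, ?_, ?_⟩
  · rintro ⟨n, i, z, w, hi⟩ ⟨n', i', z', w', hi'⟩ ⟨rfl, rfl, k, h1, h2⟩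
    refine ⟨rfl, rfl, -k, ?_, ?_⟩
    · dsimp only at h1 ⊢
      rw [← dvd_neg]
      rwa [show -(z - z' - -k * (MM n : ℤ)) = z' - z - k * MM n by ring]
    · dsimp only at h2 ⊢
      have := (t.normal n i).conj_mem _ (inv_mem h2) (t.g n ^ k)
      rwa [show t.g n ^ k * ((w * t.g n ^ k)⁻¹ * w')⁻¹ * (t.g n ^ k)⁻¹ =
        (w' * t.g n ^ (-k))⁻¹ * w by group] at this
  · rintro ⟨n, i, z, w, hi⟩ ⟨n', i', z', w', hi'⟩ ⟨n'', i'', z'', w'', hi''⟩ ⟨rfl, rfl, k, h1, h2⟩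
      ⟨rfl, rfl, l, h3, h4⟩
    refine ⟨rfl, rfl, k + l, ?_, ?_⟩
    · dsimp only at h1 h3 ⊢
      have := dvd_add h1 h3
      rwa [show z' - z - k * (MM n : ℤ) + (z'' - z' - l * MM n) = z'' - z - (k + l) * MM n by ring]
        at this
    · dsimp only at h2 h4 ⊢
      have := mul_mem ((t.normal n i).conj_mem _ h2 (t.g n ^ l)⁻¹) h4
      rwa [show (t.g n ^ l)⁻¹ * ((w * t.g n ^ k)⁻¹ * w') * (t.g n ^ l)⁻¹⁻¹ *
        ((w' * t.g n ^ l)⁻¹ * w'') = (w * t.g n ^ (k + l))⁻¹ * w'' by group] at this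

/-- The setoid of `rel`. -/
def std (cc : ℕ → ℕ → ℤ) : Setoid t.Zp := ⟨t.rel cc, t.rel_equiv cc⟩

/-- The mapping tori. -/
def YY : Type := Quotient (t.std fun _ _ => 0)

/-- The space of the counterexample. -/
def XX : Type := Quotient (t.std t.cX)

variable {t}

/-- The class of a lifted point in the mapping tori. -/
def mkY (a : t.Zp) : t.YY := Quotient.mk _ a

/-- The class of a lifted point in the space. -/
def mkX (a : t.Zp) : t.XX := Quotient.mk _ a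

lemma mkY_eq {a b : t.Zp} : mkY a = mkY b ↔ t.rel (fun _ _ => 0) a b := Quotient.eq

lemma mkX_eq {a b : t.Zp} : mkX a = mkX b ↔ t.rel t.cX a b := Quotient.eq

lemma mkY_surj (y : t.YY) : ∃ a, mkY a = y := Quotient.exists_rep y

lemma mkX_surj (x : t.XX) : ∃ a, mkX a = x := Quotient.exists_rep x

/-- A chosen lift. -/
def outY (y : t.YY) : t.Zp := Quotient.out y

/-- A chosen lift. -/
def outX (x : t.XX) : t.Zp := Quotient.out x

lemma mkY_out (y : t.YY) : mkY (outY y) = y := Quotient.out_eq y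

lemma mkX_out (x : t.XX) : mkX (outX x) = x := Quotient.out_eq x

/-- The collapsing map. -/
def fY (y : t.YY) : t.XX := mkX (outY y)

lemma fY_mk (a : t.Zp) : fY (mkY a) = mkX a := by
  obtain ⟨h1, h2, k, h3, h4⟩ := mkY_eq.1 (mkY_out (mkY a))
  exact mkX_eq.2 ⟨h1, h2, k, (dvd_zero _).trans h3, h4⟩

/-- The tower containing a point. -/
def levX (x : t.XX) : ℕ := (outX x).n

/-- The tower containing a point. -/
def levY (y : t.YY) : ℕ := (outY y).n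

lemma levX_mk (a : t.Zp) : levX (mkX a) = a.n := by
  exact (mkX_eq.1 (mkX_out (mkX a))).1

lemma levY_mk (a : t.Zp) : levY (mkY a) = a.n := by
  exact (mkY_eq.1 (mkY_out (mkY a))).1

/-- Elementary moves of lifted points. -/
def Mv (S : Finset Γ) (a b : t.Zp) : Prop :=
  a.n = b.n ∧ ((a.i = b.i ∧ a.w = b.w ∧ |b.z - a.z| ≤ 1) ∨
    (a.i = b.i ∧ a.z = b.z ∧ ∃ s ∈ S, b.w = t.θ a.n a.i s * a.w ∨ a.w = t.θ a.n a.i s * b.w) ∨
    ((b.i = a.i + 1 ∨ a.i = b.i + 1) ∧ a.z = b.z ∧ a.w = b.w))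

lemma Mv.refl (S : Finset Γ) (a : t.Zp) : Mv S a a := ⟨rfl, .inl ⟨rfl, rfl, by simp⟩⟩

lemma Mv.symm {S : Finset Γ} {a b : t.Zp} (h : Mv S a b) : Mv S b a := by
  obtain ⟨n, i, z, w, hi⟩ := a
  obtain ⟨n', i', z', w', hi'⟩ := b
  obtain ⟨rfl, ⟨h1, h2, h3⟩ | ⟨rfl, h2, s, hs, h3⟩ | ⟨h1, h2, h3⟩⟩ := h
  · exact ⟨rfl, .inl ⟨h1.symm, h2.symm, by rwa [abs_sub_comm]⟩⟩
  · exact ⟨rfl, .inr (.inl ⟨rfl, h2.symm, s, hs, h3.symm⟩)⟩
  · exact ⟨rfl, .inr (.inr ⟨h1.symm, h2.symm, h3.symm⟩)⟩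

/-- The graph structure. -/
def Adj (S : Finset Γ) (x y : t.XX) : Prop := ∃ a b, mkX a = x ∧ mkX b = y ∧ Mv S a b

lemma Adj.refl (S : Finset Γ) (x : t.XX) : Adj S x x :=
  ⟨outX x, outX x, mkX_out x, mkX_out x, Mv.refl S _⟩

lemma Adj.symm {S : Finset Γ} {x y : t.XX} (h : Adj S x y) : Adj S y x := by
  obtain ⟨a, b, ha, hb, h⟩ := h
  exact ⟨b, a, hb, ha, h.symm⟩

lemma Adj.lev {S : Finset Γ} {x y : t.XX} (h : Adj S x y) : levX x = levX y := by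
  obtain ⟨a, b, rfl, rfl, h⟩ := h
  rw [levX_mk, levX_mk, h.1]

variable (t) in
/-- The bottom loops. -/
def lpX (n : ℕ) (k : ℤ) : t.XX := mkX ⟨n, 0, k, 1, Nat.zero_le _⟩

lemma cX_of_le {n i : ℕ} (h : i ≤ t.c n + n) : t.cX n i = MM n * MM n := by
  rw [cX, Nat.sub_eq_zero_of_le h, MM]
  push_cast
  ring

lemma MM_dvd_cX_zero (n : ℕ) : (MM n : ℤ) ∣ t.cX n 0 := by
  rw [cX_of_le (Nat.zero_le _)]
  exact dvd_mul_left _ _

lemma lpX_eq (n n' : ℕ) (k k' : ℤ) :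
    t.lpX n k = t.lpX n' k' ↔ n = n' ∧ (MM n : ℤ) ∣ k - k' := by
  rw [lpX, lpX, mkX_eq]
  constructor
  · rintro ⟨h, -, l, h1, -⟩
    refine ⟨h, ?_⟩
    dsimp only at h1
    have h2 := dvd_add ((MM_dvd_cX_zero n).trans h1) (dvd_mul_left (MM n : ℤ) l)
    rw [← dvd_neg]
    rwa [show k' - k - l * (MM n : ℤ) + l * MM n = -(k - k') by ring] at h2
  · rintro ⟨rfl, l, hl⟩
    refine ⟨rfl, rfl, -l, ?_, by simp [t.bot]⟩
    dsimp only
    rw [show k' - k - -l * (MM n : ℤ) = -(k - k' - MM n * l) by ring, hl, sub_self, neg_zero]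
    exact dvd_zero _

lemma lpX_pos (n : ℕ) (k : ℤ) : t.lpX n (outX (t.lpX n k)).z = t.lpX n k := by
  obtain ⟨h1, h2, l, h3, -⟩ := mkX_eq.1 (mkX_out (t.lpX n k)).symm
  refine (lpX_eq _ _ _ _).2 ⟨rfl, ?_⟩
  dsimp only at h3
  have h4 := dvd_add ((MM_dvd_cX_zero n).trans h3) (dvd_mul_left (MM n : ℤ) l)
  rwa [sub_add_cancel] at h4

lemma nine_le_MM (n : ℕ) : 9 ≤ MM n := by
  have : 5 ^ 2 ≤ 5 ^ (n + 2) := Nat.pow_le_pow_right (by norm_num) (by omega)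
  rw [MM]
  omega

/-- The loops of the space. -/
def loops (S : Finset Γ) [MetricSpace t.XX] (h : ∀ x y : t.XX, Adj S x y → dist x y ≤ 1) :
    Loops t.XX where
  len := MM
  lp := t.lpX
  pos x := (outX x).z
  len_ge := nine_le_MM
  lp_eq := lpX_eq
  lp_dist n k := h _ _ ⟨_, _, rfl, rfl, rfl, .inl ⟨rfl, rfl, by simp⟩⟩
  lp_pos := lpX_pos

end GT

end

end Vale.Agent.P212
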