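import Vale.Agent.P212.Geo0

/-! Finiteness of the towers and the degree bound. -/

namespace Vale.Agent.P212

namespace GT

variable {Γ G : Type} [Group Γ] [Group G] {t : GT Γ G}

lemma MM_pos (n : ℕ) : (0 : ℤ) < MM n := by
  have := nine_le_MM n
  omega

lemma cX_succ (n i : ℕ) : t.cX n i = t.cX n (i + 1) ∨ t.cX n i = 5 * t.cX n (i + 1) := by
  rw [cX, cX]
  rcases (by omega : 2 * n + 4 - (i - (t.c n + n)) = 2 * n + 4 - (i + 1 - (t.c n + n)) ∨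
    2 * n + 4 - (i - (t.c n + n)) = 2 * n + 4 - (i + 1 - (t.c n + n)) + 1) with h | h
  · exact .inl (by rw [h])
  · exact .inr (by rw [h, pow_succ, mul_comm])

lemma cX_succ_dvd (n i : ℕ) : t.cX n (i + 1) ∣ t.cX n i := by
  rcases cX_succ (t := t) n i with h | h <;> rw [h]
  exact dvd_mul_left _ _

/-- An element of the lower congruence subgroup is absorbed by a bounded group element. -/
lemma ker_move {K : Finset Γ}
    (hK : ∀ n i, ∀ w ∈ t.N n i, ∃ k ∈ K, (t.θ n (i + 1) k)⁻¹ * w ∈ t.N n (i + 1)) {n i : ℕ}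
    {w w' h : G} (hw : (w * h)⁻¹ * w' ∈ t.N n i) :
    ∃ k ∈ K, (t.θ n (i + 1) k * w * h)⁻¹ * w' ∈ t.N n (i + 1) := by
  obtain ⟨k, hk, h1⟩ := hK n i _ ((t.normal n i).conj_mem _ hw (w * h))
  refine ⟨k, hk, ?_⟩
  have := (t.normal n (i + 1)).conj_mem _ h1 (w * h)⁻¹
  rwa [show (w * h)⁻¹ * ((t.θ n (i + 1) k)⁻¹ * (w * h * ((w * h)⁻¹ * w') * (w * h)⁻¹)) *
    (w * h)⁻¹⁻¹ = (t.θ n (i + 1) k * w * h)⁻¹ * w' by group] at this

lemma levY_fin (n : ℕ) : {y : t.YY | levY y = n}.Finite := by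
  have key : ∀ i : Fin (t.T n + 1), Finite (G ⧸ t.N n i) := fun i =>
    have := t.finIdx n i
    Subgroup.finite_quotient_of_finiteIndex
  let F : (Σ i : Fin (t.T n + 1), Finset.Ico (0 : ℤ) (MM n * MM n) × (G ⧸ t.N n i)) → t.YY :=
    fun q => mkY ⟨n, q.1, q.2.1, q.2.2.out, Nat.lt_succ_iff.1 q.1.2⟩
  refine (Set.finite_range F).subset fun y hy => ?_
  obtain ⟨⟨n', i, z, w, hi⟩, rfl⟩ := mkY_surj y
  obtain rfl : n' = n := (levY_mk _).symm.trans hy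
  have hM := mul_pos (MM_pos n') (MM_pos n')
  refine ⟨⟨⟨i, Nat.lt_succ_iff.2 hi⟩, ⟨z % (MM n' * MM n'), Finset.mem_Ico.2
    ⟨Int.emod_nonneg _ hM.ne', Int.emod_lt_of_pos _ hM⟩⟩, QuotientGroup.mk w⟩,
    mkY_eq.2 ⟨rfl, rfl, z / (MM n' * MM n') * MM n', ?_, ?_⟩⟩
  · dsimp only
    rw [zero_dvd_iff, mul_assoc]
    linarith [Int.emod_add_ediv_mul z (MM n' * MM n')]
  · dsimp only
    rw [mul_inv_rev, mul_assoc]
    refine mul_mem (inv_mem ?_) (QuotientGroup.eq.1 (QuotientGroup.out_eq' _))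
    rw [mul_comm, zpow_mul, zpow_natCast]
    exact zpow_mem (t.gpow_mem _ _) _

lemma levX_fin (n : ℕ) : {x : t.XX | levX x = n}.Finite := by
  refine ((levY_fin (t := t) n).image fY).subset fun x hx => ?_
  obtain ⟨a, rfl⟩ := mkX_surj x
  exact ⟨mkY a, (levY_mk a).trans ((levX_mk a).symm.trans hx), fY_mk a⟩

lemma fY_fib (x : t.XX) : (fY ⁻¹' {x}).Finite := by
  refine (levY_fin (t := t) (levX x)).subset fun y hy => ?_
  obtain ⟨a, rfl⟩ := mkY_surj y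
  rw [Set.mem_preimage, fY_mk, Set.mem_singleton_iff] at hy
  rw [← hy, levX_mk]
  exact levY_mk a

theorem adj_deg (S : Finset Γ) : ∃ D : ℕ, ∀ x : t.XX, {y | Adj S x y}.encard ≤ D := by
  classical
  obtain ⟨K, hK⟩ := t.ker
  let I := Finset.Icc (-1 : ℤ) 1 ⊕ (S ⊕ S) ⊕ Fin 5 ⊕ K
  refine ⟨Fintype.card I, fun x => ?_⟩
  obtain ⟨⟨n, i, z, w, hi⟩, rfl⟩ := mkX_surj x
  let F : I → t.XX := fun q => match q with
    | .inl d => mkX ⟨n, i, z + d, w, hi⟩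
    | .inr (.inl (.inl s)) => mkX ⟨n, i, z, t.θ n i s * w, hi⟩
    | .inr (.inl (.inr s)) => mkX ⟨n, i, z, (t.θ n i s)⁻¹ * w, hi⟩
    | .inr (.inr (.inl d)) => mkX ⟨n, i - 1, z + (d : ℕ) * t.cX n i, w, (Nat.sub_le _ _).trans hi⟩
    | .inr (.inr (.inr k)) => mkX ⟨n, min (i + 1) (t.T n), z, t.θ n (i + 1) k * w, min_le_right _ _⟩
  have hsub : {y | Adj S (mkX ⟨n, i, z, w, hi⟩) y} ⊆ F '' Set.univ := by
    rintro _ ⟨⟨n₁, i₁, z₁, w₁, hi₁⟩, ⟨n₂, i₂, z₂, w₂, hi₂⟩, ha, rfl, rfl, hm⟩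
    obtain ⟨rfl, rfl, k, h1, h2⟩ := mkX_eq.1 ha.symm
    dsimp only at h1 h2 hm
    obtain ⟨rfl, rfl, h3⟩ | ⟨rfl, rfl, s, hs, rfl | rfl⟩ | ⟨rfl | rfl, rfl, rfl⟩ := hm
    · refine ⟨.inl ⟨z₂ - z₁, Finset.mem_Icc.2 (abs_le.1 h3)⟩, trivial,
        mkX_eq.2 ⟨rfl, rfl, k, ?_, h2⟩⟩
      dsimp only
      rwa [show z₂ - (z + (z₂ - z₁)) = z₁ - z by ring]
    · refine ⟨.inr (.inl (.inl ⟨s, hs⟩)), trivial, mkX_eq.2 ⟨rfl, rfl, k, h1, ?_⟩⟩
      dsimp only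
      rwa [show (t.θ n i s * w * t.g n ^ k)⁻¹ * (t.θ n i s * w₁) = (w * t.g n ^ k)⁻¹ * w₁ by group]
    · refine ⟨.inr (.inl (.inr ⟨s, hs⟩)), trivial, mkX_eq.2 ⟨rfl, rfl, k, h1, ?_⟩⟩
      dsimp only
      rwa [show ((t.θ n i s)⁻¹ * w * t.g n ^ k)⁻¹ * w₂ = (w * t.g n ^ k)⁻¹ * (t.θ n i s * w₂) by
        group]
    · obtain ⟨κ, hκ, h3⟩ := ker_move hK h2
      refine ⟨.inr (.inr (.inr ⟨κ, hκ⟩)), trivial, mkX_eq.2 ⟨rfl, min_eq_left hi₂, k, ?_, ?_⟩⟩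
      · dsimp only
        rw [min_eq_left hi₂]
        exact (cX_succ_dvd n i).trans h1
      · dsimp only
        rwa [min_eq_left hi₂]
    · obtain ⟨l, hl⟩ := h1
      have h5 : (l % 5).toNat < 5 := by omega
      refine ⟨.inr (.inr (.inl ⟨_, h5⟩)), trivial, mkX_eq.2 ⟨rfl, rfl, k, ?_, t.anti n i₂ h2⟩⟩
      show t.cX n i₂ ∣ z₁ - (z + ((l % 5).toNat : ℕ) * t.cX n (i₂ + 1)) - k * MM n
      rw [show z₁ - (z + ((l % 5).toNat : ℕ) * t.cX n (i₂ + 1)) - k * MM n =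
        5 * t.cX n (i₂ + 1) * (l / 5) by
          rw [Int.toNat_of_nonneg (by omega)]
          linear_combination hl - t.cX n (i₂ + 1) * Int.emod_add_mul_ediv l 5]
      rcases cX_succ (t := t) n i₂ with h | h <;> rw [h]
      · exact (dvd_mul_left _ _).mul_right _
      · exact dvd_mul_right _ _
  refine (Set.encard_le_encard hsub).trans ((Set.encard_image_le _ _).trans ?_)
  rw [Set.encard_univ, ENat.card_eq_coe_fintype_card]

end GT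

end Vale.Agent.P212
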