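import Vale.Agent.P212.Geo1

/-! The swindle data of a tower. -/

namespace Vale.Agent.P212

noncomputable section

namespace GT

variable {Γ G : Type} [Group Γ] [Group G] {t : GT Γ G}

/-- A map of lifted points that respects the identifications descends. -/
def mapY (F : t.Zp → t.Zp)
    (hF : ∀ a b, t.rel (fun _ _ => 0) a b → t.rel (fun _ _ => 0) (F a) (F b)) : t.YY → t.YY :=
  Quotient.map (sa := t.std _) (sb := t.std _) F hF

/-- The action of `Γ` on lifted points. -/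
def actZ (γ : Γ) (a : t.Zp) : t.Zp := ⟨a.n, a.i, a.z, t.θ a.n a.i γ * a.w, a.hi⟩

/-- Rotation of lifted points. -/
def rotZ (d : ℤ) (a : t.Zp) : t.Zp := ⟨a.n, a.i, a.z + d, a.w, a.hi⟩

/-- Moving a lifted point one level down. -/
def downZ (a : t.Zp) : t.Zp := ⟨a.n, a.i - 1, a.z, a.w, (Nat.sub_le _ _).trans a.hi⟩

/-- Moving a lifted point one level up. -/
def upZ (a : t.Zp) : t.Zp := ⟨a.n, min (a.i + 1) (t.T a.n), a.z, a.w, min_le_right _ _⟩

/-- Moving a lifted point to the bottom level. -/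
def botZ (a : t.Zp) : t.Zp := ⟨a.n, 0, a.z, a.w, Nat.zero_le _⟩

/-- The action of `Γ` on the mapping tori. -/
def actY (γ : Γ) : t.YY → t.YY := mapY (actZ γ) (by
  rintro ⟨n, i, z, w, hi⟩ ⟨n', i', z', w', hi'⟩ ⟨rfl, rfl, k, h1, h2⟩
  refine ⟨rfl, rfl, k, h1, ?_⟩
  dsimp only [actZ] at h2 ⊢
  rwa [show (t.θ n i γ * w * t.g n ^ k)⁻¹ * (t.θ n i γ * w') = (w * t.g n ^ k)⁻¹ * w' by group])

/-- Rotation of the mapping tori. -/
def rotY (d : ℤ) : t.YY → t.YY := mapY (rotZ d) (by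
  rintro a b ⟨h, h', k, h1, h2⟩
  refine ⟨h, h', k, ?_, h2⟩
  dsimp only [rotZ] at h1 ⊢
  rwa [show b.z + d - (a.z + d) = b.z - a.z by ring])

/-- The level map. -/
def downY : t.YY → t.YY := mapY downZ (by
  rintro a b ⟨h, h', k, h1, h2⟩
  exact ⟨h, congrArg (· - 1) h', k, h1, t.N_le _ (Nat.sub_le _ _) h2⟩)

/-- The projection to the bottom level. -/
def botY : t.YY → t.YY := mapY botZ (by
  rintro a b ⟨h, h', k, h1, h2⟩
  exact ⟨h, rfl, k, h1, t.N_le _ (Nat.zero_le _) h2⟩)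

lemma actY_mk (γ : Γ) (a : t.Zp) : actY γ (mkY a) = mkY (actZ γ a) := rfl

lemma rotY_mk (d : ℤ) (a : t.Zp) : rotY d (mkY a) = mkY (rotZ d a) := rfl

lemma downY_mk (a : t.Zp) : downY (mkY a) = mkY (downZ a) := rfl

lemma botY_mk (a : t.Zp) : botY (mkY a) = mkY (botZ a) := rfl

lemma indY {P : t.YY → Prop} (h : ∀ a, P (mkY a)) (y : t.YY) : P y := Quotient.ind h y

lemma actY_mul (γ γ' : Γ) (y : t.YY) : actY (γ * γ') y = actY γ (actY γ' y) := by
  induction y using indY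
  simp only [actY_mk, actZ, map_mul, mul_assoc]

lemma actY_one (y : t.YY) : actY 1 y = y := by
  induction y using indY
  simp only [actY_mk, actZ, map_one, one_mul]

lemma rotY_add (d d' : ℤ) (y : t.YY) : rotY d (rotY d' y) = rotY (d' + d) y := by
  induction y using indY
  simp only [rotY_mk, rotZ, add_assoc]

lemma rotY_zero (y : t.YY) : rotY 0 y = y := by
  induction y using indY
  simp only [rotY_mk, rotZ, add_zero]

variable (t) in
/-- The action as a homomorphism to permutations. -/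
def actH : Γ →* Equiv.Perm t.YY where
  toFun γ := ⟨actY γ, actY γ⁻¹, fun y => by rw [← actY_mul, inv_mul_cancel, actY_one],
    fun y => by rw [← actY_mul, mul_inv_cancel, actY_one]⟩
  map_one' := Equiv.ext actY_one
  map_mul' γ γ' := Equiv.ext (actY_mul γ γ')

variable (t) in
/-- The rotation by one step. -/
def rotP : Equiv.Perm t.YY :=
  ⟨rotY 1, rotY (-1), fun y => by rw [rotY_add, add_neg_cancel, rotY_zero],
    fun y => by rw [rotY_add, neg_add_cancel, rotY_zero]⟩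

lemma rotP_zpow (d : ℤ) (y : t.YY) : (t.rotP ^ d) y = rotY d y := by
  induction d using Int.induction_on with
  | zero => exact (rotY_zero y).symm
  | succ k ih =>
    rw [add_comm, zpow_add, zpow_one, Equiv.Perm.mul_apply, ih, add_comm, ← rotY_add]
    rfl
  | pred k ih =>
    rw [sub_eq_neg_add, zpow_add, zpow_neg_one, Equiv.Perm.mul_apply, ih, add_comm, ← rotY_add]
    rfl

/-- The level of a point. -/
def lvI (y : t.YY) : ℕ := (outY y).i

lemma lvI_mk (a : t.Zp) : lvI (mkY a) = a.i := (mkY_eq.1 (mkY_out (mkY a))).2.1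

lemma T_pos (n : ℕ) : 0 < t.T n := by
  rw [T]
  omega

lemma sec_down : ∃ K : Finset Γ, ∀ y : t.YY, lvI y ≠ 0 →
    ∃ s ∈ K, mkY (upZ (outY (downY y))) = actY s y := by
  obtain ⟨K, hK⟩ := t.ker
  refine ⟨K, fun y hy => ?_⟩
  obtain ⟨⟨n, i, z, w, hi⟩, rfl⟩ := mkY_surj y
  rw [lvI_mk] at hy
  obtain ⟨i, rfl⟩ := Nat.exists_eq_succ_of_ne_zero hy
  have h := mkY_eq.1 (mkY_out (downY (mkY ⟨n, i + 1, z, w, hi⟩))).symm
  generalize outY (downY (mkY ⟨n, i + 1, z, w, hi⟩)) = b at h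
  obtain ⟨n', i', z', w', hi'⟩ := b
  obtain ⟨rfl, rfl, k, h1, h2⟩ := h
  obtain ⟨s, hs, h3⟩ := ker_move hK h2
  refine ⟨s, hs, Eq.symm ?_⟩
  rw [actY_mk]
  exact mkY_eq.2 ⟨rfl, (min_eq_left hi).symm, k, h1, h3⟩

lemma down_sec (y : t.YY) (hy : lvI y ≠ t.T (levY y)) : downY (mkY (upZ (outY y))) = y := by
  conv_rhs => rw [← mkY_out y]
  have h : (outY y).i + 1 ≤ t.T (outY y).n := Nat.succ_le_of_lt (lt_of_le_of_ne (outY y).hi hy)
  rw [downY_mk]
  congr 1
  exact Zp.ext rfl (by simp only [downZ, upZ, min_eq_left h, Nat.add_sub_cancel]) rfl rfl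

lemma down_act (γ : Γ) : ∃ S : Finset Γ, ∀ y : t.YY, lvI y ≠ 0 →
    ∃ s ∈ S, actY γ (downY y) = downY (actY s y) := by
  obtain ⟨S, hS⟩ := t.down γ
  refine ⟨S, fun y hy => ?_⟩
  obtain ⟨⟨n, i, z, w, hi⟩, rfl⟩ := mkY_surj y
  rw [lvI_mk] at hy
  obtain ⟨i, rfl⟩ := Nat.exists_eq_succ_of_ne_zero hy
  obtain ⟨s, hs, h⟩ := hS n i
  exact ⟨s, hs, congrArg mkY (Zp.ext rfl rfl rfl (congrArg (· * w) h))⟩

lemma lvI_act (γ : Γ) (y : t.YY) : lvI (actY γ y) = lvI y := by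
  induction y using indY
  rw [actY_mk, lvI_mk, lvI_mk]
  rfl

lemma levY_act (γ : Γ) (y : t.YY) : levY (actY γ y) = levY y := by
  induction y using indY
  rw [actY_mk, levY_mk, levY_mk]
  rfl

lemma lvI_rot (d : ℤ) (y : t.YY) : lvI (rotY d y) = lvI y := by
  induction y using indY
  rw [rotY_mk, lvI_mk, lvI_mk]
  rfl

lemma levY_rot (d : ℤ) (y : t.YY) : levY (rotY d y) = levY y := by
  induction y using indY
  rw [rotY_mk, levY_mk, levY_mk]
  rfl

lemma lvI_sec (y : t.YY) : lvI (mkY (upZ (outY y))) ≠ 0 := by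
  rw [lvI_mk]
  have := T_pos (t := t) (outY y).n
  simp only [upZ]
  omega

lemma act_dist (S : Finset Γ) (hS : Subgroup.closure (S : Set Γ) = ⊤) [MetricSpace t.XX]
    (h : ∀ x y : t.XX, Adj S x y → dist x y ≤ 1) (γ : Γ) :
    ∃ C : ℝ, ∀ y : t.YY, dist (fY (actY γ y)) (fY y) ≤ C := by
  induction (hS ▸ Subgroup.mem_top γ : γ ∈ Subgroup.closure (S : Set Γ))
    using Subgroup.closure_induction with
  | mem s hs =>
    refine ⟨1, indY fun a => ?_⟩
    rw [actY_mk, fY_mk, fY_mk]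
    exact h _ _ ⟨_, _, rfl, rfl, rfl, .inr (.inl ⟨rfl, rfl, s, hs, .inr rfl⟩)⟩
  | one => exact ⟨0, fun y => by rw [actY_one, dist_self]⟩
  | mul a b _ _ iha ihb =>
    obtain ⟨C, hC⟩ := iha
    obtain ⟨C', hC'⟩ := ihb
    exact ⟨C + C', fun y => by
      rw [actY_mul]
      exact (dist_triangle _ _ _).trans (add_le_add (hC _) (hC' y))⟩
  | inv a _ ih =>
    obtain ⟨C, hC⟩ := ih
    refine ⟨C, fun y => ?_⟩
    have := hC (actY a⁻¹ y)
    rwa [← actY_mul, mul_inv_cancel, actY_one, dist_comm] at this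

theorem exists_sw (S : Finset Γ) (hS : Subgroup.closure (S : Set Γ) = ⊤) [MetricSpace t.XX]
    (h : ∀ x y : t.XX, Adj S x y → dist x y ≤ 1) : ∃ w : SW t.XX Γ,
      ∀ n k, ∃ y ∈ w.Bot, ∀ δ : ℤ, t.lpX n (k + δ) = w.f ((w.ρ ^ δ) y) := by
  classical
  refine ⟨{
    Y := t.YY
    f := fY
    act := t.actH
    ρ := t.rotP
    Bot := {y | lvI y = 0}
    Top := {y | lvI y = t.T (levY y)}
    p := downY
    sec := fun y => mkY (upZ (outY y))
    β := botY
    blk := levY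
    fib_fin := fY_fib
    act_dist := act_dist S hS h
    ρ_dist := indY fun a => ?_
    p_dist := indY fun a => ?_
    act_ρ := fun γ => indY fun a => rfl
    bot_act := fun γ => indY fun a ha => ?_
    top_act := fun γ y => ?_
    bot_ρ := fun y => ?_
    top_ρ := fun y => ?_
    disj := fun y hy hy' => ?_
    p_mem := indY fun a ha => ?_
    sec_mem := lvI_sec
    p_sec := down_sec
    p_ρ := indY fun a => rfl
    P1 := fun γ => ?_
    P2 := fun γ => ?_
    P3 := sec_down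
    β_mem := indY fun a => lvI_mk _
    β_bot := indY fun a ha => ?_
    β_p := indY fun a => rfl
    β_act := fun γ => indY fun a => ?_
    β_ρ := indY fun a => rfl
    f_bot := indY fun a ha => indY fun b hb => ?_
    ρ_free := indY fun a ha δ hδ hy => ?_
    top_f := indY fun a ha => ?_
    blk_act := levY_act
    blk_ρ := levY_rot 1
    blk_fin := levY_fin }, fun n k => ⟨mkY ⟨n, 0, k, 1, Nat.zero_le _⟩, lvI_mk _, fun δ => ?_⟩⟩
  · show dist (fY (mkY (rotZ 1 a))) _ ≤ 1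
    rw [fY_mk, fY_mk]
    exact h _ _ ⟨_, _, rfl, rfl, rfl, .inl ⟨rfl, rfl, by simp [rotZ]⟩⟩
  · rw [downY_mk, fY_mk, fY_mk]
    refine h _ _ ⟨_, _, rfl, rfl, rfl, ?_⟩
    rcases Nat.eq_zero_or_pos a.i with h0 | h0
    · exact .inl ⟨by simp [downZ, h0], rfl, by simp [downZ]⟩
    · exact .inr (.inr ⟨.inl (Nat.sub_add_cancel h0).symm, rfl, rfl⟩)
  · have h0 : a.i = 0 := (lvI_mk a).symm.trans ha
    refine mkY_eq.2 ⟨rfl, rfl, 0, by simp [actZ], ?_⟩
    simp only [actZ, h0, t.bot, Subgroup.mem_top]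
  · show lvI (actY γ y) = t.T (levY (actY γ y)) ↔ lvI y = t.T (levY y)
    rw [lvI_act, levY_act]
  · show lvI (rotY 1 y) = 0 ↔ lvI y = 0
    rw [lvI_rot]
  · show lvI (rotY 1 y) = t.T (levY (rotY 1 y)) ↔ lvI y = t.T (levY y)
    rw [lvI_rot, levY_rot]
  · exact (T_pos (levY y)).ne ((show lvI y = 0 from hy).symm.trans hy')
  · have h1 : a.i - 1 = t.T a.n := by
      have : lvI (mkY (downZ a)) = t.T (levY (mkY (downZ a))) := ha
      rwa [lvI_mk, levY_mk] at this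
    have := a.hi
    have := T_pos (t := t) a.n
    omega
  · obtain ⟨F, hF⟩ := t.up γ
    refine ⟨F, fun y hy => ?_⟩
    obtain ⟨⟨n, i, z, w, hi⟩, rfl⟩ := mkY_surj y
    obtain ⟨i, rfl⟩ := Nat.exists_eq_succ_of_ne_zero fun e : i = 0 => hy ((lvI_mk _).trans e)
    obtain ⟨s, hs, e⟩ := hF n i
    exact ⟨s, hs, congrArg mkY (Zp.ext rfl rfl rfl (congrArg (· * w) e))⟩
  · obtain ⟨F, hF⟩ := down_act (t := t) γ
    obtain ⟨K, hK⟩ := sec_down (t := t)
    refine ⟨(K ×ˢ F).image fun q => q.1 * q.2, fun y hy => ?_⟩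
    obtain ⟨s, hs, e⟩ := hF _ (lvI_sec y)
    obtain ⟨k, hk, e'⟩ := hK (actY s (mkY (upZ (outY y)))) (by rw [lvI_act]; exact lvI_sec y)
    refine ⟨k * s, Finset.mem_image.2 ⟨(k, s), Finset.mem_product.2 ⟨hk, hs⟩, rfl⟩, ?_⟩
    rw [down_sec y hy] at e
    show mkY (upZ (outY (actY γ y))) = actY (k * s) (mkY (upZ (outY y)))
    rw [e, e', actY_mul]
  · have h0 : a.i = 0 := (lvI_mk a).symm.trans ha
    exact congrArg mkY (Zp.ext rfl h0.symm rfl rfl)
  · refine mkY_eq.2 ⟨rfl, rfl, 0, by simp [actZ, botZ], ?_⟩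
    simp only [botZ, t.bot, Subgroup.mem_top]
  · have h0 : a.i = 0 := (lvI_mk a).symm.trans ha
    rw [fY_mk, fY_mk] at hb
    obtain ⟨h1, h2, k, h3, -⟩ := mkX_eq.1 hb
    rw [h2, h0] at h3
    obtain ⟨l, hl⟩ := (MM_dvd_cX_zero b.n).trans h3
    refine mkY_eq.2 ⟨h1, h2, k + l, ?_, by simp only [h2, h0, t.bot, Subgroup.mem_top]⟩
    rw [zero_dvd_iff]
    linear_combination hl
  · rw [rotP_zpow, rotY_mk] at hy
    obtain ⟨-, -, k, h3, -⟩ := mkY_eq.1 hy.symm
    have h4 : δ = k * MM a.n := by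
      have := zero_dvd_iff.1 h3
      simp only [rotZ] at this
      linear_combination this
    have h5 := nine_le_MM a.n
    refine Int.eq_zero_of_abs_lt_dvd (m := MM a.n) ⟨k, by rw [h4, mul_comm]⟩ (by omega)
  · have h0 : a.i = t.T a.n := by
      have : lvI (mkY a) = t.T (levY (mkY a)) := ha
      rwa [lvI_mk, levY_mk] at this
    show fY (mkY (rotZ 1 a)) = _
    rw [fY_mk, fY_mk]
    refine mkX_eq.2 ⟨rfl, rfl, 0, ?_, by simp [rotZ]⟩
    have : t.cX a.n a.i = 1 := by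
      rw [cX, h0, T, show 2 * a.n + 4 - (t.c a.n + a.n + (2 * a.n + 4) - (t.c a.n + a.n)) = 0 by
        omega, pow_zero]
    exact (this ▸ one_dvd _ : t.cX a.n a.i ∣ _)
  · show _ = fY ((t.rotP ^ δ) _)
    rw [rotP_zpow, rotY_mk, fY_mk]
    rfl

end GT

end

end Vale.Agent.P212
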