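import Vale.Agent.P212.Geo1

/-! The cyclic coverings of the towers and their cocycles. -/

namespace Vale.Agent.P212

namespace GT

variable {Γ G : Type} [Group Γ] [Group G] {t : GT Γ G}

/-- Identification of lifted points in the cyclic covering. -/
def relT (a b : t.Zp) : Prop :=
  a.n = b.n ∧ a.i = b.i ∧ t.cX a.n a.i ∣ b.z - a.z ∧ a.w⁻¹ * b.w ∈ t.N a.n a.i

/-- The deck transformations. -/
def hz (k : ℤ) (a : t.Zp) : t.Zp := ⟨a.n, a.i, a.z + k * MM a.n, a.w * t.g a.n ^ k, a.hi⟩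

/-- Adjacency in the cyclic covering. -/
def AdjT (S : Finset Γ) (a b : t.Zp) : Prop := ∃ a' b', relT a a' ∧ Mv S a' b' ∧ relT b' b

variable {S : Finset Γ}

lemma relT_equiv : Equivalence (relT : t.Zp → t.Zp → Prop) := by
  refine ⟨fun a => ⟨rfl, rfl, by simp, by simp⟩, ?_, ?_⟩
  · rintro ⟨n, i, z, w, hi⟩ ⟨n', i', z', w', hi'⟩ ⟨rfl, rfl, h1, h2⟩
    refine ⟨rfl, rfl, dvd_sub_comm.1 h1, ?_⟩
    simpa using inv_mem h2
  · rintro ⟨n, i, z, w, hi⟩ ⟨n', i', z', w', hi'⟩ ⟨n'', i'', z'', w'', hi''⟩ ⟨rfl, rfl, h1, h2⟩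
      ⟨rfl, rfl, h3, h4⟩
    refine ⟨rfl, rfl, ?_, ?_⟩
    · simpa using dvd_add h3 h1
    · simpa [mul_assoc] using mul_mem h2 h4

lemma rel_iff_relT {a b : t.Zp} : t.rel t.cX a b ↔ ∃ k, relT (hz k a) b := by
  constructor
  · rintro ⟨h1, h2, k, h3, h4⟩
    exact ⟨k, h1, h2, by rwa [sub_sub] at h3, h4⟩
  · rintro ⟨k, h1, h2, h3, h4⟩
    exact ⟨h1, h2, k, by rwa [sub_sub], h4⟩

lemma hz_hz (k l : ℤ) (a : t.Zp) : hz k (hz l a) = hz (l + k) a := by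
  refine Zp.ext rfl rfl ?_ ?_
  · change a.z + l * MM a.n + k * MM a.n = a.z + (l + k) * MM a.n
    ring
  · change a.w * t.g a.n ^ l * t.g a.n ^ k = a.w * t.g a.n ^ (l + k)
    rw [zpow_add, mul_assoc]

lemma hz_zero (a : t.Zp) : hz 0 a = a := by
  refine Zp.ext rfl rfl ?_ ?_ <;> simp [hz]

lemma AdjT.of_relT {a b : t.Zp} (h : relT a b) : AdjT S a b :=
  ⟨a, a, relT_equiv.refl a, Mv.refl S a, h⟩

lemma AdjT.symm {a b : t.Zp} (h : AdjT S a b) : AdjT S b a := by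
  obtain ⟨a', b', h1, h2, h3⟩ := h
  exact ⟨b', a', relT_equiv.symm h3, h2.symm, relT_equiv.symm h1⟩

lemma geo3_relT_hz {a b : t.Zp} (h : relT a b) (k : ℤ) : relT (hz k a) (hz k b) := by
  obtain ⟨n, i, z, w, hi⟩ := a
  obtain ⟨n', i', z', w', hi'⟩ := b
  obtain ⟨rfl, rfl, h1, h2⟩ := h
  refine ⟨rfl, rfl, ?_, ?_⟩
  · simpa [hz] using h1
  · have := (t.normal n i).conj_mem _ h2 (t.g n ^ k)⁻¹
    change (w * t.g n ^ k)⁻¹ * (w' * t.g n ^ k) ∈ t.N n i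
    rwa [show (w * t.g n ^ k)⁻¹ * (w' * t.g n ^ k) =
      (t.g n ^ k)⁻¹ * (w⁻¹ * w') * (t.g n ^ k)⁻¹⁻¹ by group]

lemma geo3_Mv_hz {a b : t.Zp} (h : Mv S a b) (k : ℤ) : Mv S (hz k a) (hz k b) := by
  obtain ⟨n, i, z, w, hi⟩ := a
  obtain ⟨n', i', z', w', hi'⟩ := b
  obtain ⟨rfl, ⟨h1, rfl, h3⟩ | ⟨rfl, rfl, s, hs, h3⟩ | ⟨h1, rfl, rfl⟩⟩ := h
  · exact ⟨rfl, .inl ⟨h1, rfl, by simpa [hz] using h3⟩⟩
  · refine ⟨rfl, .inr (.inl ⟨rfl, rfl, s, hs, ?_⟩)⟩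
    dsimp only at h3
    rcases h3 with rfl | rfl
    · exact .inl (mul_assoc _ _ _)
    · exact .inr (mul_assoc _ _ _)
  · exact ⟨rfl, .inr (.inr ⟨h1, rfl, rfl⟩)⟩

lemma AdjT.hz {a b : t.Zp} (h : AdjT S a b) (k : ℤ) : AdjT S (hz k a) (hz k b) := by
  obtain ⟨a', b', h1, h2, h3⟩ := h
  exact ⟨_, _, geo3_relT_hz h1 k, geo3_Mv_hz h2 k, geo3_relT_hz h3 k⟩

lemma reach_hz {l : ℕ} {a b : t.Zp} (h : Reach (AdjT S) l a b) (k : ℤ) :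
    Reach (AdjT S) l (hz k a) (hz k b) := by
  induction h with
  | refl => exact .refl _
  | step _ h ih => exact ih.step (h.hz k)

/-- Path lifting. -/
lemma reach_lift {l : ℕ} {x y : t.XX} (h : Reach (Adj S) l x y) (a : t.Zp) (ha : mkX a = x) :
    ∃ b, mkX b = y ∧ Reach (AdjT S) l a b := by
  induction h with
  | refl => exact ⟨a, ha, .refl _⟩
  | step _ h ih =>
    obtain ⟨b, hb, hr⟩ := ih ha
    obtain ⟨a', b', h1, rfl, h2⟩ := h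
    obtain ⟨k, hk⟩ := rel_iff_relT.1 (mkX_eq.1 (h1.trans hb.symm))
    exact ⟨hz k b', (mkX_eq.2 (rel_iff_relT.2 ⟨k, relT_equiv.refl _⟩)).symm,
      hr.step ⟨_, _, relT_equiv.symm hk, geo3_Mv_hz h2 k, relT_equiv.refl _⟩⟩

lemma geo3_collar {a b : t.Zp} (h : AdjT S a b) :
    a.n = b.n ∧ b.i ≤ a.i + 1 ∧ a.i ≤ b.i + 1 ∧ (a.i + 1 ≤ t.c a.n + a.n →
      ∃ d : ℤ, |d| ≤ 1 ∧ (MM a.n : ℤ) * MM a.n ∣ b.z - a.z - d) := by
  obtain ⟨n, i, z, w, hi⟩ := a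
  obtain ⟨n', i', z', w', hi'⟩ := b
  obtain ⟨⟨n₁, i₁, z₁, w₁, hi₁⟩, ⟨n₂, i₂, z₂, w₂, hi₂⟩, ⟨rfl, rfl, h1, -⟩, ⟨rfl, h2⟩,
    ⟨rfl, rfl, h3, -⟩⟩ := h
  dsimp only at h1 h2 h3 ⊢
  have hi3 : i₂ ≤ i + 1 ∧ i ≤ i₂ + 1 ∧ |z₂ - z₁| ≤ 1 := by
    rcases h2 with ⟨h, -, h'⟩ | ⟨h, h', -⟩ | ⟨h, h', -⟩
    · exact ⟨by omega, by omega, h'⟩
    · exact ⟨by omega, by omega, by simp [h']⟩
    · exact ⟨by omega, by omega, by simp [h']⟩
  refine ⟨rfl, hi3.1, hi3.2.1, fun hc => ⟨z₂ - z₁, hi3.2.2, ?_⟩⟩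
  rw [cX_of_le (by omega)] at h1 h3
  have := dvd_add h1 h3
  rwa [show z₁ - z + (z' - z₂) = z' - z - (z₂ - z₁) by ring] at this

/-- Short paths in the collar change the circle coordinate by a small amount. -/
lemma reach_collar {l : ℕ} {a b : t.Zp} (h : Reach (AdjT S) l a b) :
    a.n = b.n ∧ b.i ≤ a.i + l ∧ a.i ≤ b.i + l ∧ (a.i + l ≤ t.c a.n + a.n →
      ∃ d : ℤ, |d| ≤ l ∧ (MM a.n : ℤ) * MM a.n ∣ b.z - a.z - d) := by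
  induction h with
  | refl => exact ⟨rfl, le_rfl, le_rfl, fun _ => ⟨0, by simp, by simp⟩⟩
  | @step l a b c _ h ih =>
    obtain ⟨h1, h2, h3, h4⟩ := ih
    obtain ⟨k1, k2, k3, k4⟩ := geo3_collar h
    refine ⟨h1.trans k1, by omega, by omega, fun hc => ?_⟩
    obtain ⟨d, hd, hd'⟩ := h4 (by omega)
    rw [← h1] at k4
    obtain ⟨e, he, he'⟩ := k4 (by omega)
    refine ⟨d + e, (abs_add_le _ _).trans (by push_cast; omega), ?_⟩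
    have := dvd_add hd' he'
    rwa [show b.z - a.z - d + (c.z - b.z - e) = c.z - a.z - (d + e) by ring] at this

lemma geo3_disc {a b : t.Zp} (h : AdjT S a b) (hc : t.c a.n + 1 ≤ a.i) :
    ∃ s, (s = 1 ∨ s ∈ S ∨ s⁻¹ ∈ S) ∧ (t.θ₀ s * a.w)⁻¹ * b.w ∈ t.N a.n (t.c a.n) := by
  have hi3 := (geo3_collar h).2.2.1
  obtain ⟨n, i, z, w, hi⟩ := a
  obtain ⟨n', i', z', w', hi'⟩ := b
  obtain ⟨⟨n₁, i₁, z₁, w₁, hi₁⟩, ⟨n₂, i₂, z₂, w₂, hi₂⟩, ⟨rfl, rfl, -, h1⟩, ⟨rfl, h2⟩,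
    ⟨rfl, rfl, -, h3⟩⟩ := h
  dsimp only at h1 h2 h3 hc hi3 ⊢
  rw [t.stabN _ _ (by omega)] at h1 h3
  rw [t.stabθ _ _ (by omega)] at h2
  have key : ∀ s, w₂ = t.θ₀ s * w₁ → (t.θ₀ s * w)⁻¹ * w' ∈ t.N n (t.c n) := by
    rintro s rfl
    have := mul_mem h1 h3
    rwa [show w⁻¹ * w₁ * ((t.θ₀ s * w₁)⁻¹ * w') = (t.θ₀ s * w)⁻¹ * w' by group] at this
  rcases h2 with ⟨-, h, -⟩ | ⟨-, -, s, hs, h | h⟩ | ⟨-, -, h⟩
  · exact ⟨1, .inl rfl, key 1 (by simp [h])⟩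
  · exact ⟨s, .inr (.inl hs), key s h⟩
  · exact ⟨s⁻¹, .inr (.inr (by simpa using hs)), key _ (by simp [h])⟩
  · exact ⟨1, .inl rfl, key 1 (by simp [h])⟩

/-- Short paths above the collar change the fibre coordinate by a short element. -/
lemma reach_disc (S : Finset Γ) (l : ℕ) : ∃ F : Finset Γ, ∀ a b : t.Zp, Reach (AdjT S) l a b →
    t.c a.n + l ≤ a.i → ∃ γ ∈ F, (t.θ₀ γ * a.w)⁻¹ * b.w ∈ t.N a.n (t.c a.n) := by
  classical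
  induction l with
  | zero =>
    refine ⟨{1}, fun a b h _ => ⟨1, by simp, ?_⟩⟩
    simp [h.zero_eq]
  | succ l ih =>
    obtain ⟨F, hF⟩ := ih
    refine ⟨((insert 1 (S ∪ S.image (·⁻¹))) ×ˢ F).image fun p => p.1 * p.2, fun a c h hc => ?_⟩
    obtain ⟨b, h1, h2⟩ := h.succ_elim
    obtain ⟨γ, hγ, h3⟩ := hF a b h1 (by omega)
    obtain ⟨k1, -, k2, -⟩ := reach_collar h1
    obtain ⟨s, hs, h4⟩ := geo3_disc h2 (by rw [← k1]; omega)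
    rw [← k1] at h4
    refine ⟨s * γ, Finset.mem_image.2 ⟨(s, γ), Finset.mem_product.2 ⟨?_, hγ⟩, rfl⟩, ?_⟩
    · rcases hs with hs | hs | hs
      · simp [hs]
      · simp [hs]
      · exact Finset.mem_insert_of_mem
          (Finset.mem_union_right _ (Finset.mem_image.2 ⟨_, hs, inv_inv s⟩))
    · have := mul_mem h3 h4
      rwa [show (t.θ₀ γ * a.w)⁻¹ * b.w * ((t.θ₀ s * b.w)⁻¹ * c.w) =
        (t.θ₀ s * t.θ₀ γ * a.w)⁻¹ * c.w by group, ← map_mul] at this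

/-- The deck transformations have large displacement. -/
lemma reach_disp (S : Finset Γ) (l : ℕ) : ∃ n₀, ∀ a : t.Zp, n₀ ≤ a.n → ∀ k : ℤ,
    Reach (AdjT S) l a (hz k a) → (MM a.n : ℤ) ∣ k := by
  obtain ⟨F, hF⟩ := reach_disc (t := t) S l
  choose n₀ hn₀ using t.disp
  refine ⟨max (F.sup n₀) (2 * l), fun a ha k h => ?_⟩
  rw [max_le_iff] at ha
  by_cases hc : a.i + l ≤ t.c a.n + a.n
  · obtain ⟨d, hd, h1⟩ := (reach_collar h).2.2.2 hc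
    have h2 : (MM a.n : ℤ) * MM a.n ∣ k * MM a.n - d := by simpa [hz] using h1
    have h3 : (MM a.n : ℤ) ∣ d := by
      have := dvd_sub (dvd_mul_left (MM a.n : ℤ) k) ((dvd_mul_left _ _).trans h2)
      rwa [sub_sub_cancel] at this
    have h4 : l < MM a.n := by
      have := Nat.lt_pow_self (show 1 < 5 by norm_num) (n := a.n + 2)
      rw [MM]
      omega
    have h5 : d = 0 := Int.eq_zero_of_abs_lt_dvd h3 (hd.trans_lt (by exact_mod_cast h4))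
    rw [h5, sub_zero] at h2
    exact (mul_dvd_mul_iff_right (MM_pos a.n).ne').1 h2
  · obtain ⟨γ, hγ, h1⟩ := hF a _ h (by omega)
    exact hn₀ γ a.n ((Finset.le_sup hγ).trans ha.1) a.w k h1

end GT

end Vale.Agent.P212
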