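import Vale.Agent.P212.Geo3

/-! The cocycles of the cyclic coverings. -/

namespace Vale.Agent.P212

namespace GT

variable {Γ G : Type} [Group Γ] [Group G] {t : GT Γ G}

theorem exists_coc (S : Finset Γ) [MetricSpace t.XX] (h : ∀ x y : t.XX, Adj S x y → dist x y ≤ 1)
    (h' : ∀ (R : ℕ) (x y : t.XX), R ≤ levX x → dist x y ≤ R → Reach (Adj S) R x y) (R j : ℕ) :
    ∃ (n m : ℕ) (T : Finset t.XX) (g : t.XX → t.XX → ZMod m),
      j < m ∧ Valid R T g ∧ LoopOK (loops S h) n T g := by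
  classical
  obtain ⟨n₀, hn₀⟩ := reach_disp (t := t) S (R + 1 + (R + 1 + (R + 1)))
  obtain ⟨n, hn1, hn2, hn3⟩ : ∃ n, n₀ ≤ n ∧ R ≤ n ∧ j ≤ n := ⟨n₀ + R + j, by omega⟩
  have hrefl : ∀ a : t.Zp, AdjT S a a := fun a => AdjT.of_relT (relT_equiv.refl a)
  have uniq : ∀ (a b : t.Zp) (k k' : ℤ), a.n = n → Reach (AdjT S) (R + 1) a (hz k b) →
      Reach (AdjT S) (R + 1 + (R + 1)) a (hz k' b) → (k : ZMod (MM n)) = k' := by
    intro a b k k' ha h1 h2
    have hb : (hz k b).n = n := (reach_collar h1).1.symm.trans ha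
    have h3 := (h1.symm fun _ _ => AdjT.symm).trans h2
    have e : hz k' b = hz (k' - k) (hz k b) := by rw [hz_hz, add_sub_cancel]
    rw [e] at h3
    have h4 := hn₀ _ (hb.symm ▸ hn1) _ h3
    rw [hb] at h4
    exact (ZMod.intCast_eq_intCast_iff_dvd_sub _ _ _).2 h4
  let P : t.XX → t.XX → ℤ → Prop := fun x y k => Reach (AdjT S) (R + 1) (outX x) (hz k (outX y))
  let g : t.XX → t.XX → ZMod (MM n) := fun x y =>
    if hp : ∃ k, P x y k then ((hp.choose : ℤ) : ZMod (MM n)) else 0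
  have hg : ∀ x y, (∃ k, P x y k) → ∃ k, P x y k ∧ g x y = k := fun x y hp =>
    ⟨hp.choose, hp.choose_spec, dif_pos hp⟩
  have hT : ∀ x, x ∈ (levX_fin (t := t) n).toFinset ↔ levX x = n := fun x => by simp
  have hex : ∀ x y, levX x = n → dist x y ≤ R → ∃ k, P x y k := by
    intro x y hx hd
    obtain ⟨b, hb, h1⟩ := reach_lift (h' R x y (hx.symm ▸ hn2) hd) (outX x) (mkX_out x)
    obtain ⟨k, hk⟩ := rel_iff_relT.1 (mkX_eq.1 ((mkX_out y).trans hb.symm))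
    exact ⟨k, h1.step (AdjT.of_relT (relT_equiv.symm hk))⟩
  refine ⟨n, MM n, (levX_fin n).toFinset, g, ?_, ⟨fun x hx y hd => ?_, ?_⟩, ⟨fun n' k => ?_, ?_⟩⟩
  · have := Nat.lt_pow_self (show 1 < 5 by norm_num) (n := n + 2)
    rw [MM]
    omega
  · rw [hT] at hx ⊢
    rw [← (h' R x y (hx.symm ▸ hn2) hd).inv levX fun _ _ => Adj.lev, hx]
  · intro x hx y hy z _ h1 h2 h3
    rw [hT] at hx hy
    obtain ⟨k1, p1, e1⟩ := hg x y (hex x y hx h1)
    obtain ⟨k2, p2, e2⟩ := hg y z (hex y z hy h2)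
    obtain ⟨k3, p3, e3⟩ := hg x z (hex x z hx h3)
    have p4 := Reach.trans p1 (reach_hz p2 k1)
    rw [hz_hz] at p4
    rw [e1, e2, e3, uniq _ _ _ _ hx p3 p4]
    push_cast
    ring
  · rw [hT]
    exact Iff.of_eq (congrArg (· = n) (levX_mk _))
  · intro k k' i hi
    change |(outX (t.lpX n k)).z - (outX (t.lpX n k')).z - i * MM n| ≤ 1 at hi
    change g (t.lpX n k) (t.lpX n k') = i
    obtain ⟨a1, a2, -⟩ := mkX_eq.1 (mkX_out (t.lpX n k))
    obtain ⟨b1, b2, -⟩ := mkX_eq.1 (mkX_out (t.lpX n k'))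
    dsimp only at a1 a2 b1 b2
    have hadj : AdjT S (outX (t.lpX n k)) (hz i (outX (t.lpX n k'))) := by
      generalize outX (t.lpX n k) = a at a1 a2 hi
      generalize outX (t.lpX n k') = b at b1 b2 hi
      refine ⟨a, ⟨a.n, a.i, b.z + i * MM b.n, a.w, a.hi⟩, relT_equiv.refl a,
        ⟨rfl, .inl ⟨rfl, rfl, ?_⟩⟩, a1.trans b1.symm, a2.trans b2.symm, ?_, ?_⟩
      · dsimp only
        rwa [abs_sub_comm, b1, ← sub_sub]
      · simp [hz]
      · dsimp only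
        rw [a2, t.bot]
        trivial
    have p1 := Reach.single hadj
    obtain ⟨k0, p0, e0⟩ := hg _ _ ⟨i, p1.mono hrefl (by omega)⟩
    rw [e0]
    exact uniq _ _ _ _ a1 p0 (p1.mono hrefl (by omega))

end GT

end Vale.Agent.P212
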