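import Vale.Agent.P212.Geo2
import Vale.Agent.P212.Geo3b
import Vale.Agent.P212.GT2

/-! The geometric data exist. -/

namespace Vale.Agent.P212

theorem exists_geo : ∃ (X : Type) (_ : MetricSpace X), Nonempty (Geo X Gam) := by
  obtain ⟨t⟩ := exists_GT
  obtain ⟨S, hS⟩ := Group.fg_def.1 gam_fg
  obtain ⟨D, hD⟩ := t.adj_deg S
  obtain ⟨inst, ud, bg, h1, h2⟩ := exists_graph_metric (GT.Adj (t := t) S) (GT.Adj.refl S)
    (fun _ _ => GT.Adj.symm) GT.levX (fun _ _ => GT.Adj.lev) GT.levX_fin D hD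
  obtain ⟨w, hw⟩ := GT.exists_sw S hS h1
  exact ⟨t.XX, inst, ⟨⟨ud, bg, w, GT.loops S h1, hw, GT.exists_coc S h1 h2⟩⟩⟩

end Vale.Agent.P212
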