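import Vale.Agent.P212.Stmt

/-! The classes in `K₁(A)` of invertible elements of `1 + A`, for `A` inside a unital `B`. -/

namespace Vale.Agent.P212

noncomputable section

variable {B : Type} [CStarAlgebra B] (A : NonUnitalStarSubalgebra ℂ B)

/-- The idealizer of `A` in `B`. -/
def idl : StarSubalgebra ℂ B where
  carrier := {x | ∀ a ∈ A, x * a ∈ A ∧ a * x ∈ A}
  mul_mem' := fun {x y} hx hy a ha => ⟨by rw [mul_assoc]; exact (hx _ (hy a ha).1).1,
    by rw [← mul_assoc]; exact (hy _ (hx a ha).2).2⟩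
  add_mem' := fun {x y} hx hy a ha => ⟨by rw [add_mul]; exact add_mem (hx a ha).1 (hy a ha).1,
    by rw [mul_add]; exact add_mem (hx a ha).2 (hy a ha).2⟩
  algebraMap_mem' := fun c a ha => ⟨by rw [← Algebra.smul_def]; exact SMulMemClass.smul_mem c ha,
    by rw [← Algebra.commutes, ← Algebra.smul_def]; exact SMulMemClass.smul_mem c ha⟩
  star_mem' := fun {x} hx a ha =>
    ⟨by simpa using star_mem (hx _ (star_mem ha)).2, by simpa using star_mem (hx _ (star_mem ha)).1⟩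

variable {A}

lemma mem_idl {x : B} : x ∈ idl A ↔ ∀ a ∈ A, x * a ∈ A ∧ a * x ∈ A := Iff.rfl

lemma idl_mul {x a : B} (hx : x ∈ idl A) (ha : a ∈ A) : x * a ∈ A := (hx a ha).1

lemma mul_idl {x a : B} (ha : a ∈ A) (hx : x ∈ idl A) : a * x ∈ A := (hx a ha).2

lemma mem_idl_of_mem {a : B} (ha : a ∈ A) : a ∈ idl A :=
  fun _ hb => ⟨mul_mem ha hb, mul_mem hb ha⟩

lemma isClosed_idl (hA : IsClosed (A : Set B)) : IsClosed (idl A : Set B) := by
  have e : (idl A : Set B) = ⋂ a ∈ A, (fun x => x * a) ⁻¹' A ∩ (fun x => a * x) ⁻¹' A := by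
    ext x
    simp [mem_idl]
  rw [e]
  exact isClosed_biInter fun a _ => (hA.preimage (continuous_mul_const a)).inter
    (hA.preimage (continuous_const_mul a))

variable (A)

/-- Invertible matrices in `1 + Mₙ(A)` with inverse in `1 + Mₙ(A)`. -/
def GoodM {n : ℕ} (u : Matrix (Fin n) (Fin n) B) : Prop :=
  (∀ i j, (u - 1) i j ∈ A) ∧ ∃ v : Matrix (Fin n) (Fin n) B, (∀ i j, (v - 1) i j ∈ A) ∧
    u * v = 1 ∧ v * u = 1

/-- Invertible elements in `1 + A` with inverse in `1 + A`. -/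
def Good (u : B) : Prop := u - 1 ∈ A ∧ ∃ v, v - 1 ∈ A ∧ u * v = 1 ∧ v * u = 1

variable [hA : IsClosed (A : Set B)]

variable {A} in
lemma GoodM.qi {n : ℕ} {u : Matrix (Fin n) (Fin n) B} (h : GoodM A u) :
    IsQuasiregular (Matrix.of fun i j => (⟨(u - 1) i j, h.1 i j⟩ : A)) := by
  obtain ⟨h1, v, h2, h3, h4⟩ := h
  refine isQuasiregular_iff.2 ⟨Matrix.of fun i j => ⟨(v - 1) i j, h2 i j⟩, ?_, ?_⟩ <;> ext i j
  · have e : v - 1 + (u - 1) + (u - 1) * (v - 1) = 0 := by
      rw [sub_mul, mul_sub, h3, mul_one, one_mul]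
      abel
    simpa [Matrix.mul_apply] using congrFun₂ e i j
  · have e : u - 1 + (v - 1) + (v - 1) * (u - 1) = 0 := by
      rw [sub_mul, mul_sub, h4, mul_one, one_mul]
      abel
    simpa [Matrix.mul_apply] using congrFun₂ e i j

open Classical in
/-- The class of an invertible matrix. -/
def kapM {n : ℕ} (u : Matrix (Fin n) (Fin n) B) : K1 A :=
  if h : GoodM A u then Pres.cls (K1rel A) ⟨n, _, h.qi⟩ else 0

/-- The class of an invertible element. -/
def kap (u : B) : K1 A := kapM A (Matrix.of fun _ _ : Fin 1 => u)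

variable {A}

omit hA in
lemma k1a_one {u : B} (h : Good A u) : GoodM A (Matrix.of fun _ _ : Fin 1 => u) := by
  obtain ⟨h1, v, h2, h3, h4⟩ := h
  refine ⟨fun i j => ?_, Matrix.of fun _ _ => v, fun i j => ?_, ?_, ?_⟩
  · simpa [Subsingleton.elim i j] using h1
  · simpa [Subsingleton.elim i j] using h2
  · ext i j
    rw [Subsingleton.elim i j]
    simp [Matrix.mul_apply, h3]
  · ext i j
    rw [Subsingleton.elim i j]
    simp [Matrix.mul_apply, h4]

omit hA in
lemma k1a_tri {u v y : B} (hu : Good A u) (hv : Good A v) (hy : y ∈ A) :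
    GoodM A !![u, 0; y, v] := by
  obtain ⟨h1, u', h2, h3, h4⟩ := hu
  obtain ⟨k1, v', k2, k3, k4⟩ := hv
  have i1 : ∀ w : B, w - 1 ∈ A → w ∈ idl A := fun w hw => by
    simpa using add_mem (mem_idl_of_mem hw) (one_mem (idl A))
  have m := neg_mem (mul_idl (idl_mul (i1 _ k2) hy) (i1 _ h2))
  refine ⟨fun i j => ?_, !![u', 0; -(v' * y * u'), v'], fun i j => ?_, ?_, ?_⟩
  · fin_cases i <;> fin_cases j <;> simp [h1, k1, hy]
  · fin_cases i <;> fin_cases j <;> simp [h2, k2, m]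
  · ext i j
    fin_cases i <;> fin_cases j <;> simp [h3, k3, ← mul_assoc]
  · ext i j
    fin_cases i <;> fin_cases j <;> simp [h4, k4, mul_assoc]

omit hA in
lemma k1a_ent {n : ℕ} {g a g' : Matrix (Fin n) (Fin n) B} (hg : ∀ i j, g i j ∈ idl A)
    (ha : ∀ i j, a i j ∈ A) (hg' : ∀ i j, g' i j ∈ idl A) (i j : Fin n) : (g * a * g') i j ∈ A := by
  simp only [Matrix.mul_apply]
  exact sum_mem fun k _ => mul_idl (sum_mem fun l _ => idl_mul (hg _ _) (ha _ _)) (hg' _ _)

omit hA in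
lemma k1a_mul {n : ℕ} {u v : Matrix (Fin n) (Fin n) B} (hu : GoodM A u) (hv : GoodM A v) :
    GoodM A (u * v) := by
  have k : ∀ u v : Matrix (Fin n) (Fin n) B, (∀ i j, (u - 1) i j ∈ A) →
      (∀ i j, (v - 1) i j ∈ A) → ∀ i j, (u * v - 1) i j ∈ A := fun u v hu hv i j => by
    have e : u * v - 1 = (u - 1) * (v - 1) + (u - 1) + (v - 1) := by noncomm_ring
    rw [e, Matrix.add_apply, Matrix.add_apply, Matrix.mul_apply]
    exact add_mem (add_mem (sum_mem fun l _ => mul_mem (hu _ _) (hv _ _)) (hu _ _)) (hv _ _)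
  obtain ⟨h1, u', h2, h3, h4⟩ := hu
  obtain ⟨k1, v', k2, k3, k4⟩ := hv
  refine ⟨k _ _ h1 k1, v' * u', k _ _ k2 h2, ?_, ?_⟩
  · rw [mul_assoc, ← mul_assoc v, k3, one_mul, h3]
  · rw [mul_assoc, ← mul_assoc u', h4, one_mul, k4]

omit hA in
lemma k1a_conj {n : ℕ} {u g g' : Matrix (Fin n) (Fin n) B} (hu : GoodM A u)
    (hg : ∀ i j, g i j ∈ idl A) (hg' : ∀ i j, g' i j ∈ idl A) (e : g * g' = 1) (e' : g' * g = 1) :
    GoodM A (g * u * g') := by
  have k : ∀ u : Matrix (Fin n) (Fin n) B, g * u * g' - 1 = g * (u - 1) * g' := fun u => by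
    rw [mul_sub, sub_mul, mul_one, e]
  have k' : ∀ u v : Matrix (Fin n) (Fin n) B, u * v = 1 → g * u * g' * (g * v * g') = 1 :=
    fun u v h => by
      rw [← mul_assoc, ← mul_assoc, mul_assoc _ g', e', mul_one, mul_assoc g, h, mul_one, e]
  obtain ⟨h1, v, h2, h3, h4⟩ := hu
  exact ⟨k u ▸ k1a_ent hg h1 hg', g * v * g', k v ▸ k1a_ent hg h2 hg', k' _ _ h3, k' _ _ h4⟩

lemma k1a_rel {x : FreeAbelianGroup (QInv A)} (h : K1rel A x) :
    (QuotientAddGroup.mk x : K1 A) = 0 :=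
  (QuotientAddGroup.eq_zero_iff _).2 (AddSubgroup.subset_closure h)


lemma kapM_path {n : ℕ} (u : ℝ → Matrix (Fin n) (Fin n) B) (hc : Continuous u)
    (h : ∀ t, GoodM A (u t)) (s t : ℝ) : kapM A (u s) = kapM A (u t) := by
  have c : Continuous fun t => Matrix.of fun i j => (⟨(u t - 1) i j, (h t).1 i j⟩ : A) :=
    continuous_matrix fun i j => ((hc.sub continuous_const).matrix_elem i j).subtype_mk _
  rw [kapM, kapM, dif_pos (h s), dif_pos (h t), ← sub_eq_zero]
  refine k1a_rel (K1rel.htpy n _ _ _ _ (((isPathConnected_range c).joinedIn _ ⟨s, rfl⟩ _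
    ⟨t, rfl⟩).mono ?_))
  rintro _ ⟨r, rfl⟩
  exact (h r).qi

lemma kapM_diag {u v : B} (hu : Good A u) (hv : Good A v) :
    kapM A !![u, 0; 0, v] = kap A u + kap A v := by
  rw [kap, kap, kapM, kapM, kapM, dif_pos (k1a_tri hu hv (zero_mem A)), dif_pos (k1a_one hu),
    dif_pos (k1a_one hv), ← sub_eq_zero, ← sub_sub]
  refine k1a_rel (K1rel.sum ⟨2, _, _⟩ ⟨1, _, _⟩ ⟨1, _, _⟩ finSumFinEquiv ?_)
  ext i j
  fin_cases i <;> fin_cases j <;> first | rfl | exact sub_zero _

lemma kap_isClass {u : B} (h : Good A u) : IsClass (⟨u - 1, h.1⟩ : A) (kap A u) := by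
  have e : (Matrix.of fun _ _ : Fin 1 => (⟨u - 1, h.1⟩ : A)) = Matrix.of fun i j =>
      ⟨((Matrix.of fun _ _ : Fin 1 => u) - 1) i j, (k1a_one h).1 i j⟩ := by
    ext i j
    simp [Subsingleton.elim i j]
  rw [IsClass, e, kap, kapM, dif_pos (k1a_one h)]
  exact ⟨(k1a_one h).qi, rfl⟩

lemma kap_path (u : unitInterval → B) (hc : Continuous u) (h : ∀ t, Good A (u t)) :
    kap A (u 0) = kap A (u 1) := by
  simpa [kap] using kapM_path
    (fun t => Matrix.of fun _ _ : Fin 1 => u (Set.projIcc 0 1 zero_le_one t))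
    (continuous_matrix fun _ _ => hc.comp continuous_projIcc) (fun t => k1a_one (h _)) 0 1

omit hA in
lemma k1a_good : Good A 1 := ⟨by simp, 1, by simp, mul_one _, mul_one _⟩


lemma kap_one : kap A 1 = 0 := by
  rw [kap, kapM, dif_pos (k1a_one k1a_good)]
  refine k1a_rel (K1rel.one _ ?_)
  ext i j
  simp [Subsingleton.elim i j]

lemma kap_mul {u v : B} (hu : Good A u) (hv : Good A v) : kap A (u * v) = kap A u + kap A v := by
  obtain ⟨r, hr⟩ : ∃ r : ℝ → Matrix (Fin 2) (Fin 2) ℂ,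
      ∀ t : ℝ, r t = !![1 - (t : ℂ) ^ 2, (t : ℂ) ^ 3 - 2 * t; (t : ℂ), 1 - (t : ℂ) ^ 2] :=
    ⟨_, fun _ => rfl⟩
  have c : Continuous fun t => (algebraMap ℂ B).mapMatrix (r t) :=
    continuous_matrix fun i j => (continuous_algebraMap ℂ B).comp (by
      fin_cases i <;> fin_cases j <;> simp only [hr] <;> simp <;> fun_prop)
  have e : ∀ s t : ℝ, s = -t →
      (algebraMap ℂ B).mapMatrix (r s) * (algebraMap ℂ B).mapMatrix (r t) = 1 := by
    rintro _ t rfl
    rw [← map_mul, ← map_one (algebraMap ℂ B).mapMatrix, hr, hr]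
    congr 1
    ext i j
    fin_cases i <;> fin_cases j <;> simp <;> ring
  have k := kapM_path (A := A) (fun t => !![u, 0; 0, 1] * ((algebraMap ℂ B).mapMatrix (r t) *
      !![v, 0; 0, 1] * (algebraMap ℂ B).mapMatrix (r (-t))))
    (continuous_const.mul ((c.mul continuous_const).mul (c.comp continuous_neg)))
    (fun t => k1a_mul (k1a_tri hu k1a_good (zero_mem A)) (k1a_conj (k1a_tri hv k1a_good
      (zero_mem A)) (fun _ _ => (idl A).algebraMap_mem _) (fun _ _ => (idl A).algebraMap_mem _)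
      (e _ _ (neg_neg t).symm) (e _ _ rfl))) 0 1
  have g : Good A (u * v) := by
    obtain ⟨h1, w, h2, h3, h4⟩ := k1a_mul (k1a_one hu) (k1a_one hv)
    exact ⟨by simpa [Matrix.mul_apply] using h1 0 0, w 0 0, by simpa using h2 0 0,
      by simpa [Matrix.mul_apply] using congrFun₂ h3 0 0,
      by simpa [Matrix.mul_apply] using congrFun₂ h4 0 0⟩
  rw [← kapM_diag hu hv, ← add_zero (kap A _), ← kap_one, ← kapM_diag g k1a_good]
  refine Eq.trans (congrArg _ ?_) (k.trans (congrArg _ ?_)) <;> simp only [hr] <;> ext i j <;>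
    fin_cases i <;> fin_cases j <;> norm_num [Matrix.mul_apply]

lemma k1a_corner {u v y : B} (hu : Good A u) (hv : Good A v) (hy : y ∈ A) :
    kapM A !![u, 0; y, v] = kap A u + kap A v := by
  simpa [kapM_diag hu hv] using kapM_path (A := A) (fun t : ℝ => !![u, 0; (t : ℂ) • y, v])
    (continuous_matrix fun i j => by fin_cases i <;> fin_cases j <;> simp <;> fun_prop)
    (fun t => k1a_tri hu hv (SMulMemClass.smul_mem _ hy)) 1 0


lemma kap_swap {x y : B} (hx : x ∈ idl A) (hy : y ∈ A) (h1 : Good A (1 + x * y))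
    (h2 : Good A (1 + y * x)) : kap A (1 + x * y) = kap A (1 + y * x) := by
  have c : Continuous fun t : ℝ => !![1, (t : ℂ) • x; 0, 1] :=
    continuous_matrix fun i j => by fin_cases i <;> fin_cases j <;> simp <;> fun_prop
  have m : ∀ (t : ℝ) i j, !![1, (t : ℂ) • x; 0, 1] i j ∈ idl A := fun t i j => by
    fin_cases i <;> fin_cases j
    exacts [one_mem _, SMulMemClass.smul_mem _ hx, zero_mem _, one_mem _]
  have e : ∀ s t : ℝ, s = -t → !![1, (s : ℂ) • x; 0, 1] * !![1, (t : ℂ) • x; 0, 1] = 1 := by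
    rintro _ t rfl
    ext i j
    fin_cases i <;> fin_cases j <;> simp
  have k := kapM_path (A := A) (fun t : ℝ => !![1, (t : ℂ) • x; 0, 1] * !![1, 0; y, 1 + y * x] *
      !![1, ((-t : ℝ) : ℂ) • x; 0, 1]) ((c.mul continuous_const).mul (c.comp continuous_neg))
    (fun t => k1a_conj (k1a_tri k1a_good h2 hy) (m _) (m _) (e _ _ (neg_neg t).symm) (e _ _ rfl))
    1 0
  rw [← add_zero (kap A _), ← kap_one, ← k1a_corner h1 k1a_good hy, ← zero_add (kap A (1 + y * x)),
    ← kap_one, ← k1a_corner k1a_good h2 hy]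
  refine Eq.trans (congrArg _ ?_) (k.trans (congrArg _ ?_)) <;> ext i j <;>
    fin_cases i <;> fin_cases j <;> simp [Matrix.mul_apply, mul_add, add_mul, mul_assoc]

end

end Vale.Agent.P212
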