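import Vale.Agent.P212.K1a

/-! The exponential map on multipliers that are idempotent modulo `A`. -/

namespace Vale.Agent.P212

noncomputable section

variable {B : Type} [CStarAlgebra B] (A : NonUnitalStarSubalgebra ℂ B)

/-- Multipliers of `A` that are idempotent modulo `A`. -/
def EssI (a : B) : Prop := a ∈ idl A ∧ a * a - a ∈ A

/-- The element `exp (2 π i a)`. -/
def ex (a : B) : B := NormedSpace.exp ((2 * Real.pi * Complex.I : ℂ) • a)

/-- The coefficients of the exponential series. -/
def coef (j : ℕ) : ℂ := (2 * Real.pi * Complex.I) ^ (j + 1) / (j + 1).factorial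

lemma k1b_series (c : ℂ) (a : B) : HasSum (fun j : ℕ => (c ^ (j + 1) / (j + 1).factorial) •
    a ^ (j + 1)) (NormedSpace.exp (c • a) - 1) := by
  have h := (hasSum_nat_add_iff' 1).2 (NormedSpace.exp_series_hasSum_exp' (𝕂 := ℂ) (c • a))
  simpa only [smul_pow, smul_smul, div_eq_inv_mul, Finset.sum_range_one, pow_zero,
    Nat.factorial_zero, Nat.cast_one, inv_one, mul_one, one_smul] using h

lemma k1b_sub {c : ℂ} (hc : Complex.exp c = 1) (a : B) : HasSum (fun j : ℕ =>
    (c ^ (j + 1) / (j + 1).factorial) • (a ^ (j + 1) - a)) (NormedSpace.exp (c • a) - 1) := by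
  have h := (k1b_series c (1 : ℂ)).smul_const a
  rw [smul_eq_mul, mul_one, ← Complex.exp_eq_exp_ℂ, hc, sub_self, zero_smul] at h
  simpa only [smul_sub, one_pow, smul_eq_mul, mul_one, sub_zero] using (k1b_series c a).sub h

lemma hasSum_ex (a : B) : HasSum (fun j : ℕ => coef j • (a ^ (j + 1) - a)) (ex a - 1) :=
  k1b_sub Complex.exp_two_pi_mul_I a

variable [hA : IsClosed (A : Set B)]

/-- The boundary class of an essential idempotent. -/
def bd (a : B) : K1 A := kap A (ex a)

variable {A}

omit hA in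
lemma EssI.pow_sub {a : B} (ha : EssI A a) (j : ℕ) : a ^ (j + 1) - a ∈ A := by
  induction j with
  | zero => simp
  | succ j ih =>
    have : a ^ (j + 1 + 1) - a = a * (a ^ (j + 1) - a) + (a * a - a) := by
      rw [pow_succ' a (j + 1)]; noncomm_ring
    exact this ▸ add_mem (idl_mul ha.1 ih) ha.2

lemma k1b_mem {a : B} (ha : EssI A a) {c : ℂ} (hc : Complex.exp c = 1) :
    NormedSpace.exp (c • a) - 1 ∈ A :=
  hA.mem_of_tendsto (k1b_sub hc a) (Filter.Eventually.of_forall fun _ =>
    sum_mem fun j _ => SMulMemClass.smul_mem _ (ha.pow_sub j))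

lemma EssI.good {a : B} (ha : EssI A a) : Good A (ex a) := by
  let _ : NormedAlgebra ℚ B := .restrictScalars ℚ ℂ B
  refine ⟨k1b_mem ha Complex.exp_two_pi_mul_I, _, k1b_mem ha (c := -(2 * Real.pi * Complex.I))
    (by rw [Complex.exp_neg, Complex.exp_two_pi_mul_I, inv_one]), ?_, ?_⟩
  · rw [ex, neg_smul, ← NormedSpace.exp_add_of_commute (Commute.refl _).neg_right, add_neg_cancel,
      NormedSpace.exp_zero]
  · rw [ex, neg_smul, ← NormedSpace.exp_add_of_commute (Commute.refl _).neg_left, neg_add_cancel,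
      NormedSpace.exp_zero]

lemma bd_spec {a : B} (ha : EssI A a) : ∃ c : A,
    HasSum (fun j : ℕ => coef j • (⟨a ^ (j + 1) - a, ha.pow_sub j⟩ : A)) c ∧
      IsClass c (bd A a) :=
  ⟨⟨ex a - 1, ha.good.1⟩, (Topology.IsInducing.subtypeVal.hasSum_iff
    (g := (NonUnitalStarSubalgebraClass.subtype A : A →+ B)) _ _).1 (hasSum_ex a),
    kap_isClass ha.good⟩

lemma bd_path (a : unitInterval → B) (hc : Continuous a) (h : ∀ t, EssI A (a t)) :
    bd A (a 0) = bd A (a 1) := by
  let _ : NormedAlgebra ℚ B := .restrictScalars ℚ ℂ B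
  exact kap_path (fun t => ex (a t)) (NormedSpace.exp_continuous.comp (hc.const_smul _))
    fun t => (h t).good

omit hA in
lemma EssI.congr {a a' : B} (ha : EssI A a) (h : a' - a ∈ A) : EssI A a' := by
  have h1 : a' ∈ idl A := by simpa using add_mem ha.1 (mem_idl_of_mem h)
  have h2 : a' * a' - a' = a' * (a' - a) + (a' - a) * a + (a * a - a) - (a' - a) := by
    noncomm_ring
  exact ⟨h1, h2 ▸ sub_mem (add_mem (add_mem (idl_mul h1 h) (mul_idl h ha.1)) ha.2) h⟩

lemma bd_congr {a a' : B} (ha : EssI A a) (h : a' - a ∈ A) : bd A a' = bd A a := by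
  have := bd_path (A := A) (fun t : unitInterval => a + ((t : ℝ) : ℂ) • (a' - a)) (by fun_prop)
    fun t => ha.congr (by simpa using SMulMemClass.smul_mem ((t : ℝ) : ℂ) h)
  simpa using this.symm

lemma bd_idem {a : B} (h : a * a = a) : bd A a = 0 := by
  have h1 := hasSum_ex a
  simp only [IsIdempotentElem.pow_succ_eq _ h, sub_self, smul_zero] at h1
  rw [bd, sub_eq_zero.1 (h1.unique hasSum_zero), kap_one]

omit hA in
lemma k1b_conj {a V V' : B} (ha : EssI A a) (hV : V ∈ idl A) (hV' : V' ∈ idl A)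
    (h : V' * V * a = a) : EssI A (V * a * V') := by
  have h1 : V * a * V' * (V * a * V') - V * a * V' = V * (a * (V' * V * a) - a) * V' := by
    noncomm_ring
  rw [h] at h1
  exact ⟨mul_mem (mul_mem hV ha.1) hV', h1 ▸ mul_idl (idl_mul hV ha.2) hV'⟩

lemma bd_conj {a V V' : B} (ha : EssI A a) (hV : V ∈ idl A) (hV' : V' ∈ idl A)
    (h : V' * V * a = a) : bd A (V * a * V') = bd A a := by
  have h1 : ∀ j, (V * a * V') ^ (j + 1) = V * a ^ (j + 1) * V' := fun j => by
    induction j with
    | zero => simp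
    | succ j ih =>
      rw [pow_succ, ih, pow_succ a (j + 1)]
      nth_rw 4 [← h]
      simp only [mul_assoc]
  have h2 : V * (ex a - 1) * V' = ex (V * a * V') - 1 := by
    refine (((hasSum_ex a).mul_left V).mul_right V').unique ?_
    simpa only [h1, mul_smul_comm, smul_mul_assoc, mul_sub, sub_mul] using hasSum_ex (V * a * V')
  have h3 : V' * (V * (ex a - 1)) = ex a - 1 := by
    refine (((hasSum_ex a).mul_left V).mul_left V').unique ?_
    simpa only [mul_smul_comm, mul_sub, pow_succ' a, ← mul_assoc, h] using hasSum_ex a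
  have h4 := kap_swap hV' (idl_mul hV ha.good.1)
  rw [h2, h3, add_sub_cancel, add_sub_cancel] at h4
  exact (h4 ha.good (k1b_conj ha hV hV' h).good).symm

lemma bd_add {a b : B} (ha : EssI A a) (hb : EssI A b) (hab : a * b = 0) (hba : b * a = 0) :
    bd A (a + b) = bd A a + bd A b := by
  let _ : NormedAlgebra ℚ B := .restrictScalars ℚ ℂ B
  have h : Commute a b := hab.trans hba.symm
  rw [bd, ex, smul_add, NormedSpace.exp_add_of_commute ((h.smul_left _).smul_right _)]
  exact kap_mul ha.good hb.good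

omit hA in
lemma EssI.conj {a V V' : B} (ha : EssI A a) (hV : V ∈ idl A) (hV' : V' ∈ idl A)
    (h : V' * V * a = a) : EssI A (V * a * V') := k1b_conj ha hV hV' h

end

end Vale.Agent.P212
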