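import Vale.Agent.P212.Stmt

/-! Basic calculus of operators on `ℓ²(X; H)`. -/

namespace Vale.Agent.P212

noncomputable section

variable {X Y Z : Type} {H K L : Hilb}

/-- The adjoint operator. -/
def adj (T : Hom H K) : Hom K H := ContinuousLinearMap.adjoint T

lemma cmp_def (a : Hom K L) (b : Hom H K) : a.cmp b = a ∘L b := rfl

lemma star_eq_adj (T : Op H) : star T = adj T := rfl

lemma adj_adj (T : Hom H K) : adj (adj T) = T := ContinuousLinearMap.adjoint_adjoint T

lemma adj_comp (a : Hom K L) (b : Hom H K) : adj (a ∘L b) = adj b ∘L adj a :=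
  ContinuousLinearMap.adjoint_comp a b

lemma inner_adj_left (T : Hom H K) (v : K.car) (w : H.car) :
    inner ℂ (adj T v) w = inner ℂ v (T w) := ContinuousLinearMap.adjoint_inner_left T w v

lemma inner_adj_right (T : Hom H K) (v : H.car) (w : K.car) :
    inner ℂ v (adj T w) = inner ℂ (T v) w := ContinuousLinearMap.adjoint_inner_right T v w

lemma entry_def (T : Hom (l2 Y H) (l2 X K)) (x : X) (y : Y) :
    entry T x y = ev x ∘L T ∘L inc y := rfl

lemma entry_apply (T : Hom (l2 Y H) (l2 X K)) (x : X) (y : Y) (v : H.car) :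
    entry T x y v = ev x (T (inc y v)) := rfl

lemma l2_ext {ξ η : (l2 X H).car} (h : ∀ x, ev x ξ = ev x η) : ξ = η := by
  exact lp.ext (funext h)

lemma hasSum_norm_sq (ξ : (l2 X H).car) : HasSum (fun x => ‖ev x ξ‖ ^ 2) (‖ξ‖ ^ 2) := by
  have h := lp.hasSum_norm (p := 2) (E := fun _ : X => H.car) (by norm_num) ξ
  simp only [ENNReal.toReal_ofNat, Real.rpow_ofNat] at h
  exact h

lemma sum_norm_sq_le (ξ : (l2 X H).car) (s : Finset X) : ∑ x ∈ s, ‖ev x ξ‖ ^ 2 ≤ ‖ξ‖ ^ 2 := by
  exact sum_le_hasSum s (fun _ _ => by positivity) (hasSum_norm_sq ξ)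

lemma ev_inc_self (x : X) (v : H.car) : ev x (inc x v : (l2 X H).car) = v := by
  classical
  exact lp.single_apply_self (E := fun _ : X => H.car) 2 x v

lemma ev_inc_ne {x y : X} (h : x ≠ y) (v : H.car) : ev x (inc y v : (l2 X H).car) = 0 := by
  classical
  exact lp.single_apply_ne (E := fun _ : X => H.car) 2 y v h

lemma adj_ev (x : X) : adj (ev x : Hom (l2 X H) H) = inc x := by
  classical
  symm
  refine (ContinuousLinearMap.eq_adjoint_iff _ _).2 fun v ξ => ?_
  exact lp.inner_single_left (𝕜 := ℂ) (G := fun _ : X => H.car) x v ξ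

lemma adj_inc (x : X) : adj (inc x : Hom H (l2 X H)) = ev x := by
  rw [← adj_ev, adj_adj]

lemma norm_inc_apply (x : X) (v : H.car) : ‖(inc x v : (l2 X H).car)‖ = ‖v‖ := by
  classical
  exact lp.norm_single (E := fun _ : X => H.car) (p := 2) (by norm_num) x v

lemma norm_ev_apply_le (x : X) (ξ : (l2 X H).car) : ‖ev x ξ‖ ≤ ‖ξ‖ := by
  exact lp.norm_apply_le_norm (E := fun _ : X => H.car) (p := 2) (by norm_num) ξ x

lemma hasSum_inc (ξ : (l2 X H).car) : HasSum (fun x => (inc x (ev x ξ) : (l2 X H).car)) ξ := by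
  classical
  exact lp.hasSum_single (E := fun _ : X => H.car) (p := 2) (by norm_num) ξ

lemma entry_ext {S T : Hom (l2 Y H) (l2 X K)} (h : ∀ x y, entry S x y = entry T x y) : S = T := by
  have h1 : ∀ y v, S (inc y v) = T (inc y v) := fun y v =>
    l2_ext fun x => DFunLike.congr_fun (h x y) v
  refine ContinuousLinearMap.ext fun ξ => ((hasSum_inc ξ).mapL S).unique ?_
  simp only [h1]
  exact (hasSum_inc ξ).mapL T

lemma entry_add (S T : Hom (l2 Y H) (l2 X K)) (x : X) (y : Y) :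
    entry (S + T) x y = entry S x y + entry T x y := by
  simp only [entry_def, ContinuousLinearMap.add_comp, ContinuousLinearMap.comp_add]

lemma entry_sub (S T : Hom (l2 Y H) (l2 X K)) (x : X) (y : Y) :
    entry (S - T) x y = entry S x y - entry T x y := by
  simp only [entry_def, ContinuousLinearMap.sub_comp, ContinuousLinearMap.comp_sub]

lemma entry_smul (c : ℂ) (T : Hom (l2 Y H) (l2 X K)) (x : X) (y : Y) :
    entry (c • T) x y = c • entry T x y := by
  simp only [entry_def, ContinuousLinearMap.smul_comp, ContinuousLinearMap.comp_smul]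

lemma entry_zero (x : X) (y : Y) : entry (0 : Hom (l2 Y H) (l2 X K)) x y = 0 := by
  simp only [entry_def, ContinuousLinearMap.zero_comp, ContinuousLinearMap.comp_zero]

lemma entry_sum {ι : Type} (s : Finset ι) (T : ι → Hom (l2 Y H) (l2 X K)) (x : X) (y : Y) :
    entry (∑ i ∈ s, T i) x y = ∑ i ∈ s, entry (T i) x y := by
  classical
  induction s using Finset.induction_on with
  | empty => simp [entry_zero]
  | insert i s hi ih => rw [Finset.sum_insert hi, Finset.sum_insert hi, entry_add, ih]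

lemma entry_one_self (x : X) : entry (1 : Op (l2 X H)) x x = 1 := by
  exact ContinuousLinearMap.ext fun v => ev_inc_self x v

lemma entry_one_ne {x y : X} (h : x ≠ y) : entry (1 : Op (l2 X H)) x y = 0 := by
  exact ContinuousLinearMap.ext fun v => ev_inc_ne h v

lemma entry_adj (T : Hom (l2 Y H) (l2 X K)) (y : Y) (x : X) :
    entry (adj T) y x = adj (entry T x y) := by
  rw [entry_def, entry_def, adj_comp, adj_comp, adj_inc, adj_ev]
  rfl

lemma entry_star (T : Op (l2 X H)) (x y : X) : entry (star T) x y = star (entry T y x) :=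
  entry_adj T x y

lemma norm_entry_le (T : Hom (l2 Y H) (l2 X K)) (x : X) (y : Y) : ‖entry T x y‖ ≤ ‖T‖ := by
  refine ContinuousLinearMap.opNorm_le_bound _ (norm_nonneg _) fun v => ?_
  rw [entry_apply, ← norm_inc_apply y v]
  exact (norm_ev_apply_le _ _).trans (T.le_opNorm _)

/-- An entry of a product is the finite sum over the indices where both factors are nonzero. -/
lemma entry_comp_finset (S : Hom (l2 Y K) (l2 X L)) (T : Hom (l2 Z H) (l2 Y K)) (x : X) (z : Z)
    (s : Finset Y) (h : ∀ y, y ∉ s → entry S x y = 0 ∨ entry T y z = 0) :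
    entry (S ∘L T) x z = ∑ y ∈ s, entry S x y ∘L entry T y z := by
  refine ContinuousLinearMap.ext fun v => ?_
  have h1 := (hasSum_inc (T (inc z v))).mapL (ev x ∘L S)
  rw [sum_apply]
  refine h1.unique (hasSum_sum_of_ne_finset_zero (f := fun y => (entry S x y ∘L entry T y z) v)
    fun y hy => ?_)
  rcases h y hy with h | h <;> simp [h]

lemma entry_mul_finset (S T : Op (l2 X H)) (x z : X) (s : Finset X)
    (h : ∀ y, y ∉ s → entry S x y = 0 ∨ entry T y z = 0) :
    entry (S * T) x z = ∑ y ∈ s, entry S x y * entry T y z :=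
  entry_comp_finset S T x z s h

/-- A column of operators. -/
lemma exists_col (d : Y → Hom H K) (C : ℝ) (hC : 0 ≤ C)
    (h : ∀ (v : H.car) (s : Finset Y), ∑ y ∈ s, ‖d y v‖ ^ 2 ≤ C ^ 2 * ‖v‖ ^ 2) :
    ∃ T : Hom H (l2 Y K), ‖T‖ ≤ C ∧ ∀ v y, ev y (T v) = d y v := by
  have h1 : ∀ (v : H.car) (s : Finset Y),
      ∑ y ∈ s, ‖d y v‖ ^ (2 : ENNReal).toReal ≤ (C * ‖v‖) ^ (2 : ENNReal).toReal := fun v s => by
    simpa [mul_pow] using h v s
  let a : ContinuousLinearMap (RingHom.id ℂ) H.car (lp (fun _ : Y => K.car) 2) :=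
    LinearMap.mkContinuous
    { toFun := fun v => ⟨fun y => d y v, memℓp_gen' (h1 v)⟩
      map_add' := fun v w => lp.ext (funext fun y => by simp; rfl)
      map_smul' := fun c v => lp.ext (funext fun y => by simp) }
    C fun v => lp.norm_le_of_forall_sum_le (by norm_num) (by positivity) (h1 v)
  exact ⟨a, LinearMap.mkContinuous_norm_le _ hC _, fun _ _ => rfl⟩

/-- `T` is the weighted pullback `(T ξ) y = d y (ξ (φ y))`. -/
def IsPb (T : Hom (l2 X H) (l2 Y K)) (φ : Y → X) (d : Y → Hom H K) : Prop :=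
  ∀ ξ y, ev y (T ξ) = d y (ev (φ y) ξ)

lemma exists_pb (φ : Y → X) (d : Y → Hom H K) (C : ℝ) (hC : 0 ≤ C)
    (h : ∀ (x : X) (v : H.car) (s : Finset Y), (∀ y ∈ s, φ y = x) →
      ∑ y ∈ s, ‖d y v‖ ^ 2 ≤ C ^ 2 * ‖v‖ ^ 2) :
    ∃ T : Hom (l2 X H) (l2 Y K), ‖T‖ ≤ C ∧ IsPb T φ d := by
  classical
  refine exists_col (fun y => d y ∘L ev (φ y)) C hC fun ξ s => ?_
  rw [← Finset.sum_fiberwise_of_maps_to (t := s.image φ) (g := φ)
    fun y hy => Finset.mem_image_of_mem φ hy]
  refine le_trans (Finset.sum_le_sum fun x _ => ?_) ((Finset.mul_sum _ _ _).symm.trans_le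
    (mul_le_mul_of_nonneg_left (sum_norm_sq_le ξ (s.image φ)) (sq_nonneg C)))
  refine le_trans (le_of_eq (Finset.sum_congr rfl fun y hy => ?_))
    (h x (ev x ξ) (s.filter fun y => φ y = x) fun y hy => (Finset.mem_filter.1 hy).2)
  rw [← (Finset.mem_filter.1 hy).2]
  rfl

/-- Pullback along a map whose fibres (on the support of `d`) have at most `k` points. -/
lemma exists_pb_card (φ : Y → X) (d : Y → Hom H K) (c : ℝ) (k : ℕ) (hd : ∀ y, ‖d y‖ ≤ c)
    (hk : ∀ (x : X) (s : Finset Y), (∀ y ∈ s, φ y = x ∧ d y ≠ 0) → s.card ≤ k) :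
    ∃ T : Hom (l2 X H) (l2 Y K), IsPb T φ d := by
  classical
  obtain ⟨T, -, hT⟩ := exists_pb φ d (Real.sqrt k * |c|) (by positivity) fun x v s hs => by
    have h1 : ∑ y ∈ s.filter (fun y => d y ≠ 0), ‖d y v‖ ^ 2 = ∑ y ∈ s, ‖d y v‖ ^ 2 :=
      Finset.sum_filter_of_ne fun y _ hy h0 => hy (by simp [h0])
    have h2 : ((s.filter fun y => d y ≠ 0).card : ℝ) ≤ k := by
      exact_mod_cast hk x _ fun y hy =>
        ⟨hs y (Finset.mem_filter.1 hy).1, (Finset.mem_filter.1 hy).2⟩
    rw [← h1, mul_pow, Real.sq_sqrt (Nat.cast_nonneg k), mul_assoc, ← mul_pow]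
    refine (Finset.sum_le_card_nsmul _ _ ((|c| * ‖v‖) ^ 2) fun y _ => ?_).trans ?_
    · exact pow_le_pow_left₀ (norm_nonneg _) (((d y).le_opNorm v).trans
        (mul_le_mul_of_nonneg_right ((hd y).trans (le_abs_self c)) (norm_nonneg _))) 2
    · rw [nsmul_eq_mul]
      exact mul_le_mul_of_nonneg_right h2 (by positivity)
  exact ⟨T, hT⟩

lemma exists_pb_inj {φ : Y → X} (hφ : Function.Injective φ) (d : Y → Hom H K) (c : ℝ)
    (hc : 0 ≤ c) (hd : ∀ y, ‖d y‖ ≤ c) : ∃ T : Hom (l2 X H) (l2 Y K), ‖T‖ ≤ c ∧ IsPb T φ d := by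
  refine exists_pb φ d c hc fun x v s hs => ?_
  have h2 : (s.card : ℝ) ≤ 1 := by
    exact_mod_cast Finset.card_le_one.2 fun a ha b hb => hφ ((hs a ha).trans (hs b hb).symm)
  rw [← mul_pow]
  refine (Finset.sum_le_card_nsmul _ _ ((c * ‖v‖) ^ 2) fun y _ => ?_).trans ?_
  · exact pow_le_pow_left₀ (norm_nonneg _) (((d y).le_opNorm v).trans
      (mul_le_mul_of_nonneg_right (hd y) (norm_nonneg _))) 2
  · rw [nsmul_eq_mul]
    exact mul_le_of_le_one_left (by positivity) h2

end

end Vale.Agent.P212
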