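import Vale.Agent.P212.L2

/-! Weighted pullbacks, diagonal operators, indicator functions and block sums. -/

namespace Vale.Agent.P212

noncomputable section

variable {X Y Z : Type} {H K L : Hilb}

namespace IsPb

variable {T T' : Hom (l2 X H) (l2 Y K)} {φ φ' : Y → X} {d d' : Y → Hom H K}

lemma entry_self (h : IsPb T φ d) (y : Y) : entry T y (φ y) = d y := by
  refine ContinuousLinearMap.ext fun v => ?_
  rw [entry_apply, h, ev_inc_self]

lemma entry_ne (h : IsPb T φ d) {y : Y} {x : X} (hx : x ≠ φ y) : entry T y x = 0 := by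
  refine ContinuousLinearMap.ext fun v => ?_
  rw [entry_apply, h, ev_inc_ne hx.symm, map_zero]
  rfl

lemma eq (h : IsPb T φ d) (h' : IsPb T' φ' d') (hd : ∀ y, d y = d' y)
    (hφ : ∀ y, d y ≠ 0 → φ y = φ' y) : T = T' := by
  refine ContinuousLinearMap.ext fun ξ => l2_ext fun y => ?_
  rw [h, h', ← hd]
  by_cases h0 : d y = 0
  · simp [h0]
  · rw [hφ y h0]

lemma comp {S : Hom (l2 Y K) (l2 Z L)} {ψ : Z → Y} {e : Z → Hom K L} (hS : IsPb S ψ e)
    (h : IsPb T φ d) : IsPb (S ∘L T) (fun z => φ (ψ z)) fun z => e z ∘L d (ψ z) := by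
  intro ξ z
  rw [ContinuousLinearMap.comp_apply, hS, h]
  rfl

lemma mul {S T : Op (l2 X H)} {φ ψ : X → X} {d e : X → Op H} (hS : IsPb S ψ e)
    (h : IsPb T φ d) : IsPb (S * T) (fun z => φ (ψ z)) fun z => e z * d (ψ z) :=
  hS.comp h

lemma add (h : IsPb T φ d) (h' : IsPb T' φ d') : IsPb (T + T') φ fun y => d y + d' y := by
  intro ξ y
  rw [add_apply, map_add, h, h']
  rfl

lemma smul (h : IsPb T φ d) (c : ℂ) : IsPb (c • T) φ fun y => c • d y := by
  intro ξ y
  rw [smul_apply, map_smul, h]
  rfl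

lemma adj_equiv {e : Y ≃ X} (h : IsPb T e d) :
    IsPb (adj T) e.symm fun x => adj (d (e.symm x)) := by
  intro ξ x
  refine ext_inner_left ℂ fun v => ?_
  rw [← adj_inc x, inner_adj_right, inner_adj_right, inner_adj_right]
  have h1 : T (inc x v) = inc (e.symm x) (d (e.symm x) v) := by
    refine l2_ext fun y => ?_
    rw [h]
    by_cases hy : y = e.symm x
    · rw [hy, ev_inc_self, Equiv.apply_symm_apply, ev_inc_self]
    · rw [ev_inc_ne hy, ev_inc_ne, map_zero]
      rintro rfl
      exact hy (e.symm_apply_apply y).symm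
  rw [h1, ← adj_ev, inner_adj_left]

lemma entry_comp_left (h : IsPb T φ d) (S : Hom (l2 Z L) (l2 X H)) (y : Y) (z : Z) :
    entry (T ∘L S) y z = d y ∘L entry S (φ y) z := by
  refine ContinuousLinearMap.ext fun v => ?_
  exact h _ y

lemma entry_comp_right_id {T : Hom (l2 X H) (l2 X K)} {d : X → Hom H K} (h : IsPb T id d)
    (S : Hom (l2 X K) (l2 Z L)) (z : Z) (x : X) : entry (S ∘L T) z x = entry S z x ∘L d x := by
  rw [entry_comp_finset S T z x {x} fun y hy => .inr
    (h.entry_ne fun e => hy (Finset.mem_singleton.2 e.symm)), Finset.sum_singleton]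
  exact congrArg _ (h.entry_self x)

end IsPb

lemma isPb_one : IsPb (1 : Op (l2 X H)) id fun _ => 1 := fun _ _ => rfl

lemma exists_dg (X : Type) (H : Hilb) : ∃ D : Op H →⋆ₐ[ℂ] Op (l2 X H),
    ∀ a, IsPb (D a) id fun _ => a := by
  choose D hD using fun a : Op H => (exists_pb_inj (φ := (id : X → X)) Function.injective_id
    (fun _ => a) ‖a‖ (norm_nonneg a) fun _ => le_rfl).imp fun _ h => h.2
  refine ⟨{ toFun := D
            map_one' := (hD 1).eq isPb_one (fun _ => rfl) fun _ _ => rfl
            map_mul' := fun a b => (hD _).eq ((hD a).mul (hD b)) (fun _ => rfl) fun _ _ => rfl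
            map_zero' := (hD 0).eq (φ' := id) (d' := fun _ => 0) (fun _ _ => by simp)
              (fun _ => rfl) fun _ _ => rfl
            map_add' := fun a b => (hD _).eq ((hD a).add (hD b)) (fun _ => rfl) fun _ _ => rfl
            commutes' := fun c => ?_
            map_star' := fun a => (hD _).eq
              (IsPb.adj_equiv (e := Equiv.refl X) (hD a)) (fun _ => rfl) fun _ _ => rfl }, hD⟩
  rw [Algebra.algebraMap_eq_smul_one, Algebra.algebraMap_eq_smul_one]
  exact (hD _).eq (isPb_one.smul c) (fun _ => rfl) fun _ _ => rfl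

/-- The constant diagonal operators `1 ⊗ a`. -/
def dg (X : Type) (H : Hilb) : Op H →⋆ₐ[ℂ] Op (l2 X H) := (exists_dg X H).choose

lemma isPb_dg (a : Op H) : IsPb (dg X H a) id fun _ => a := (exists_dg X H).choose_spec a

lemma entry_dg_mul (a : Op H) (T : Op (l2 X H)) (x y : X) :
    entry (dg X H a * T) x y = a * entry T x y := (isPb_dg a).entry_comp_left T x y

lemma entry_mul_dg (a : Op H) (T : Op (l2 X H)) (x y : X) :
    entry (T * dg X H a) x y = entry T x y * a := (isPb_dg a).entry_comp_right_id T x y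

open Classical in
lemma exists_chi (s : Set X) (H : Hilb) : ∃ T : Op (l2 X H), ‖T‖ ≤ 1 ∧
    IsPb T id fun x => if x ∈ s then 1 else 0 := by
  refine exists_pb_inj Function.injective_id _ 1 zero_le_one fun x => ?_
  split_ifs
  · exact ContinuousLinearMap.norm_id_le
  · simp

/-- Multiplication by the indicator function of `s`. -/
def chi (H : Hilb) (s : Set X) : Op (l2 X H) := (exists_chi s H).choose

open Classical in
lemma isPb_chi (s : Set X) : IsPb (chi H s) id fun x => if x ∈ s then 1 else 0 :=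
  (exists_chi s H).choose_spec.2

lemma norm_chi_le (s : Set X) : ‖chi H s‖ ≤ 1 := (exists_chi s H).choose_spec.1

lemma chi_mul_chi (s t : Set X) : chi H s * chi H t = chi H (s ∩ t) := by
  refine ((isPb_chi s).mul (isPb_chi t)).eq (isPb_chi _) (fun x => ?_) fun _ _ => rfl
  by_cases h1 : x ∈ s <;> by_cases h2 : x ∈ t <;> simp [h1, h2]

lemma star_chi (s : Set X) : star (chi H s) = chi H s := by
  refine (IsPb.adj_equiv (e := Equiv.refl X) (isPb_chi s)).eq (isPb_chi _) (fun x => ?_)
    fun _ _ => rfl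
  rw [← star_eq_adj]
  by_cases h1 : x ∈ s <;> simp [h1]

lemma chi_univ : chi H (Set.univ : Set X) = 1 := by
  exact (isPb_chi _).eq isPb_one (fun x => by simp) fun _ _ => rfl

lemma chi_empty : chi H (∅ : Set X) = 0 := by
  exact (isPb_chi _).eq (φ' := id) (d' := fun _ => 0) (fun _ _ => by simp) (fun x => by simp)
    fun _ _ => rfl

lemma chi_add_compl (s : Set X) : chi H s + chi H sᶜ = 1 := by
  refine ((isPb_chi s).add (isPb_chi _)).eq isPb_one (fun x => ?_) fun _ _ => rfl
  by_cases h1 : x ∈ s <;> simp [h1]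

open Classical in
lemma entry_chi_mul (s : Set X) (T : Op (l2 X H)) (x y : X) :
    entry (chi H s * T) x y = if x ∈ s then entry T x y else 0 := by
  refine ((isPb_chi s).entry_comp_left T x y).trans ?_
  split_ifs
  · rfl
  · simp

open Classical in
lemma entry_mul_chi (s : Set X) (T : Op (l2 X H)) (x y : X) :
    entry (T * chi H s) x y = if y ∈ s then entry T x y else 0 := by
  refine ((isPb_chi s).entry_comp_right_id T x y).trans ?_
  split_ifs
  · rfl
  · simp

/-- An operator commutes with `chi s` iff its entries between `s` and the complement vanish. -/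
lemma commute_chi_iff (s : Set X) (T : Op (l2 X H)) :
    Commute (chi H s) T ↔ ∀ x y, entry T x y ≠ 0 → (x ∈ s ↔ y ∈ s) := by
  constructor
  · intro h x y h0
    have h1 := entry_chi_mul s T x y
    rw [h.eq, entry_mul_chi] at h1
    by_cases hx : x ∈ s <;> by_cases hy : y ∈ s <;> simp_all
  · intro h
    refine entry_ext fun x y => ?_
    refine (entry_chi_mul s T x y).trans (Eq.trans ?_ (entry_mul_chi s T x y).symm)
    by_cases h0 : entry T x y = 0
    · simp [h0]
    · have h1 := h x y h0
      by_cases hx : x ∈ s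
      · rw [if_pos hx, if_pos (h1.1 hx)]
      · rw [if_neg hx, if_neg fun hy => hx (h1.2 hy)]

lemma l2b_blocks (b : X → ℕ) (ξ : (l2 X H).car) (t : Finset ℕ) :
    ∑ n ∈ t, ‖chi H {x | b x = n} ξ‖ ^ 2 ≤ ‖ξ‖ ^ 2 := by
  refine hasSum_le (fun x => ?_) (hasSum_sum fun n _ => hasSum_norm_sq (chi H {x | b x = n} ξ))
    (hasSum_norm_sq ξ)
  have h1 : ∀ n, ‖ev x (chi H {x | b x = n} ξ)‖ ^ 2 = if b x = n then ‖ev x ξ‖ ^ 2 else 0 := by
    intro n
    rw [isPb_chi]
    by_cases h : b x = n <;> simp [h]
  simp only [h1, Finset.sum_ite_eq]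
  split_ifs
  · exact le_rfl
  · positivity

/-- Block diagonal sum of a bounded family of operators living on the blocks of a partition. -/
lemma exists_blockSum (b : X → ℕ) (e : ℕ → Op (l2 X H)) (hn : ∀ n, ‖e n‖ ≤ 1)
    (he : ∀ n x y, entry (e n) x y ≠ 0 → b x = n ∧ b y = n) :
    ∃ E : Op (l2 X H), ∀ n, chi H {x | b x = n} * E = e n := by
  classical
  have h1 : ∀ n, e n * chi H {x | b x = n} = e n := fun n => entry_ext fun x y => by
    rw [entry_mul_chi]
    split_ifs with h
    · rfl
    · by_contra h0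
      exact h (he n x y (Ne.symm h0)).2
  obtain ⟨E, -, hE⟩ := exists_col (fun x => ev x ∘L e (b x)) 1 zero_le_one fun ξ s => by
    rw [one_pow, one_mul, ← Finset.sum_fiberwise_of_maps_to (t := s.image b) (g := b)
      fun y hy => Finset.mem_image_of_mem b hy]
    refine le_trans (Finset.sum_le_sum fun n _ => ?_) (l2b_blocks b ξ (s.image b))
    calc ∑ x ∈ s with b x = n, ‖(ev x ∘L e (b x)) ξ‖ ^ 2
        = ∑ x ∈ s with b x = n, ‖ev x (e n (chi H {x | b x = n} ξ))‖ ^ 2 := by
          refine Finset.sum_congr rfl fun x hx => ?_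
          rw [(Finset.mem_filter.1 hx).2, ← mul_apply_eq_comp, h1]
          rfl
      _ ≤ ‖e n (chi H {x | b x = n} ξ)‖ ^ 2 := sum_norm_sq_le _ _
      _ ≤ _ := pow_le_pow_left₀ (norm_nonneg _) (((e n).le_opNorm _).trans
          (mul_le_of_le_one_left (norm_nonneg _) (hn n))) 2
  refine ⟨E, fun n => entry_ext fun x y => ?_⟩
  rw [entry_chi_mul]
  split_ifs with h
  · obtain rfl : b x = n := h
    exact ContinuousLinearMap.ext fun v => hE _ x
  · by_contra h0
    exact h (he n x y (Ne.symm h0)).1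

/-- Two operators agree if they agree on all blocks of a partition. -/
lemma ext_blocks (b : X → ℕ) {S T : Op (l2 X H)}
    (h : ∀ n, chi H {x | b x = n} * S = chi H {x | b x = n} * T) : S = T := by
  refine entry_ext fun x y => ?_
  have h1 := entry_chi_mul {z | b z = b x} S x y
  rw [h, entry_chi_mul] at h1
  simpa using h1.symm

end

end Vale.Agent.P212
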