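import Vale.Agent.P212.L2b

/-! Finite matrices of operators and orthogonal isometries. -/

namespace Vale.Agent.P212

noncomputable section

variable {X : Type} {H : Hilb}

/-- The operator with the finite matrix `M`. -/
def mat (s : Finset X) (M : X → X → Op H) : Op (l2 X H) :=
  ∑ x ∈ s, ∑ y ∈ s, inc x ∘L M x y ∘L ev y

open Classical in
lemma L2c_entry_single (a b x y : X) (m : Op H) :
    entry (inc a ∘L m ∘L ev b : Op (l2 X H)) x y = if x = a ∧ y = b then m else 0 := by
  ext v
  show ev x (inc a (m (ev b (inc y v)))) = _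
  by_cases h : x = a
  · by_cases h' : y = b
    · rw [h, h', ev_inc_self, ev_inc_self, if_pos ⟨rfl, rfl⟩]
    · rw [ev_inc_ne (Ne.symm h'), map_zero, map_zero, map_zero, if_neg fun e => h' e.2]
      rfl
  · rw [ev_inc_ne h, if_neg fun e => h e.1]
    rfl

open Classical in
lemma entry_mat (s : Finset X) (M : X → X → Op H) (x y : X) :
    entry (mat s M) x y = if x ∈ s ∧ y ∈ s then M x y else 0 := by
  simp only [mat, entry_sum, L2c_entry_single, ite_and, Finset.sum_ite_irrel, Finset.sum_ite_eq,
    Finset.sum_const_zero]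

lemma mat_congr {s : Finset X} {M N : X → X → Op H} (h : ∀ x ∈ s, ∀ y ∈ s, M x y = N x y) :
    mat s M = mat s N := Finset.sum_congr rfl fun x hx => Finset.sum_congr rfl fun y hy => by rw [h x hx y hy]

lemma mat_mul (s : Finset X) (M N : X → X → Op H) :
    mat s M * mat s N = mat s fun x z => ∑ y ∈ s, M x y * N y z := by
  refine entry_ext fun x z => ?_
  rw [entry_mul_finset _ _ _ _ s fun y hy => Or.inl (by rw [entry_mat, if_neg fun e => hy e.2]),
    entry_mat]
  split_ifs with h
  · exact Finset.sum_congr rfl fun y hy => by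
      rw [entry_mat, entry_mat, if_pos ⟨h.1, hy⟩, if_pos ⟨hy, h.2⟩]
  · refine Finset.sum_eq_zero fun y _ => ?_
    rw [entry_mat, entry_mat]
    rcases not_and_or.1 h with h | h
    · rw [if_neg fun e => h e.1, zero_mul]
    · rw [if_neg (c := _ ∧ z ∈ s) fun e => h e.2, mul_zero]

lemma star_mat (s : Finset X) (M : X → X → Op H) :
    star (mat s M) = mat s fun x y => star (M y x) := entry_ext fun x y => by
    rw [entry_star, entry_mat, entry_mat, apply_ite star, star_zero]
    by_cases h : x ∈ s <;> by_cases h' : y ∈ s <;> simp [h, h']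

lemma mat_add (s : Finset X) (M N : X → X → Op H) :
    mat s M + mat s N = mat s fun x y => M x y + N x y := entry_ext fun x y => by
    rw [entry_add, entry_mat, entry_mat, entry_mat]
    split_ifs <;> simp

lemma mat_sub (s : Finset X) (M N : X → X → Op H) :
    mat s M - mat s N = mat s fun x y => M x y - N x y := entry_ext fun x y => by
    rw [entry_sub, entry_mat, entry_mat, entry_mat]
    split_ifs <;> simp

lemma mat_sum {ι : Type} (t : Finset ι) (s : Finset X) (M : ι → X → X → Op H) :
    ∑ i ∈ t, mat s (M i) = mat s fun x y => ∑ i ∈ t, M i x y := entry_ext fun x y => by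
    simp only [entry_sum, entry_mat, Finset.sum_ite_irrel, Finset.sum_const_zero]

lemma mat_mul_dg (s : Finset X) (M : X → X → Op H) (a : Op H) :
    mat s M * dg X H a = mat s fun x y => M x y * a := entry_ext fun x y => by
    rw [entry_mul_dg, entry_mat, entry_mat, ite_mul, zero_mul]

lemma dg_mul_mat (s : Finset X) (M : X → X → Op H) (a : Op H) :
    dg X H a * mat s M = mat s fun x y => a * M x y := entry_ext fun x y => by
    rw [entry_dg_mul, entry_mat, entry_mat, mul_ite, mul_zero]

/-- Bessel inequality for isometries with orthogonal ranges. -/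
lemma bessel {ι : Type} (s : Finset ι) (S : ι → Op H) (h1 : ∀ i ∈ s, star (S i) * S i = 1)
    (h2 : ∀ i ∈ s, ∀ j ∈ s, i ≠ j → star (S i) * S j = 0) (v : H.car) :
    ∑ i ∈ s, ‖star (S i) v‖ ^ 2 ≤ ‖v‖ ^ 2 := by
  have e : ∀ (T : Op H) (u w : H.car), inner ℂ u (T w) = inner ℂ (star T u) w := fun T u w =>
    (inner_adj_left T u w).symm
  obtain ⟨w, hw⟩ : ∃ w, w = ∑ i ∈ s, S i (star (S i) v) := ⟨_, rfl⟩
  have e1 : ∀ i ∈ s, star (S i) w = star (S i) v := fun i hi => by
    rw [hw, map_sum]
    exact (Finset.sum_eq_single_of_mem i hi fun j hj hji =>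
      DFunLike.congr_fun (h2 i hi j hj hji.symm) (star (S j) v)).trans
      (DFunLike.congr_fun (h1 i hi) _)
  have e2 : ∀ u, (∀ i ∈ s, star (S i) u = star (S i) v) →
      RCLike.re (inner ℂ u w) = ∑ i ∈ s, ‖star (S i) v‖ ^ 2 := fun u hu => by
    rw [hw, inner_sum, map_sum]
    exact Finset.sum_congr rfl fun i hi => by rw [e, hu i hi, inner_self_eq_norm_sq]
  have e3 := e2 w e1
  have e4 := re_inner_le_norm (𝕜 := ℂ) v w
  rw [inner_self_eq_norm_sq] at e3
  rw [e2 v fun _ _ => rfl] at e4
  nlinarith [sq_nonneg (‖v‖ - ‖w‖)]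

/-- Countably many isometries of `ℓ²(ℕ)` with orthogonal ranges. -/
lemma exists_isos : ∃ S : ℕ → Op HN, (∀ n, star (S n) * S n = 1) ∧
    ∀ n m, n ≠ m → star (S n) * S m = 0 := by
  choose T hT using fun n : ℕ => exists_pb_inj (H := cc) (K := cc) (φ := Nat.pair n)
    (fun _ _ h => (Nat.pair_eq_pair.1 h).2) (fun _ => 1) 1 zero_le_one
    fun _ => ContinuousLinearMap.norm_id_le
  have e : ∀ n m x y, entry (T n ∘L adj (T m)) x y = adj (entry (T m) y (Nat.pair n x)) :=
    fun n m x y => by
      rw [(hT n).2.entry_comp_left, entry_adj]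
      rfl
  refine ⟨fun n => adj (T n), fun n => ?_, fun n m h => ?_⟩ <;>
    refine (congrArg (· ∘L _) (adj_adj (T n))).trans (entry_ext fun x y => (e _ _ _ _).trans ?_)
  · by_cases h : x = y
    · rw [h, (hT n).2.entry_self]
      exact (star_one (Op cc)).trans (entry_one_self y).symm
    · rw [(hT n).2.entry_ne fun e => h (Nat.pair_eq_pair.1 e).2]
      exact (star_zero (Op cc)).trans (entry_one_ne h).symm
  · rw [(hT m).2.entry_ne fun e => h (Nat.pair_eq_pair.1 e).1]
    exact (star_zero (Op cc)).trans (entry_zero x y).symm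

end

end Vale.Agent.P212
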