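import Vale.Agent.P212.Cpt

/-! Lifting projections from the Calkin algebra. -/

namespace Vale.Agent.P212

noncomputable section

variable {H : Hilb}

/-- A compact self-adjoint operator has finitely many spectral values outside a disc. -/
lemma finite_spectrum {k : Op H} (hk : Cpt k) (hs : star k = k) {ε : ℝ} (hε : 0 < ε) :
    {μ : ℝ | μ ∈ spectrum ℝ k ∧ ε ≤ |μ|}.Finite := by
  have hsym := (IsSelfAdjoint.isSymmetric (A := k) hs).orthogonalFamily_eigenspaces
  obtain ⟨K, hK, hK'⟩ := IsCompactOperator.image_closedBall_subset_compact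
    (f := (k : H.car →ₗ[ℂ] H.car)) hk 1
  obtain ⟨t, ht, ht'⟩ := Metric.totallyBounded_iff.1 hK.totallyBounded (ε / 2) (half_pos hε)
  have h1 : ∀ μ : ℝ, μ ∈ spectrum ℝ k ∧ ε ≤ |μ| → ∃ v : H.car, ‖v‖ = 1 ∧ k v = (μ : ℂ) • v ∧
      ∃ y ∈ t, dist (k v) y < ε / 2 := by
    rintro μ ⟨h1, h2⟩
    have h0 : (μ : ℂ) ≠ 0 := by
      rw [Ne, Complex.ofReal_eq_zero, ← abs_eq_zero]
      exact (hε.trans_le h2).ne'
    obtain ⟨v, hv, hv0⟩ := ((IsCompactOperator.hasEigenvalue_iff_mem_spectrum hk h0).2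
      (spectrum.algebraMap_mem ℂ h1)).exists_hasEigenvector
    have h3 : ‖((‖v‖⁻¹ : ℝ) : ℂ) • v‖ = 1 := by
      rw [norm_smul, Complex.norm_real, norm_inv, norm_norm, inv_mul_cancel₀ (norm_ne_zero_iff.2 hv0)]
    refine ⟨_, h3, Module.End.mem_eigenspace_iff.1 (Submodule.smul_mem _ _ hv), ?_⟩
    simpa using ht' (hK' ⟨_, mem_closedBall_zero_iff.2 h3.le, rfl⟩)
  choose! v hv1 hv2 y hy hy' using h1
  refine Set.Finite.of_injOn (f := y) hy (fun μ hμ ν hν h => ?_) ht
  by_contra hne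
  have h1 : inner ℂ (v μ) (v ν) = 0 := hsym (i := μ) (j := ν) (by exact_mod_cast hne)
    ⟨_, Module.End.mem_eigenspace_iff.2 (hv2 μ hμ)⟩ ⟨_, Module.End.mem_eigenspace_iff.2 (hv2 ν hν)⟩
  have h2 := norm_inner_le_norm (𝕜 := ℂ) (v μ) (k (v μ) - k (v ν))
  have h3 := dist_triangle_right (k (v μ)) (k (v ν)) (y ν)
  have h4 := hy' μ hμ
  rw [← dist_eq_norm, hv1 μ hμ, one_mul, inner_sub_right, hv2 μ hμ, hv2 ν hν, inner_smul_right,
    inner_smul_right, h1, inner_self_eq_norm_sq_to_K, hv1 μ hμ, ← hv2 μ hμ, ← hv2 ν hν] at h2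
  simp only [mul_zero, sub_zero, RCLike.ofReal_one, one_pow, mul_one, Complex.norm_real,
    Real.norm_eq_abs] at h2
  rw [h] at h4
  linarith [hy' ν hν, hμ.2]

lemma lift_cfc {B : Type} [CStarAlgebra B] {b : B} (hb : IsSelfAdjoint b) :
    cfc (fun x : ℝ => x * x - x) b = b * b - b := by
  rw [cfc_sub .., cfc_mul .., cfc_id' ℝ b]

lemma lift_spec {B : Type} [CStarAlgebra B] {b : B} (hb : IsSelfAdjoint b) {l : ℝ}
    (h : l ∈ spectrum ℝ b) : l * l - l ∈ spectrum ℝ (b * b - b) := by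
  rw [← lift_cfc hb, cfc_map_spectrum ..]
  exact ⟨l, h, rfl⟩

lemma lift_cont {l : ℝ} {S : Set ℝ} (hl : l ∉ S) {f g : ℝ → ℝ} (hf : ∀ x < l, ContinuousAt f x)
    (hg : ∀ x, l < x → ContinuousAt g x) :
    ContinuousOn (fun x => if x < l then f x else g x) S := by
  intro x hx
  refine ContinuousAt.continuousWithinAt ?_
  rcases lt_trichotomy x l with h | rfl | h
  · refine (hf x h).congr ?_
    filter_upwards [Iio_mem_nhds h] with y hy using (if_pos hy).symm
  · exact absurd hx hl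
  · refine (hg x h).congr ?_
    filter_upwards [Ioi_mem_nhds h] with y hy using (if_neg (not_lt.2 (le_of_lt hy))).symm

lemma lift_gen {B : Type} [CStarAlgebra B] {b : B} (hb : IsSelfAdjoint b) {l : ℝ} (h0 : 0 < l)
    (h1 : l < 1) (hl : l ∉ spectrum ℝ b) : ∃ e h : B, e * e = e ∧ star e = e ∧ ‖e‖ ≤ 1 ∧
      e - b = h * (b * b - b) ∧ (∀ c, Commute c b → Commute c e) ∧ ∀ c, c * b = 0 → c * e = 0 := by
  have c1 := lift_cont hl (f := fun _ => 0) (g := fun _ => 1) (by fun_prop) (by fun_prop)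
  have c2 := lift_cont hl (f := fun x => (1 - x)⁻¹) (g := fun x => -x⁻¹)
    (fun x hx => ContinuousAt.inv₀ (by fun_prop) (by linarith))
    fun x hx => (continuousAt_inv₀ (by linarith)).neg
  have c3 := lift_cont hl (f := fun _ => 0) (g := fun x => x⁻¹) (by fun_prop)
    fun x hx => continuousAt_inv₀ (by linarith)
  have e1 : cfc (fun x : ℝ => if x < l then (0 : ℝ) else 1) b *
      cfc (fun x : ℝ => if x < l then (0 : ℝ) else 1) b =
      cfc (fun x : ℝ => if x < l then (0 : ℝ) else 1) b := by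
    rw [← cfc_mul ..]
    exact cfc_congr fun x _ => by split_ifs <;> simp
  have e2 : IsSelfAdjoint (cfc (fun x : ℝ => if x < l then (0 : ℝ) else 1) b) := cfc_predicate _ _
  refine ⟨_, cfc (fun x : ℝ => if x < l then (1 - x)⁻¹ else -x⁻¹) b, e1, e2,
    IsStarProjection.norm_le _ ⟨e1, e2⟩, ?_, fun c hc => (hc.symm.cfc_real _).symm, fun c hc => ?_⟩
  · rw [← lift_cfc hb, ← cfc_mul ..]
    nth_rw 2 [← cfc_id' ℝ b]
    rw [← cfc_sub ..]
    refine cfc_congr fun x _ => ?_
    split_ifs with h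
    · have : 1 - x ≠ 0 := by linarith
      field_simp
      ring
    · have : x ≠ 0 := by linarith
      field_simp
      ring
  · have : cfc (fun x : ℝ => if x < l then (0 : ℝ) else 1) b =
        b * cfc (fun x : ℝ => if x < l then 0 else x⁻¹) b := by
      nth_rw 2 [← cfc_id' ℝ b]
      rw [← cfc_mul ..]
      refine cfc_congr fun x _ => ?_
      split_ifs with h
      · simp
      · rw [mul_inv_cancel₀ (by linarith)]
    rw [this, ← mul_assoc, hc, zero_mul]

/-- A self-adjoint essential projection has a spectral gap inside `(0, 1)`. -/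
lemma exists_gap {b : Op H} (hb : star b = b) (hc : Cpt (b * b - b)) :
    ∃ l : ℝ, 0 < l ∧ l < 1 ∧ l ∉ spectrum ℝ b := by
  by_contra! h
  have hf := finite_spectrum hc (by rw [star_sub, star_mul, hb])
    (show (0 : ℝ) < 1 / 8 by norm_num)
  refine Set.Icc_infinite (show (1 / 4 : ℝ) < 1 / 2 by norm_num) (Set.Finite.of_injOn
    (f := fun x => x * x - x) (fun x hx => ?_) (fun x hx y hy hxy => ?_) hf)
  · exact ⟨lift_spec hb (h x (by linarith [hx.1]) (by linarith [hx.2])),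
      le_abs.2 (Or.inr (by nlinarith [hx.1, hx.2]))⟩
  · dsimp only at hxy
    rcases lt_trichotomy x y with h | h | h
    · nlinarith [hx.2, hy.2]
    · exact h
    · nlinarith [hx.2, hy.2]

/-- A self-adjoint essential projection is a compact perturbation of a projection that is a
function of it. -/
theorem exists_lift {b : Op H} (hb : star b = b) (hc : Cpt (b * b - b)) :
    ∃ e : Op H, e * e = e ∧ star e = e ∧ ‖e‖ ≤ 1 ∧ Cpt (e - b) ∧
      (∀ c, Commute c b → Commute c e) ∧ ∀ c, c * b = 0 → c * e = 0 := by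
  obtain ⟨l, h0, h1, hl⟩ := exists_gap hb hc
  obtain ⟨e, h, a1, a2, a3, a4, a5, a6⟩ := lift_gen hb h0 h1 hl
  exact ⟨e, a1, a2, a3, a4 ▸ hc.mul_left h, a5, a6⟩

end

end Vale.Agent.P212
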