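import Vale.Agent.P212.Cpt

/-! The Toeplitz extension of the circle. -/

namespace Vale.Agent.P212

noncomputable section

/-- A representation of `C(Ω)`, `Ω` mapping to the circle, with a Hardy projection. -/
structure Toep (Ω : Type) [TopologicalSpace Ω] where
  ζ : C(Ω, ℂ)
  φ : C(Ω, ℂ) →⋆ₐ[ℂ] Op HN
  E : Op HN
  δ : HN.car
  norm_ζ : ∀ ω, ‖ζ ω‖ = 1
  norm_φ : ∀ f c, (∀ ω, ‖f ω‖ ≤ c) → 0 ≤ c → ‖φ f‖ ≤ c
  E_star : star E = E
  E_idem : E * E = E
  comm : ∀ f, Cpt (φ f * E - E * φ f)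
  inv : E * φ ζ * E = φ ζ * E
  defect : E - φ ζ * E * star (φ ζ) = InnerProductSpace.rankOne ℂ δ δ
  norm_δ : ‖δ‖ = 1

/-- The bilateral shift and the Hardy projection. -/
lemma exists_shift : ∃ (u E : Op HN) (δ : HN.car), u ∈ unitary (Op HN) ∧ star E = E ∧ E * E = E ∧
    E * u * E = u * E ∧ E - u * E * star u = InnerProductSpace.rankOne ℂ δ δ ∧ ‖δ‖ = 1 := by
  classical
  obtain ⟨o, ho, h2⟩ : ∃ o : cc.car, ‖o‖ = 1 ∧ ∀ z : cc.car, inner ℂ o z • o = z :=
    ⟨(1 : ℂ), norm_one (α := ℂ), fun z : ℂ => by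
      change inner ℂ (1 : ℂ) z • (1 : ℂ) = z
      simp⟩
  let e := (Denumerable.eqv ℤ).symm
  let s : ℕ ≃ ℕ := e.trans ((Equiv.subRight 1).trans e.symm)
  have hs : ∀ n, e (s n) = e n - 1 := fun n => by simp [s]
  obtain ⟨u, -, hu⟩ := exists_pb_inj (H := cc) s.injective (fun _ => 1) 1 zero_le_one
    fun _ => ContinuousLinearMap.norm_id_le
  have hu' : IsPb (star u) s.symm fun _ => 1 := by
    simpa only [← star_eq_adj, star_one] using hu.adj_equiv
  have hE := isPb_chi (H := cc) {n | 0 ≤ e n}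
  refine ⟨u, chi cc {n | 0 ≤ e n}, inc (e.symm 0) o,
    ⟨(hu'.mul hu).eq isPb_one (by simp) (by simp), (hu.mul hu').eq isPb_one (by simp) (by simp)⟩,
    star_chi _, (chi_mul_chi _ _).trans (by rw [Set.inter_self]),
    ((hE.mul hu).mul hE).eq (hu.mul hE) (fun n => ?_) fun _ _ => rfl, ?_,
    (norm_inc_apply _ _).trans ho⟩
  · simp only [Set.mem_ofPred_eq, id, hs]
    split_ifs <;> simp
    omega
  · refine ContinuousLinearMap.ext fun ξ : (l2 ℕ cc).car => l2_ext fun n => ?_
    have h1 := ((hu.mul hE).mul hu') ξ n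
    change ev n (chi cc {n | 0 ≤ e n} ξ - (u * chi cc {n | 0 ≤ e n} * star u) ξ) =
      ev n (inner ℂ (inc (e.symm 0) o) ξ • inc (e.symm 0) o)
    rw [map_sub, hE, h1, map_smul, ← adj_ev, inner_adj_left, adj_ev]
    simp only [Set.mem_ofPred_eq, id, hs, Equiv.symm_apply_apply]
    rcases eq_or_ne n (e.symm 0) with rfl | hn
    · rw [ev_inc_self, h2]
      simp
    · have : e n ≠ 0 := fun h => hn (e.eq_symm_apply.2 h)
      rw [ev_inc_ne hn, smul_zero, if_congr (show 0 ≤ e n - 1 ↔ 0 ≤ e n by omega) rfl rfl]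
      by_cases h : 0 ≤ e n <;> simp [h]

theorem exists_toep : ∃ (Ω : Type) (_ : TopologicalSpace Ω), Nonempty (Toep Ω) := by
  obtain ⟨u, E, δ, hu, h1, h2, h3, h4, h5⟩ := exists_shift
  have hn : IsStarNormal u := isStarNormal_of_mem_unitary hu
  have c1 : Cpt (E * u - u * E) := by
    have : E * u - u * E = (E - u * E * star u) * u := by
      rw [sub_mul, mul_assoc _ (star u), hu.1, mul_one]
    rw [this, h4]
    exact (Cpt.rankOne δ δ).mul_right u
  refine ⟨spectrum ℂ u, inferInstance, ⟨⟨(ContinuousMap.id ℂ).restrict _, cfcHom hn, E, δ,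
    fun ω => mem_sphere_zero_iff_norm.1 (spectrum.subset_circle_of_unitary hu ω.2),
    fun f c hf hc => (norm_cfcHom u f hn).trans_le ((ContinuousMap.norm_le _ hc).2 hf), h1, h2,
    fun f => ?_, by rw [cfcHom_id hn, h3], by rw [cfcHom_id hn, h4], h5⟩⟩⟩
  induction f using ContinuousMap.induction_on_of_compact with
  | const r =>
    rw [show ContinuousMap.const _ r = algebraMap ℂ C(spectrum ℂ u, ℂ) r from rfl,
      AlgHomClass.commutes, Algebra.commutes, sub_self]
    exact Cpt.zero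
  | id => simpa only [cfcHom_id hn, neg_sub] using c1.neg
  | star_id => simpa only [map_star, cfcHom_id hn, star_sub, star_mul, h1] using c1.star
  | add f g hf hg =>
    rw [map_add, add_mul, mul_add, add_sub_add_comm]
    exact hf.add hg
  | mul f g hf hg =>
    have : ∀ a b : Op HN, a * b * E - E * (a * b) = a * (b * E - E * b) + (a * E - E * a) * b :=
      fun a b => by noncomm_ring
    rw [map_mul, this]
    exact (hg.mul_left _).add (hf.mul_right _)
  | frequently f hf =>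
    have := cfcHom_continuous (R := ℂ) hn
    exact (Cpt.isClosed.preimage (f := fun g => cfcHom hn g * E - E * cfcHom hn g)
      (by fun_prop)).closure_subset (mem_closure_iff_frequently.2 hf)

end

end Vale.Agent.P212
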