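import Vale.Agent.P212.LoopMap
import Vale.Agent.P212.Toep

/-! The cycle given by the sum of the fundamental classes of all loops. -/

namespace Vale.Agent.P212

noncomputable section

variable {X : Type} [MetricSpace X] {Ω : Type} [TopologicalSpace Ω]

/-- Restriction of a function to a loop. -/
def onLoop (γ : C(Ω, Rips X 1)) (f : C0 (Rips X 1)) : C(Ω, ℂ) := f.toContinuousMap.comp γ

lemma onLoop_apply (γ : C(Ω, Rips X 1)) (f : C0 (Rips X 1)) (ω : Ω) :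
    onLoop γ f ω = val f (γ ω) := rfl

/-- The cycle `Z` is the sum of the Toeplitz cycles of the loops `γ n`. -/
structure IsLoopCyc (τ : Toep Ω) (γ : ℕ → C(Ω, Rips X 1)) (S : ℕ → Op HN) (Z : Cyc X 1) : Prop where
  sa : star Z.F = Z.F
  iso : ∀ n, star (S n) * S n = 1
  F_S : ∀ n, Z.F * S n = S n * ((2 : ℂ) • τ.E - 1)
  rep : ∀ n f, (∀ n', n' ≠ n → onLoop (γ n') f = 0) →
    Z.π f = S n * τ.φ (onLoop (γ n) f) * star (S n)

lemma onLoop_small (lo : Loops X) {ζ : C(Ω, ℂ)} {γ : ℕ → C(Ω, Rips X 1)}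
    {ψ : ℕ → X → C(Ω, ℝ)} (hγ : ∀ n, IsLoopMap lo n ζ (γ n) (ψ n)) (f : C0 (Rips X 1)) {ε : ℝ}
    (hε : 0 < ε) : {n | ∃ ω, ε ≤ ‖onLoop (γ n) f ω‖}.Finite := by
  obtain ⟨s, hs⟩ := c0_finite f hε
  refine (s.finite_toSet.biUnion (t := fun x => {n | ∃ k, x = lo.lp n k}) fun x _ =>
    Set.Subsingleton.finite ?_).subset ?_
  · rintro n ⟨k, hk⟩ n' ⟨k', hk'⟩
    exact ((lo.lp_eq _ _ _ _).1 (hk.symm.trans hk')).1
  · rintro n ⟨ω, hω⟩
    obtain ⟨x, hx, h⟩ := hs _ hω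
    exact Set.mem_biUnion hx ((hγ n).mem ω x h)

lemma loopCyc_D (τ : Toep Ω) (γ : ℕ → C(Ω, Rips X 1)) :
    ∃ D : C0 (Rips X 1) →⋆ₙₐ[ℂ] Op (l2 ℕ HN),
      ∀ f, IsPb (D f) id fun n => τ.φ (onLoop (γ n) f) := by
  choose D _ hD using fun f : C0 (Rips X 1) => exists_pb_inj (H := HN) (K := HN)
    Function.injective_id (fun n => τ.φ (onLoop (γ n) f)) ‖f‖ (norm_nonneg _) fun n =>
      τ.norm_φ _ _ (fun ω => f.toBCF.norm_coe_le_norm (γ n ω)) (norm_nonneg _)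
  exact ⟨⟨⟨⟨⟨D, fun c f => (hD _).eq ((hD f).smul c)
    (fun n => map_smul τ.φ c (onLoop (γ n) f)) fun _ _ => rfl⟩,
    (hD 0).eq (T' := 0) (φ' := id) (d' := fun _ => 0) (fun _ _ => by simp)
      (fun n => map_zero τ.φ) fun _ _ => rfl,
    fun f g => (hD _).eq ((hD f).add (hD g))
      (fun n => map_add τ.φ (onLoop (γ n) f) (onLoop (γ n) g)) fun _ _ => rfl⟩,
    fun f g => (hD _).eq ((hD f).mul (hD g))
      (fun n => map_mul τ.φ (onLoop (γ n) f) (onLoop (γ n) g)) fun _ _ => rfl⟩,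
    fun f => (hD _).eq (IsPb.adj_equiv (e := Equiv.refl ℕ) (hD f))
      (fun n => map_star τ.φ (onLoop (γ n) f))
      fun _ _ => rfl⟩, hD⟩

lemma loopCyc_R : ∃ (S : ℕ → Op HN) (Φ : Op (l2 ℕ HN) →⋆ₙₐ[ℂ] Op HN),
    (∀ n, star (S n) * S n = 1) ∧ (∀ T, Cpt T → Cpt (Φ T)) ∧
    (∀ T d n, IsPb T id d → Φ T * S n = S n * d n) ∧
    ∀ T d n, IsPb T id d → (∀ m, m ≠ n → d m = 0) → Φ T = S n * d n * star (S n) := by
  obtain ⟨S, h1, h2⟩ := exists_isos
  obtain ⟨R, -, hR⟩ := exists_col (fun n => star (S n)) 1 zero_le_one fun v s => by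
    simpa using bessel s S (fun i _ => h1 i) (fun i _ j _ => h2 i j) v
  have r1 : ∀ n v, adj R (inc n v) = S n v := fun n v => by
    have : ev n ∘L R = adj (S n) := ContinuousLinearMap.ext fun v => hR v n
    rw [← adj_adj (S n), ← this, adj_comp, adj_ev]
    rfl
  have r2 : ∀ n v, R (S n v) = inc n v := fun n v => l2_ext fun m => by
    rw [hR]
    rcases eq_or_ne m n with rfl | h
    · rw [ev_inc_self]
      exact congrArg (· v) (h1 m)
    · rw [ev_inc_ne h]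
      exact congrArg (· v) (h2 m n h)
  have r3 : ∀ ξ, R (adj R ξ) = ξ := fun ξ => by
    have : R ∘L adj R = (1 : Op (l2 ℕ HN)) := entry_ext fun x y => ContinuousLinearMap.ext fun v =>
      congrArg (ev x) ((congrArg R (r1 y v)).trans (r2 y v))
    exact congrArg (· ξ) this
  have r4 : ∀ (T : Op (l2 ℕ HN)) d n v, IsPb T id d → T (inc n v) = inc n (d n v) :=
    fun T d n v h => l2_ext fun m => by
      rw [h]
      rcases eq_or_ne m n with rfl | h
      · rw [id, ev_inc_self, ev_inc_self]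
      · rw [id, ev_inc_ne h, ev_inc_ne h, map_zero]
  refine ⟨S, ⟨⟨⟨⟨fun T => adj R ∘L T ∘L R, fun c T => by simp⟩, by simp, fun T T' => by simp⟩,
    fun T T' => ContinuousLinearMap.ext fun v => congrArg (fun w => adj R (T w)) (r3 _).symm⟩,
    fun T => ?_⟩, h1, fun T hT => (hT.comp_right R).comp_left _,
    fun T d n h => ContinuousLinearMap.ext fun v => ?_,
    fun T d n h h0 => ContinuousLinearMap.ext fun v => ?_⟩
  · change adj R ∘L adj T ∘L R = adj (adj R ∘L T ∘L R)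
    rw [adj_comp, adj_comp, adj_adj]
    rfl
  · change adj R (T (R (S n v))) = S n (d n v)
    rw [r2, r4 T d n v h, r1]
  · change adj R (T (R v)) = S n (d n (star (S n) v))
    rw [← r1, ← hR]
    refine congrArg _ (l2_ext fun m => ?_)
    rw [h]
    rcases eq_or_ne m n with rfl | h
    · rw [id, ev_inc_self]
    · rw [ev_inc_ne h, h0 m h, zero_apply]

theorem exists_loopCyc (τ : Toep Ω) (γ : ℕ → C(Ω, Rips X 1))
    (hγ : ∀ (f : C0 (Rips X 1)) (ε : ℝ), 0 < ε → {n | ∃ ω, ε ≤ ‖onLoop (γ n) f ω‖}.Finite) :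
    ∃ (S : ℕ → Op HN) (Z : Cyc X 1), IsLoopCyc τ γ S Z := by
  obtain ⟨D, hD⟩ := loopCyc_D τ γ
  obtain ⟨S, Φ, h1, h2, h3, h4⟩ := loopCyc_R
  set g : Op HN := (2 : ℂ) • τ.E - 1 with hg
  have g1 : star g = g := by simp [hg, τ.E_star]
  have g2 : g * g = 1 := by
    simp only [hg, two_smul, mul_sub, sub_mul, mul_add, add_mul, τ.E_idem, mul_one, one_mul]
    abel
  have g3 : star (Φ (dg ℕ HN g)) = Φ (dg ℕ HN g) := by rw [← map_star, ← map_star, g1]
  refine ⟨S, ⟨Φ.comp D, Φ (dg ℕ HN g), fun f => ?_, fun f => ?_, fun f => ?_⟩, g3, h1,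
    fun n => h3 _ _ n (isPb_dg g), fun n f h => h4 _ _ n (hD f) fun m hm => ?_⟩
  · rw [g3, sub_self, mul_zero]
    exact Cpt.zero
  · rw [← map_mul, ← map_mul, g2, map_one, mul_sub, NonUnitalStarAlgHom.comp_apply, ← map_mul,
      mul_one, mul_one, sub_self]
    exact Cpt.zero
  · rw [NonUnitalStarAlgHom.comp_apply, ← map_mul, ← map_mul, ← map_sub, sub_eq_add_neg,
      ← neg_one_smul ℂ]
    refine h2 _ (Cpt.diag (((hD f).mul (isPb_dg g)).add (((isPb_dg g).mul (hD f)).smul (-1)))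
      (fun n => ?_) fun ε hε => (hγ f (ε / (2 * ‖g‖ + 1)) (by positivity)).subset fun n hn => ?_)
    · have : ∀ a : Op HN, a * g + (-1 : ℂ) • (g * a) = (2 : ℂ) • (a * τ.E - τ.E * a) := fun a => by
        simp only [hg, two_smul, neg_smul, one_smul]
        noncomm_ring
      exact this _ ▸ (τ.comm _).smul 2
    · by_contra h
      simp only [Set.mem_ofPred_eq, not_exists, not_le, id] at h hn
      have a1 := τ.norm_φ _ _ (fun ω => (h ω).le) (by positivity)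
      have a2 := hn.trans (norm_add_le _ _)
      rw [le_div_iff₀ (by positivity)] at a1
      rw [neg_one_smul, norm_neg] at a2
      have a3 := norm_mul_le (τ.φ (onLoop (γ n) f)) g
      have a4 := norm_mul_le g (τ.φ (onLoop (γ n) f))
      rcases (norm_nonneg (τ.φ (onLoop (γ n) f))).eq_or_lt with a5 | a5
      · rw [← a5] at a3 a4
        linarith
      · linarith
  · rw [h m hm, map_zero]

/-- The support of the projection of the loop cycle. -/
lemma loopCyc_supp (h : BddGeom X) (lo : Loops X) {τ : Toep Ω} {γ : ℕ → C(Ω, Rips X 1)}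
    {ψ : ℕ → X → C(Ω, ℝ)} (hγ : ∀ n, IsLoopMap lo n τ.ζ (γ n) (ψ n)) {S : ℕ → Op HN} {Z : Cyc X 1}
    (hZ : IsLoopCyc τ γ S Z) {x y : X} (hxy : Z.π (sq h 1 x * sq h 1 y) ≠ 0) :
    ∃ (n : ℕ) (k δ : ℤ), |δ| ≤ 1 ∧ x = lo.lp n k ∧ y = lo.lp n (k + δ) := by
  obtain ⟨n, ω, hω⟩ : ∃ n ω, onLoop (γ n) (sq h 1 x * sq h 1 y) ω ≠ 0 := by
    by_contra! h0
    have h1 : ∀ n, onLoop (γ n) (sq h 1 x * sq h 1 y) = 0 := fun n => ContinuousMap.ext (h0 n)
    rw [hZ.rep 0 _ fun n _ => h1 n, h1, map_zero, mul_zero, zero_mul] at hxy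
    exact hxy rfl
  rw [onLoop_apply, val_mul, mul_ne_zero_iff, val_sq_ne, val_sq_ne] at hω
  obtain ⟨k, rfl⟩ := (hγ n).mem ω x hω.1
  obtain ⟨k', rfl⟩ := (hγ n).mem ω y hω.2
  obtain ⟨i, -, hi⟩ := (hγ n).jump ω _ _ hω.1 hω.2
  refine ⟨n, _, -_, (abs_neg _).trans_le hi, (lo.lp_pos n k).symm,
    (lo.lp_pos n k').symm.trans ((lo.lp_eq _ _ _ _).2 ⟨rfl, -i, by ring⟩)⟩

end

end Vale.Agent.P212
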