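import Vale.Agent.P212.Rips
import Vale.Agent.P212.Iface

/-! Parametrisation of the loops in the Rips complex by the circle. -/

namespace Vale.Agent.P212

noncomputable section

lemma loopMap_conj (l : ℕ) (i : ℤ) :
    (starRingEnd ℂ) (Complex.exp (2 * Real.pi * Complex.I * i / l)) =
      Complex.exp (-(2 * Real.pi * Complex.I * i / l)) := by
  rw [← Complex.exp_conj]
  congr 1
  simp [map_ofNat, neg_div]

/-- Local coordinates on the circle near an `l`-th root of unity. -/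
lemma arc_coord {l : ℕ} (hl : 9 ≤ l) (i : ℤ) {z : ℂ} (hz : ‖z‖ = 1)
    (h : Real.cos (2 * Real.pi / l) <
      (z * (starRingEnd ℂ) (Complex.exp (2 * Real.pi * Complex.I * i / l))).re) :
    |Real.arcsin (z * (starRingEnd ℂ) (Complex.exp (2 * Real.pi * Complex.I * i / l))).im| <
        2 * Real.pi / l ∧
      Complex.exp (2 * Real.pi * Complex.I * ((i / l + Real.arcsin
        (z * (starRingEnd ℂ) (Complex.exp (2 * Real.pi * Complex.I * i / l))).im /
          (2 * Real.pi) : ℝ) : ℂ)) = z := by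
  rw [loopMap_conj] at h ⊢
  set w := z * Complex.exp (-(2 * Real.pi * Complex.I * i / l)) with hw
  have hl' : (9 : ℝ) ≤ l := by exact_mod_cast hl
  have hπ := Real.pi_pos
  have h1 : ‖w‖ = 1 := by simp [hw, hz, Complex.norm_exp]
  have h2 := Complex.norm_mul_exp_arg_mul_I w
  rw [h1, Complex.ofReal_one, one_mul] at h2
  have h3 : |w.arg| < 2 * Real.pi / l := lt_of_not_ge fun h3 => by
    have := Real.cos_le_cos_of_nonneg_of_le_pi (by positivity) (Complex.abs_arg_le_pi w) h3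
    rw [Real.cos_abs, ← Complex.exp_ofReal_mul_I_re, h2] at this
    linarith
  have h4 : 2 * Real.pi / l ≤ Real.pi / 2 := by
    rw [div_le_div_iff₀ (by linarith) two_pos]
    nlinarith
  have h5 : Real.arcsin w.im = w.arg := by
    rw [← h2, Complex.exp_ofReal_mul_I_im, h2]
    exact Real.arcsin_sin (by linarith [abs_lt.1 h3]) (by linarith [abs_lt.1 h3])
  rw [h5]
  refine ⟨h3, ?_⟩
  have h6 : 2 * Real.pi * Complex.I * ((i / l + w.arg / (2 * Real.pi) : ℝ) : ℂ) =
      w.arg * Complex.I + 2 * Real.pi * Complex.I * i / l := by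
    have : (Real.pi : ℂ) ≠ 0 := by exact_mod_cast hπ.ne'
    push_cast
    field_simp
    ring
  rw [h6, Complex.exp_add, h2, hw, mul_assoc, ← Complex.exp_add, neg_add_cancel, Complex.exp_zero,
    mul_one]

/-- Every point of the circle is close to an `l`-th root of unity. -/
lemma exists_arc {l : ℕ} (hl : 9 ≤ l) {z : ℂ} (hz : ‖z‖ = 1) : ∃ i : ℤ,
    Real.cos (2 * Real.pi / l) <
      (z * (starRingEnd ℂ) (Complex.exp (2 * Real.pi * Complex.I * i / l))).re := by
  obtain ⟨θ, rfl⟩ := (Complex.norm_eq_one_iff z).1 hz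
  have hl' : (9 : ℝ) ≤ l := by exact_mod_cast hl
  have hπ := Real.pi_pos
  refine ⟨round (θ * l / (2 * Real.pi)), ?_⟩
  have h1 := abs_sub_round (θ * l / (2 * Real.pi))
  set i := round (θ * l / (2 * Real.pi))
  have h2 : θ * Complex.I + -(2 * Real.pi * Complex.I * i / l) =
      ((θ * l / (2 * Real.pi) - i) * (2 * Real.pi / l) : ℝ) * Complex.I := by
    have : (Real.pi : ℂ) ≠ 0 := by exact_mod_cast hπ.ne'
    have : (l : ℂ) ≠ 0 := by exact_mod_cast (show l ≠ 0 by omega)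
    push_cast
    field_simp
    ring
  have h3 : 0 < 2 * Real.pi / l := by positivity
  rw [loopMap_conj, ← Complex.exp_add, h2, Complex.exp_ofReal_mul_I_re,
    ← Real.cos_abs (_ * (_ / _)), abs_mul, abs_of_pos h3]
  refine Real.cos_lt_cos_of_nonneg_of_le_pi (by positivity) ?_ (by nlinarith)
  rw [div_le_iff₀ (by linarith)]
  nlinarith

variable {X : Type} [MetricSpace X] {Ω : Type} [TopologicalSpace Ω]

/-- `γ` parametrises the `n`-th loop, with local angle functions `ψ x`. -/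
structure IsLoopMap (lo : Loops X) (n : ℕ) (ζ : C(Ω, ℂ)) (γ : C(Ω, Rips X 1))
    (ψ : X → C(Ω, ℝ)) : Prop where
  mem : ∀ ω x, (γ ω).1 x ≠ 0 → ∃ k, x = lo.lp n k
  phase : ∀ ω x, (γ ω).1 x ≠ 0 → Complex.exp (2 * Real.pi * Complex.I * (ψ x ω : ℂ)) = ζ ω
  jump : ∀ ω x y, (γ ω).1 x ≠ 0 → (γ ω).1 y ≠ 0 →
    ∃ i : ℤ, ψ x ω - ψ y ω = i ∧ |lo.pos x - lo.pos y - i * lo.len n| ≤ 1

theorem exists_loopMap (lo : Loops X) (n : ℕ) (ζ : C(Ω, ℂ)) (hζ : ∀ ω, ‖ζ ω‖ = 1) :
    ∃ (γ : C(Ω, Rips X 1)) (ψ : X → C(Ω, ℝ)), IsLoopMap lo n ζ γ ψ := by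
  classical
  have hl := lo.len_ge n
  have hl' : (9 : ℝ) ≤ lo.len n := by exact_mod_cast hl
  have hπ := Real.pi_pos
  let w : X → Ω → ℂ := fun x ω =>
    ζ ω * (starRingEnd ℂ) (Complex.exp (2 * Real.pi * Complex.I * lo.pos x / lo.len n))
  let σ : Finset X := (Finset.range (lo.len n)).image fun k : ℕ => lo.lp n k
  let τ : X → Ω → ℝ := fun x ω =>
    if x ∈ σ then max 0 ((w x ω).re - Real.cos (2 * Real.pi / lo.len n)) else 0
  let ψ : X → C(Ω, ℝ) := fun x => ⟨fun ω => lo.pos x / lo.len n + Real.arcsin (w x ω).im /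
    (2 * Real.pi), by fun_prop⟩
  have τc : ∀ x, Continuous (τ x) := fun x => by
    by_cases h : x ∈ σ <;> simp only [τ, h, if_true, if_false] <;> fun_prop
  have τ0 : ∀ x ω, 0 ≤ τ x ω := fun x ω => by
    simp only [τ]
    split_ifs
    exacts [le_max_left _ _, le_rfl]
  have τ1 : ∀ x ω, τ x ω ≠ 0 → x ∈ σ ∧ Real.cos (2 * Real.pi / lo.len n) < (w x ω).re := by
    intro x ω h
    simp only [τ] at h
    split_ifs at h with hx
    · exact ⟨hx, lt_of_not_ge fun h' => h (max_eq_left (sub_nonpos.2 h'))⟩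
    · exact absurd rfl h
  have τ2 : ∀ x ω, τ x ω ≠ 0 → ∃ k, x = lo.lp n k := fun x ω h => by
    obtain ⟨k, -, rfl⟩ := Finset.mem_image.1 (τ1 x ω h).1
    exact ⟨k, rfl⟩
  have hN : ∀ ω, 0 < ∑ x ∈ σ, τ x ω := fun ω => by
    obtain ⟨i, hi⟩ := exists_arc hl (hζ ω)
    have h0 : (0 : ℤ) < lo.len n := by omega
    have h1 := Int.emod_nonneg i h0.ne'
    have h2 := Int.emod_lt_of_pos i h0
    have h3 : lo.lp n i ∈ σ := Finset.mem_image.2 ⟨(i % lo.len n).toNat,
      Finset.mem_range.2 (by omega), (lo.lp_eq _ _ _ _).2 ⟨rfl, by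
        rw [Int.toNat_of_nonneg h1]
        exact Int.dvd_emod_sub_self⟩⟩
    refine Finset.sum_pos' (fun x _ => τ0 x ω) ⟨_, h3, ?_⟩
    obtain ⟨c, hc⟩ := ((lo.lp_eq _ _ _ _).1 (lo.lp_pos n i)).2
    have h4 : Complex.exp (2 * Real.pi * Complex.I * lo.pos (lo.lp n i) / lo.len n) =
        Complex.exp (2 * Real.pi * Complex.I * i / lo.len n) := by
      have : (lo.len n : ℂ) ≠ 0 := by exact_mod_cast (show lo.len n ≠ 0 by omega)
      refine Complex.exp_eq_exp_iff_exists_int.2 ⟨c, ?_⟩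
      rw [sub_eq_iff_eq_add.1 hc]
      push_cast
      field_simp
      ring
    simp only [τ, w, h3, if_true, h4]
    exact lt_max_of_lt_right (sub_pos.2 hi)
  have ph := fun x ω (h : τ x ω ≠ 0) => arc_coord hl (lo.pos x) (hζ ω) (τ1 x ω h).2
  have jp : ∀ ω x y, τ x ω ≠ 0 → τ y ω ≠ 0 →
      ∃ i : ℤ, ψ x ω - ψ y ω = i ∧ |lo.pos x - lo.pos y - i * lo.len n| ≤ 1 := by
    intro ω x y hx hy
    obtain ⟨i, hi⟩ := Complex.exp_eq_exp_iff_exists_int.1 ((ph x ω hx).2.trans (ph y ω hy).2.symm)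
    have h1 : ψ x ω - ψ y ω = i := by
      have h2 : (2 * Real.pi * Complex.I : ℂ) * ((ψ x ω - ψ y ω : ℝ) : ℂ) =
          2 * Real.pi * Complex.I * i := by
        rw [Complex.ofReal_sub, mul_sub, sub_eq_iff_eq_add', mul_comm _ (i : ℂ)]
        exact hi
      exact_mod_cast mul_left_cancel₀ Complex.two_pi_I_ne_zero h2
    refine ⟨i, h1, Int.lt_add_one_iff.1 ?_⟩
    have h2 := abs_lt.1 (ph x ω hx).1
    have h3 := abs_lt.1 (ph y ω hy).1
    have h4 : ((lo.pos x - lo.pos y - i * lo.len n : ℤ) : ℝ) * (2 * Real.pi / lo.len n) =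
        Real.arcsin (w y ω).im - Real.arcsin (w x ω).im := by
      push_cast
      rw [← h1]
      simp only [ψ, ContinuousMap.coe_mk]
      field_simp
      ring
    have h5 : 0 < 2 * Real.pi / lo.len n := by positivity
    have h6 : |((lo.pos x - lo.pos y - i * lo.len n : ℤ) : ℝ)| < 2 := by
      refine lt_of_mul_lt_mul_right ?_ h5.le
      rw [← abs_of_pos h5, ← abs_mul, h4, abs_of_pos h5, abs_lt]
      constructor <;> linarith [h2.1, h2.2, h3.1, h3.2]
    exact_mod_cast h6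
  have hne : ∀ x ω, τ x ω / ∑ x ∈ σ, τ x ω ≠ 0 → τ x ω ≠ 0 := fun x ω h h' => by
    rw [h', zero_div] at h
    exact h rfl
  have hs : ∀ ω, Function.support (fun x => τ x ω / ∑ x ∈ σ, τ x ω) ⊆ σ :=
    fun ω x hx => (τ1 x ω (hne x ω hx)).1
  let g : Ω → Rips X 1 := fun ω => ⟨fun x => τ x ω / ∑ x ∈ σ, τ x ω,
    fun x => div_nonneg (τ0 x ω) (hN ω).le, σ.finite_toSet.subset (hs ω), by
      rw [finsum_eq_sum_of_support_subset _ (hs ω), ← Finset.sum_div, div_self (hN ω).ne'],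
    fun x y hx hy => by
      obtain ⟨i, -, hi⟩ := jp ω x y (hne x ω hx) (hne y ω hy)
      obtain ⟨k, rfl⟩ := τ2 x ω (hne x ω hx)
      obtain ⟨k', rfl⟩ := τ2 y ω (hne y ω hy)
      have e : lo.lp n k' = lo.lp n (lo.pos (lo.lp n k') + i * lo.len n) :=
        (lo.lp_pos n k').symm.trans ((lo.lp_eq _ _ _ _).2 ⟨rfl, -i, by ring⟩)
      rw [← lo.lp_pos n k]
      nth_rw 1 [e]
      generalize lo.pos (lo.lp n k) = a at hi
      rw [sub_sub] at hi
      generalize lo.pos (lo.lp n k') + i * lo.len n = b at hi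
      rw [Nat.cast_one]
      obtain rfl | rfl | rfl : a = b ∨ a = b + 1 ∨ b = a + 1 := by
        rw [abs_le] at hi
        omega
      · simp
      · exact (dist_comm _ _).trans_le (lo.lp_dist n b)
      · exact lo.lp_dist n a⟩
  exact ⟨⟨g, continuous_into σ g hs fun x => (τc x).div (continuous_finsetSum _ fun x _ => τc x)
    fun ω => (hN ω).ne'⟩, ψ, fun ω x h => τ2 x ω (hne x ω h), fun ω x h => (ph x ω (hne x ω h)).2,
    fun ω x y hx hy => jp ω x y (hne x ω hx) (hne y ω hy)⟩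

end

end Vale.Agent.P212
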