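import Vale.Agent.P212.Asm
import Vale.Agent.P212.K1b

/-! The assembly map. -/

namespace Vale.Agent.P212

noncomputable section

variable {X : Type} [MetricSpace X] {r : ℕ} {h : BddGeom X}

/-- The constant diagonal operators inside the finite propagation operators. -/
def muDg (X : Type) [MetricSpace X] : Op HN →⋆ₐ[ℂ] DD (id : X → X) :=
  (dg X HN).codRestrict _ (dg_mem_DD _)

/-- The projection of a cycle as a finite propagation operator. -/
def muP (h : BddGeom X) (Z : Cyc X r) : DD (id : X → X) := ⟨proj h Z, proj_mem Z⟩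

lemma mu_az (Z : Cyc X r) :
    az h Z = muP h Z * muDg X ((1 / 2 : ℂ) • (1 + Z.F)) * muP h Z := rfl

lemma mu_block {R : Type} [Ring R] {v v' w w' : R} (h1 : v' * v = 1) (h2 : w' * w = 1)
    (h3 : v' * w = 0) (h4 : w' * v = 0) (a b c d : R) :
    (v * a * v' + w * b * w') * (v * c * v' + w * d * w') =
      v * (a * c) * v' + w * (b * d) * w' := by
  have : (v * a * v' + w * b * w') * (v * c * v' + w * d * w') = v * a * (v' * v) * c * v' +
      v * a * (v' * w) * d * w' + w * b * (w' * v) * c * v' + w * b * (w' * w) * d * w' := by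
    noncomm_ring
  rw [this, h1, h2, h3, h4]
  noncomm_ring

lemma mu_locCpt (Z : Cyc X r) (j : ℕ) : LocCpt ((az h Z).1 ^ (j + 1) - (az h Z).1) := by
  induction j with
  | zero => simpa using LocCpt.zero
  | succ j ih =>
    have : (az h Z).1 ^ (j + 1 + 1) - (az h Z).1 = (az h Z).1 * ((az h Z).1 ^ (j + 1) - (az h Z).1) +
        ((az h Z).1 * (az h Z).1 - (az h Z).1) := by
      rw [pow_succ' _ (j + 1)]; noncomm_ring
    exact this ▸ (LocCpt.mul_left h.finBalls (az h Z).2 ih).add (locCpt_az Z)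

section mu

variable {B : Type} [CStarAlgebra B] {A : NonUnitalStarSubalgebra ℂ B}
  [hA : IsClosed (A : Set B)] (σ : DD (id : X → X) →⋆ₙₐ[ℂ] B) (h1 : ∀ T, σ T ∈ idl A)
  (h2 : ∀ T : DD (id : X → X), LocCpt T.1 → σ T ∈ A)

include h1 h2

omit hA in
lemma essI_az (Z : Cyc X r) : EssI A (σ (az h Z)) :=
  ⟨h1 _, by rw [← map_mul, ← map_sub]; exact h2 _ (locCpt_az Z)⟩

lemma bd_az_htpy {Z₀ Z₁ : Cyc X r} (hZ : FMod.Htpy Z₀ Z₁) :
    bd A (σ (az h Z₀)) = bd A (σ (az h Z₁)) := by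
  obtain ⟨Z, e0, e1, hπ, hF⟩ : ∃ Z : unitInterval → Cyc X r, Z 0 = Z₀ ∧ Z 1 = Z₁ ∧
    (∀ t, (Z t).π = Z₀.π) ∧ Continuous fun t => (Z t).F := hZ
  rw [← e0, ← e1]
  refine bd_path (fun t => σ (az h (Z t))) ?_ fun t => essI_az σ h1 h2 (Z t)
  have e : ∀ t, muP h (Z t) = muP h Z₀ := fun t => Subtype.ext (entry_ext fun x y => by
    simp only [muP, entry_proj, hπ t])
  have hc : Continuous fun a => σ (muDg X a) :=
    AddMonoidHomClass.continuous_of_bound (σ.comp (muDg X : Op HN →⋆ₙₐ[ℂ] DD (id : X → X))) 1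
      fun a => (NonUnitalStarAlgHom.norm_apply_le
        (σ.comp (muDg X : Op HN →⋆ₙₐ[ℂ] DD (id : X → X))) a).trans_eq (one_mul _).symm
  have hc' : Continuous fun t => σ (muDg X ((1 / 2 : ℂ) • (1 + (Z t).F))) :=
    hc.comp (by fun_prop)
  simp only [mu_az, map_mul, e]
  exact (hc'.const_mul _).mul_const _

lemma bd_az_sum {Z Z₁ Z₂ : Cyc X r} (hZ : FMod.IsSum Z Z₁ Z₂) :
    bd A (σ (az h Z)) = bd A (σ (az h Z₁)) + bd A (σ (az h Z₂)) := by
  obtain ⟨V, W, hV, hW, b1, bF, bπ⟩ := hZ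
  unfold IsBlock at b1 bF bπ
  have o1 : star V * W = 0 := by
    have : star V * W * star (star V * W) = star V * (V * 1 * star V + W * 1 * star W) * V -
        star V * V * (star V * V) := by
      rw [star_mul, star_star]; noncomm_ring
    rw [← b1, mul_one, hV, mul_one, sub_self] at this
    exact (CStarRing.mul_star_self_eq_zero_iff _).1 this
  have o2 : star W * V = 0 := by simpa using congrArg star o1
  have m : ∀ {a b c : Op HN}, a * b = c → muDg X a * muDg X b = muDg X c := fun h => by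
    rw [← map_mul, h]
  have v1 := (m hV).trans (map_one _)
  have v2 := (m hW).trans (map_one _)
  have v3 := (m o1).trans (map_zero _)
  have v4 := (m o2).trans (map_zero _)
  have eP : muP h Z = muDg X V * muP h Z₁ * muDg X (star V) +
      muDg X W * muP h Z₂ * muDg X (star W) := Subtype.ext (entry_ext fun x y => by
    change entry (proj h Z) x y = entry (dg X HN V * proj h Z₁ * dg X HN (star V) +
      dg X HN W * proj h Z₂ * dg X HN (star W)) x y
    simp only [entry_add, entry_mul_dg, entry_dg_mul, entry_proj]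
    exact bπ _)
  have eF : (1 / 2 : ℂ) • (1 + Z.F) = V * ((1 / 2 : ℂ) • (1 + Z₁.F)) * star V +
      W * ((1 / 2 : ℂ) • (1 + Z₂.F)) * star W := by
    conv_lhs => rw [b1, bF]
    simp only [mul_smul_comm, smul_mul_assoc, mul_add, add_mul, smul_add]
    abel
  have e : az h Z = muDg X V * az h Z₁ * muDg X (star V) +
      muDg X W * az h Z₂ * muDg X (star W) := by
    rw [mu_az, eP, eF, map_add, map_mul, map_mul, map_mul, map_mul, mu_block v1 v2 v3 v4,
      mu_block v1 v2 v3 v4, mu_az, mu_az]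
  have c : ∀ {a a' : DD (id : X → X)} (b), a' * a = 1 → σ a' * σ a * σ b = σ b := fun b h => by
    rw [← map_mul, ← map_mul, h, one_mul]
  have z : ∀ {a a' : DD (id : X → X)} (x y : B), a' * a = 0 → x * σ a' * (σ a * y) = 0 :=
    fun x y h => by rw [mul_assoc, ← mul_assoc (σ _), ← map_mul, h, map_zero, zero_mul, mul_zero]
  have e1 := essI_az σ h1 h2 (h := h) Z₁
  have e2 := essI_az σ h1 h2 (h := h) Z₂
  rw [e, map_add, map_mul, map_mul, map_mul, map_mul,
    bd_add (e1.conj (h1 _) (h1 _) (c _ v1)) (e2.conj (h1 _) (h1 _) (c _ v2)),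
    bd_conj e1 (h1 _) (h1 _) (c _ v1), bd_conj e2 (h1 _) (h1 _) (c _ v2)]
  · rw [mul_assoc (σ (muDg X W)), z _ _ v3]
  · rw [mul_assoc (σ (muDg X V)), z _ _ v4]

omit h1 h2 in
lemma az_push {r' : ℕ} {Z : Cyc X r} {Z' : Cyc X r'} (hZ : FMod.Along Res Z Z') :
    az h Z' = az h Z := by
  have e : muP h Z' = muP h Z := Subtype.ext (entry_ext fun x y => by
    simp only [muP, entry_proj]
    exact hZ.2 _ _ ((res_sq x).mul (res_sq y)))
  rw [mu_az, mu_az, e, hZ.1]

theorem exists_mu (h : BddGeom X) (ι : SHom (CX X) A)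
    (hι : ∀ (T : CX X) (hT : T.1 ∈ DD (id : X → X)), (ι T).1 = σ ⟨T.1, hT⟩) :
    ∃ μ : KX1 X →+ K1 A, IsAssembly ι μ ∧
      ∀ (r : ℕ) (Z : Cyc X r), μ (Pres.cls (KXrel X) ⟨r, Z⟩) = bd A (σ (az h Z)) := by
  let φ : FreeAbelianGroup (CycX X) →+ K1 A := FreeAbelianGroup.lift fun Z => bd A (σ (az h Z.2))
  have hφ : AddSubgroup.closure {x | KXrel X x} ≤ φ.ker := (AddSubgroup.closure_le _).2 <| by
    rintro _ (⟨r, Z₀, Z₁, hZ⟩ | ⟨r, Z, Z₁, Z₂, hZ⟩ | ⟨r, r', Z, Z', -, hZ⟩) <;>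
      simp only [SetLike.mem_coe, AddMonoidHom.mem_ker, map_sub, φ, FreeAbelianGroup.lift_apply_of]
    · rw [bd_az_htpy σ h1 h2 hZ, sub_self]
    · rw [bd_az_sum σ h1 h2 hZ, add_sub_cancel_left, sub_self]
    · rw [az_push hZ, sub_self]
  have hμ : ∀ (r : ℕ) (Z : Cyc X r), QuotientAddGroup.lift _ φ hφ (Pres.cls (KXrel X) ⟨r, Z⟩) =
      bd A (σ (az h Z)) := fun r Z => FreeAbelianGroup.lift_apply_of _ _
  refine ⟨QuotientAddGroup.lift _ φ hφ, fun r Z => ?_, hμ⟩
  obtain ⟨c, hc, hc'⟩ := bd_spec (essI_az σ h1 h2 (h := h) Z)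
  have hm : ∀ j : ℕ, (az h Z).1 ^ (j + 1) - (az h Z).1 ∈ DD (id : X → X) :=
    fun j => (az h Z ^ (j + 1) - az h Z).2
  have hp : ∀ j : ℕ, σ (az h Z ^ (j + 1)) = σ (az h Z) ^ (j + 1) := fun j => by
    induction j with
    | zero => simp
    | succ j ih => rw [pow_succ, map_mul, ih, ← pow_succ]
  refine ⟨_, c, isIndexOp_az (h := h) Z, ⟨fun j => ⟨_, (mem_CX h).2 ⟨mu_locCpt Z j, hm j⟩⟩,
    fun _ => rfl, ?_⟩, hμ r Z ▸ hc'⟩
  refine hc.congr_fun fun j => congrArg (fun a : A => coef j • a) (Subtype.ext ?_)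
  rw [hι _ (hm j)]
  exact (map_sub σ _ _).trans (congrArg (· - σ (az h Z)) (hp j))

end mu

end

end Vale.Agent.P212
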