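import Vale.Agent.P212.Roe

/-! Decomposition of finite propagation operators. -/

namespace Vale.Agent.P212

noncomputable section

variable {X : Type} [MetricSpace X]

omit [MetricSpace X] in
lemma piece_ex {N : ℕ} {s : Set X} (hs : s.encard ≤ N) (g : X → Fin (N + 1)) :
    ∃ k, ∀ y ∈ s, g y ≠ k := by
  by_contra! h
  have h1 : g '' s = Set.univ := Set.eq_univ_of_forall h
  have h2 := (Set.encard_image_le g s).trans hs
  rw [h1, Set.encard_univ, ENat.card_eq_coe_fintype_card, Fintype.card_fin, Nat.cast_le] at h2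
  omega

/-- Colouring of a bounded geometry space by finitely many `R`-separated sets. -/
lemma exists_colouring (h : BddGeom X) (R : ℝ) : ∃ (N : ℕ) (c : X → Fin N),
    ∀ x y, c x = c y → dist x y ≤ R → x = y := by
  classical
  obtain ⟨N, hN⟩ := h R
  choose F hF using fun x g => piece_ex (hN x) g
  have wf : WellFounded (WellOrderingRel : X → X → Prop) := IsWellFounded.wf
  let c : X → Fin (N + 1) :=
    wf.fix fun x rec => F x fun y => if h : WellOrderingRel y x then rec y h else 0
  have key : ∀ x y, WellOrderingRel y x → dist y x ≤ R → c y ≠ c x := fun x y h1 h2 => by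
    have e : c x = F x fun y => if h : WellOrderingRel y x then c y else 0 := wf.fix_eq _ x
    have := hF x (fun y => if h : WellOrderingRel y x then c y else 0) y h2
    rwa [dif_pos h1, ← e] at this
  refine ⟨N + 1, c, fun x y h1 h2 => ?_⟩
  rcases trichotomous_of (WellOrderingRel : X → X → Prop) x y with h3 | h3 | h3
  · exact absurd h1 (key y x h3 h2)
  · exact h3
  · exact absurd h1.symm (key x y h3 (by rwa [dist_comm]))

/-- `m* m + n* n = c²` for some `n` in `D`. -/
def Piece {B : Type} [CStarAlgebra B] (D : StarSubalgebra ℂ B) (m : B) : Prop :=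
  m ∈ D ∧ ∃ n ∈ D, ∃ c : ℝ, 0 ≤ c ∧ star m * m + star n * n = algebraMap ℂ B ((c : ℂ) ^ 2)

lemma piece_sqrt {B : Type} [CStarAlgebra B] (m : B) : ∃ n : B,
    star m * m + star n * n = algebraMap ℂ B (((‖m‖ : ℝ) : ℂ) ^ 2) ∧
      ∀ b, Commute (star m * m) b → Commute n b := by
  let _ := CStarAlgebra.spectralOrder B
  have := CStarAlgebra.spectralOrderedRing B
  have h0 : 0 ≤ algebraMap ℝ B (‖m‖ ^ 2) - star m * m :=
    sub_nonneg.2 CStarAlgebra.star_mul_le_algebraMap_norm_sq
  refine ⟨CFC.sqrt (algebraMap ℝ B (‖m‖ ^ 2) - star m * m), ?_, fun b hb =>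
    Commute.cfcₙ_nnreal ((Algebra.commute_algebraMap_left _ _).sub_left hb) _⟩
  have h1 := IsSelfAdjoint.of_nonneg (CFC.sqrt_nonneg (algebraMap ℝ B (‖m‖ ^ 2) - star m * m))
  rw [h1.star_eq, CFC.sqrt_mul_sqrt_self _ h0, add_sub_cancel,
    IsScalarTower.algebraMap_apply ℝ ℂ B]
  simp

/-- An operator `m` with `m* m` diagonal is a piece. -/
lemma piece_of_diag {m : Op (l2 X HN)} (hm : m ∈ DD (id : X → X))
    (h : ∀ x y, x ≠ y → entry (star m * m) x y = 0) : Piece (DD (id : X → X)) m := by
  obtain ⟨n, h1, h2⟩ := piece_sqrt m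
  refine ⟨hm, n, ⟨0, fun x y hxy => ?_⟩, ‖m‖, norm_nonneg _, h1⟩
  have h3 : Commute (chi HN {x}) (star m * m) := (commute_chi_iff _ _).2 fun a b hab => by
    by_cases e : a = b
    · rw [e]
    · exact absurd (h a b e) hab
  by_contra h4
  have h5 : y = x := ((commute_chi_iff _ _).1 (h2 _ h3.symm).symm x y h4).1 rfl
  simp [h5] at hxy

/-- Every finite propagation operator is a finite sum of pieces. -/
theorem exists_pieces (h : BddGeom X) {m : Op (l2 X HN)} (hm : m ∈ DD (id : X → X)) :
    ∃ (ι : Type) (s : Finset ι) (a : ι → Op (l2 X HN)),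
      (∀ i ∈ s, Piece (DD (id : X → X)) (a i)) ∧ m = ∑ i ∈ s, a i := by
  obtain ⟨R, hR⟩ := id hm
  obtain ⟨N, c, hc⟩ := exists_colouring h (R + R)
  refine ⟨Fin N, Finset.univ, fun j => m * chi HN {x | c x = j}, fun j _ =>
    piece_of_diag (mul_mem hm (chi_mem_DD _ _)) fun x y hxy => ?_, entry_ext fun x y => ?_⟩
  · rw [entry_mul_finset _ _ x y ∅ fun z _ => ?_, Finset.sum_empty]
    rw [entry_star, entry_mul_chi, entry_mul_chi]
    by_cases h1 : c x = j ∧ dist z x ≤ R
    · right
      split_ifs with h2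
      · refine hR _ _ (not_le.1 fun h3 => hxy (hc x y (h1.1.trans h2.symm) ?_))
        exact (dist_triangle_left x y z).trans (add_le_add h1.2 h3)
      · rfl
    · left
      split_ifs with h2
      · rw [hR _ _ (not_le.1 fun h3 => h1 ⟨h2, h3⟩), star_zero]
      · exact star_zero _
  · rw [entry_sum, Finset.sum_eq_single (c y) (fun j _ hj => ?_) (by simp), entry_mul_chi,
      if_pos (by exact rfl)]
    rw [entry_mul_chi, if_neg (by exact hj.symm)]

end

end Vale.Agent.P212
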