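import Mathlib

/-! A Kazhdan projection for groups generated by three finite subgroups with small angles. -/

namespace Vale.Agent.P212

noncomputable section

/-- Existence of a Kazhdan projection in every unitary representation. -/
def HasQ (Γ : Type) [Group Γ] : Prop :=
  ∀ (B : Type) [CStarAlgebra B] (U : Γ →* B), (∀ γ, star (U γ) = U γ⁻¹) →
    ∃ Q : B, (∀ γ, U γ * Q = Q) ∧ (∀ T, (∀ γ, U γ * T = T) → Q * T = T) ∧
      (∀ c, (∀ γ, Commute c (U γ)) → Commute c Q) ∧
      ∀ S : StarSubalgebra ℂ B, IsClosed (S : Set B) → (∀ γ, U γ ∈ S) → Q ∈ S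

/-- An additive family of group elements. -/
def AddFam {Γ M : Type} [Group Γ] [AddCommGroup M] (y : M → Γ) : Prop :=
  ∀ b b', y (b + b') = y b * y b'

/-- Heisenberg commutation relations. -/
def Heis {Γ M : Type} [Group Γ] [AddCommGroup M] [Module (ZMod 5) M] (x : ZMod 5 → Γ)
    (y : M → Γ) : Prop :=
  ∃ z : M → Γ, AddFam z ∧ (∀ a b, x a * y b = z (a • b) * y b * x a) ∧
    (∀ a c, Commute (z c) (x a)) ∧ ∀ b c, Commute (z c) (y b)

variable {Γ B : Type} [Group Γ] [CStarAlgebra B]

/-- The average of a finite family. -/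
def avg {M : Type} [Fintype M] (u : M → B) : B := ((Fintype.card M : ℂ)⁻¹) • ∑ b, u b

lemma propT_avg_mul {M : Type} [Fintype M] [Nonempty M] {u : M → B} {T T' : B}
    (h : ∀ b, u b * T = T') : avg u * T = T' := by
  rw [avg, smul_mul_assoc, Finset.sum_mul]
  simp only [h, Finset.sum_const, Finset.card_univ]
  rw [← Nat.cast_smul_eq_nsmul ℂ, inv_smul_smul₀ (Nat.cast_ne_zero.2 Fintype.card_ne_zero)]

lemma propT_comm {M : Type} [Fintype M] {u : M → B} {T : B} (h : ∀ b, Commute T (u b)) :
    Commute T (avg u) := (Commute.sum_right _ _ _ fun b _ => h b).smul_right _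

lemma propT_zero {M : Type} [AddCommGroup M] {y : M → Γ} (hy : AddFam y) : y 0 = 1 := by
  simpa using hy 0 0

section avg

variable {M : Type} [AddCommGroup M] [Fintype M] {U : Γ →* B} (hU : ∀ γ, star (U γ) = U γ⁻¹)
  {y : M → Γ} (hy : AddFam y)

include hy

lemma mul_avg (b : M) : U (y b) * avg (fun c => U (y c)) = avg fun c => U (y c) := by
  rw [avg, mul_smul_comm, Finset.mul_sum, ← Equiv.sum_comp (Equiv.addLeft b) fun c => U (y c)]
  simp only [Equiv.coe_addLeft, hy b, map_mul]

lemma avg_mul (b : M) : avg (fun c => U (y c)) * U (y b) = avg fun c => U (y c) := by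
  rw [avg, smul_mul_assoc, Finset.sum_mul, ← Equiv.sum_comp (Equiv.addRight b) fun c => U (y c)]
  simp only [Equiv.coe_addRight, hy _ b, map_mul]

lemma avg_idem : avg (fun c => U (y c)) * avg (fun c => U (y c)) = avg fun c => U (y c) := by
  exact propT_avg_mul (mul_avg hy)

include hU in
lemma star_avg : star (avg fun c => U (y c)) = avg fun c => U (y c) := by
  have e : ∀ b, (y b)⁻¹ = y (-b) := fun b =>
    inv_eq_of_mul_eq_one_right (by rw [← hy, add_neg_cancel, propT_zero hy])
  rw [avg, star_smul, star_sum, ← Equiv.sum_comp (Equiv.neg M) fun c => U (y c)]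
  simp [hU, e]

end avg

section order

variable [PartialOrder B] [StarOrderedRing B]

/-- Two projections whose product has small norm. -/
lemma proj_add_le {p q : B} (hp : star p = p) (hp' : p * p = p) (hq : star q = q) (hq' : q * q = q)
    {ε : ℝ} (h : ‖p * q‖ ≤ ε) : ‖p + q‖ ≤ 1 + ε := by
  have h0 : 0 ≤ p + q := add_nonneg (by simpa [hp, hp'] using star_mul_self_nonneg p)
    (by simpa [hq, hq'] using star_mul_self_nonneg q)
  have hε : 0 ≤ ε := (norm_nonneg _).trans h
  have k : p * q + q * p ≤ ε • (p + q) := by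
    rcases hε.eq_or_lt with rfl | hε'
    · have e : p * q = 0 := norm_le_zero_iff.1 h
      have e' : q * p = 0 := by simpa [hp, hq] using congrArg star e
      simp [e, e']
    have k1 := star_mul_self_nonneg (ε • p - p * q)
    have k2 := star_left_conjugate_le_conjugate ((CStarAlgebra.star_mul_le_algebraMap_norm_sq
      (a := p * q)).trans (algebraMap_mono B (pow_le_pow_left₀ (norm_nonneg _) h 2))) q
    rw [Algebra.algebraMap_eq_smul_one] at k2
    refine (smul_le_smul_iff_of_pos_left hε').1 (sub_nonneg.1 ((add_nonneg k1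
      (sub_nonneg.2 k2)).trans_eq ?_))
    simp only [star_sub, star_smul, star_mul, hp, hq, star_trivial, sub_mul, mul_sub,
      smul_mul_assoc, mul_smul_comm, mul_one, hp', hq', smul_add, smul_smul, sq, ← mul_assoc]
    simp only [mul_assoc, hp', hq']
    module
  have k3 : star (p + q) * (p + q) ≤ (1 + ε) • (p + q) := by
    rw [star_add, hp, hq, add_smul, one_smul]
    refine le_trans (le_of_eq ?_) (add_le_add_right k _)
    simp only [add_mul, mul_add, hp', hq']
    abel
  have k4 := CStarAlgebra.norm_le_norm_of_nonneg_of_le (star_mul_self_nonneg _) k3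
  rw [CStarRing.norm_star_mul_self, norm_smul, Real.norm_of_nonneg (by linarith)] at k4
  rcases (norm_nonneg (p + q)).eq_or_lt with h1 | h1
  · linarith
  · exact le_of_mul_le_mul_right k4 h1

/-- The angle inequality from a common subprojection. -/
lemma angle_ineq {P P' R : B} (hP : star P = P) (hP2 : P * P = P) (hP' : star P' = P')
    (hP2' : P' * P' = P') (hR : star R = R) (hR2 : R * R = R) (h1 : P * R = R) (h2 : P' * R = R)
    {ε : ℝ} (h : ‖P * P' - R‖ ≤ ε) :
    0 ≤ (1 - P) * (1 - P') + (1 - P') * (1 - P) + ε • ((1 - P) + (1 - P')) := by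
  have h1' : R * P = R := by simpa [hP, hR] using congrArg star h1
  have h2' : R * P' = R := by simpa [hP', hR] using congrArg star h2
  have k := proj_add_le (p := P - R) (q := P' - R) (ε := ε) (by simp [hP, hR])
    (by simp [sub_mul, mul_sub, *]) (by simp [hP', hR]) (by simp [sub_mul, mul_sub, *])
    (by simpa [sub_mul, mul_sub, h1, h2', hR2] using h)
  have sa : IsSelfAdjoint (P - R + (P' - R)) := by simp [IsSelfAdjoint, *]
  have k2 := star_left_conjugate_le_conjugate
    (sa.le_algebraMap_norm_self.trans (algebraMap_mono B k)) (1 - R)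
  rw [Algebra.algebraMap_eq_smul_one, ← sub_nonneg] at k2
  have k3 : 0 ≤ (1 - P) + (1 - P') :=
    add_nonneg (by simpa [hP, hP2, sub_mul, mul_sub] using star_mul_self_nonneg (1 - P))
      (by simpa [hP', hP2', sub_mul, mul_sub] using star_mul_self_nonneg (1 - P'))
  have e : star (1 - R) * (1 + ε) • (1 : B) * (1 - R) - star (1 - R) * (P - R + (P' - R)) * (1 - R) =
      1 + R - P - P' + ε • (1 - R) := by
    simp only [star_sub, star_one, sub_mul, mul_sub, add_mul, mul_add, smul_mul_assoc,
      mul_smul_comm, mul_one, one_mul, add_smul, one_smul, smul_sub, *]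
    abel
  rw [e] at k2
  have e1 : ((1 - P) + (1 - P')) * (1 + R - P - P' + ε • (1 - R)) =
      (1 - P) * (1 - P') + (1 - P') * (1 - P) + ε • ((1 - P) + (1 - P')) := by
    simp only [sub_mul, mul_sub, add_mul, mul_add, mul_smul_comm, mul_one, one_mul, smul_sub,
      smul_add, *]
    abel
  have e2 : (1 + R - P - P' + ε • (1 - R)) * ((1 - P) + (1 - P')) =
      (1 - P) * (1 - P') + (1 - P') * (1 - P) + ε • ((1 - P) + (1 - P')) := by
    simp only [sub_mul, mul_sub, add_mul, mul_add, smul_mul_assoc, mul_one, one_mul, smul_sub,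
      smul_add, *]
    abel
  exact e1 ▸ Commute.mul_nonneg k3 k2 (e1.trans e2.symm)

/-- The angle between the fixed spaces of a Heisenberg pair. -/
lemma heis_ineq {M : Type} [AddCommGroup M] [Module (ZMod 5) M] [Fintype M] {U : Γ →* B}
    (hU : ∀ γ, star (U γ) = U γ⁻¹) {x : ZMod 5 → Γ} {y : M → Γ} (hx : AddFam x) (hy : AddFam y)
    (h : Heis x y) :
    0 ≤ (1 - avg fun a => U (x a)) * (1 - avg fun b => U (y b)) +
      (1 - avg fun b => U (y b)) * (1 - avg fun a => U (x a)) +
      (9 / 20 : ℝ) • ((1 - avg fun a => U (x a)) + (1 - avg fun b => U (y b))) := by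
  obtain ⟨z, hz, h1, h2, h3⟩ := h
  set P := avg fun a => U (x a) with hP
  set Q := avg fun b => U (y b) with hQ
  set e := avg fun c => U (z c) with he
  have P2 : P * P = P := avg_idem hx
  have Q2 : Q * Q = Q := avg_idem hy
  have e2 : e * e = e := avg_idem hz
  have Ps : star P = P := star_avg hU hx
  have Qs : star Q = Q := star_avg hU hy
  have es : star e = e := star_avg hU hz
  have zQ : ∀ c, Commute (U (z c)) Q := fun c => propT_comm fun b => (h3 b c).map U
  have eP : Commute P e := propT_comm fun c => (propT_comm fun a => (h2 a c).map U).symm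
  have eQ : Commute Q e := propT_comm fun c => (zQ c).symm
  have c1 : e * P * Q = e * Q * P := by
    have : ∀ a b, e * U (x a) * U (y b) = e * U (y b) * U (x a) := fun a b => by
      rw [mul_assoc, ← map_mul, h1, map_mul, map_mul, ← mul_assoc, ← mul_assoc, he, avg_mul hz]
    rw [hP, hQ, avg, avg]
    simp only [mul_smul_comm, smul_mul_assoc, Finset.mul_sum, Finset.sum_mul, this,
      ← Finset.smul_sum]
    rw [smul_comm, Finset.sum_comm]
  have c2 : ∀ a, a ≠ 0 → e * (Q * U (x a) * Q) = Q * U (x a) * Q := fun a ha =>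
    propT_avg_mul fun c => by
      obtain ⟨b, rfl⟩ : ∃ b, a • b = c := ⟨a⁻¹ • c, by
        have : Fact (Nat.Prime 5) := ⟨by norm_num⟩
        rw [smul_smul, ZMod.mul_inv_of_unit a ha.isUnit, one_smul]⟩
      have q1 : U (y b) * Q = Q := mul_avg hy b
      have q2 : Q * U (y b) = Q := avg_mul hy b
      calc _ = U (z (a • b)) * (Q * U (y b) * U (x a) * Q) := by rw [q2]
        _ = Q * U (x a * y b) * Q := by
          rw [h1, map_mul, map_mul]
          simp only [← mul_assoc, (zQ _).eq]
        _ = _ := by rw [map_mul, ← mul_assoc, mul_assoc _ _ Q, q1]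
  have c3 : (1 - e) * (Q * P * Q) = (5⁻¹ : ℂ) • ((1 - e) * Q) := by
    rw [hP, avg]
    simp only [mul_smul_comm, smul_mul_assoc, Finset.mul_sum, Finset.sum_mul]
    rw [Finset.sum_eq_single 0 (fun a _ ha => by rw [sub_mul, c2 a ha, one_mul, sub_self])
      (by simp), propT_zero hx, map_one, mul_one, Q2, ZMod.card]
    rfl
  have n1 : ‖(1 - e) * Q‖ ≤ 1 := IsStarProjection.norm_le _ ⟨by
    rw [IsIdempotentElem, mul_assoc, ← mul_assoc Q, mul_sub, mul_one, eQ.eq]
    simp [sub_mul, mul_sub, mul_assoc, Q2, ← mul_assoc e e, e2], by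
    simp [IsSelfAdjoint, Qs, es, sub_mul, eQ.eq]⟩
  refine angle_ineq (R := e * P * Q) Ps P2 Qs Q2 ?_ ?_ ?_ ?_ ?_
  · rw [star_mul, star_mul, Ps, Qs, es, eP.eq, ← mul_assoc, eQ.eq, c1]
  · calc _ = e * P * (Q * e * P) * Q := by simp only [mul_assoc]
      _ = e * (P * e) * P * (Q * Q) := by
        rw [eQ.eq, ← c1]
        simp only [mul_assoc]
      _ = _ := by rw [eP.eq, Q2, ← mul_assoc, e2, mul_assoc e P P, P2]
  · rw [← mul_assoc, ← mul_assoc, eP.eq, mul_assoc e P P, P2]
  · rw [c1, ← mul_assoc, ← mul_assoc, eQ.eq, mul_assoc e Q Q, Q2]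
  · have e3 : star (P * Q - e * P * Q) * (P * Q - e * P * Q) = (1 - e) * (Q * P * Q) := by
      have a1 : ∀ t, P * (e * t) = e * (P * t) := fun t => by rw [← mul_assoc, eP.eq, mul_assoc]
      have a2 : ∀ t, Q * (e * t) = e * (Q * t) := fun t => by rw [← mul_assoc, eQ.eq, mul_assoc]
      have a3 : ∀ t, P * (P * t) = P * t := fun t => by rw [← mul_assoc, P2]
      have a4 : ∀ t, e * (e * t) = e * t := fun t => by rw [← mul_assoc, e2]
      simp only [star_sub, star_mul, Ps, Qs, es, sub_mul, mul_sub, mul_assoc, a1, a2, a3, a4,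
        one_mul]
      abel
    refine (sq_le_sq₀ (norm_nonneg _) (by norm_num)).1 ?_
    rw [sq, ← CStarRing.norm_star_mul_self, e3, c3, norm_smul, norm_inv, Complex.norm_ofNat]
    linarith

end order

end

end Vale.Agent.P212
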