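import Vale.Agent.P212.PropT

/-! The Kazhdan projection from a spectral gap. -/

namespace Vale.Agent.P212

noncomputable section

variable {Γ B : Type} [Group Γ] [CStarAlgebra B]

section order

variable [PartialOrder B] [StarOrderedRing B]

/-- A positive element with a spectral gap has a kernel projection. -/
lemma exists_kerProj {D : B} (hD : 0 ≤ D) {κ : ℝ} (hκ : 0 < κ) (h : 0 ≤ D * D - κ • D) :
    ∃ Q G : B, D * Q = 0 ∧ 1 - Q = G * D ∧ (∀ c, Commute c D → Commute c Q) ∧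
      ∀ S : StarSubalgebra ℂ B, IsClosed (S : Set B) → D ∈ S → Q ∈ S := by
  have hs : IsSelfAdjoint D := .of_nonneg hD
  have c1 : Continuous fun x : ℝ => (max x κ)⁻¹ :=
    Continuous.inv₀ (by fun_prop) fun x => (lt_max_of_lt_right hκ).ne'
  have e1 : cfc (fun x : ℝ => x * x - κ * x) D = D * D - κ • D := by
    rw [cfc_sub .., cfc_mul .., cfc_const_mul .., cfc_id' ℝ D]
  rw [← e1, cfc_nonneg_iff ..] at h
  have e2 : cfc (fun x : ℝ => (max x κ)⁻¹) D * D * D = D := by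
    have e0 : cfc (fun x : ℝ => (max x κ)⁻¹ * x * x) D =
        cfc (fun x : ℝ => (max x κ)⁻¹) D * D * D := by
      rw [cfc_mul (fun x : ℝ => (max x κ)⁻¹ * x) (fun x => x) D
        (c1.mul continuous_id').continuousOn, cfc_mul _ (fun x => x) D c1.continuousOn, cfc_id' ℝ D]
    refine e0.symm.trans ((cfc_congr fun x hx => ?_).trans (cfc_id' ℝ D))
    have h1 := h x hx
    rcases (spectrum_nonneg_of_nonneg hD hx).eq_or_lt with rfl | h2
    · simp
    · rw [max_eq_left (by nlinarith), inv_mul_cancel₀ h2.ne', one_mul]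
  have e3 : ∀ c, Commute c D → Commute c (cfc (fun x : ℝ => (max x κ)⁻¹) D) :=
    fun c hc => (hc.symm.cfc_real _).symm
  refine ⟨1 - cfc (fun x : ℝ => (max x κ)⁻¹) D * D, _, ?_, sub_sub_cancel _ _,
    fun c hc => (Commute.one_right c).sub_right ((e3 c hc).mul_right hc), fun S hS hDS => ?_⟩
  · rw [mul_sub, mul_one, ← mul_assoc, (e3 D (Commute.refl D)).eq, e2, sub_self]
  · exact sub_mem (one_mem S) (mul_mem (cfc_mem (𝕜' := ℂ) _ hDS) hDS)

end order

lemma propT2_avg {M : Type} [AddCommGroup M] [Fintype M] {U : Γ →* B}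
    (hU : ∀ γ, star (U γ) = U γ⁻¹) {y : M → Γ} (hy : AddFam y) :
    IsStarProjection (1 - avg fun a => U (y a)) ∧
      (∀ c, (∀ γ, Commute c (U γ)) → Commute c (1 - avg fun a => U (y a))) ∧
      (∀ S : StarSubalgebra ℂ B, (∀ γ, U γ ∈ S) → (1 - avg fun a => U (y a)) ∈ S) ∧
      (∀ Q, (1 - avg fun a => U (y a)) * Q = 0 → ∀ a, U (y a) * Q = Q) ∧
      ∀ T, (∀ γ, U γ * T = T) → (1 - avg fun a => U (y a)) * T = 0 := by
  refine ⟨IsStarProjection.one_sub ⟨avg_idem hy, star_avg hU hy⟩, fun c hc => ?_,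
    fun S hS => ?_, fun Q hQ a => ?_, fun T hT => ?_⟩
  · exact (Commute.one_right c).sub_right
      ((Commute.sum_right _ _ _ fun a _ => hc _).smul_right _)
  · exact sub_mem (one_mem S) (SMulMemClass.smul_mem _ (sum_mem fun a _ => hS _))
  · rw [one_sub_mul, sub_eq_zero] at hQ
    rw [hQ, ← mul_assoc, mul_avg hy]
  · rw [one_sub_mul, avg, smul_mul_assoc, Finset.sum_mul, Finset.sum_congr rfl fun a _ => hT _,
      Finset.sum_const, Finset.card_univ, ← Nat.cast_smul_eq_nsmul ℂ, smul_smul,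
      inv_mul_cancel₀ (Nat.cast_ne_zero.2 Fintype.card_ne_zero), one_smul, sub_self]

theorem hasQ_of_triple {M : Type} [AddCommGroup M] [Module (ZMod 5) M] [Fintype M]
    {x₁ x₂ : ZMod 5 → Γ} {x₃ : M → Γ} (a₁ : AddFam x₁) (a₂ : AddFam x₂) (a₃ : AddFam x₃)
    (h₁₂ : Heis x₁ x₂) (h₂₃ : Heis x₂ x₃) (h₁₃ : Heis x₁ x₃)
    (hg : Subgroup.closure (Set.range x₁ ∪ Set.range x₂ ∪ Set.range x₃) = ⊤) : HasQ Γ := by
  intro B _ U hU
  let _ := CStarAlgebra.spectralOrder B
  have := CStarAlgebra.spectralOrderedRing B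
  obtain ⟨p1, c1, s1, f1, k1⟩ := propT2_avg hU a₁
  obtain ⟨p2, c2, s2, f2, k2⟩ := propT2_avg hU a₂
  obtain ⟨p3, c3, s3, f3, k3⟩ := propT2_avg hU a₃
  have i1 := heis_ineq hU a₁ a₂ h₁₂
  have i2 := heis_ineq hU a₂ a₃ h₂₃
  have i3 := heis_ineq hU a₁ a₃ h₁₃
  set q₁ := 1 - avg fun a => U (x₁ a)
  set q₂ := 1 - avg fun a => U (x₂ a)
  set q₃ := 1 - avg fun a => U (x₃ a)
  obtain ⟨Q, G, e1, e2, e3, e4⟩ := exists_kerProj (D := q₁ + q₂ + q₃) (κ := 1 / 10)
    (add_nonneg (add_nonneg p1.nonneg p2.nonneg) p3.nonneg) (by norm_num)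
    ((add_nonneg (add_nonneg i1 i2) i3).trans_eq (by
      simp only [mul_add, add_mul, p1.isIdempotentElem.eq, p2.isIdempotentElem.eq,
        p3.isIdempotentElem.eq]
      module))
  have z : ∀ {q r : B}, IsStarProjection q → 0 ≤ r → (q + r) * Q = 0 → q * Q = 0 := by
    intro q r hq hr h
    have h1 : star (q * Q) * (q * Q) + star Q * r * Q = 0 := by
      rw [star_mul, hq.isSelfAdjoint.star_eq, mul_assoc, ← mul_assoc q, hq.isIdempotentElem.eq,
        mul_assoc, ← mul_add, ← add_mul, h, mul_zero]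
    exact (CStarRing.star_mul_self_eq_zero_iff _).1 (le_antisymm
      (h1 ▸ le_add_of_nonneg_right (star_left_conjugate_nonneg hr Q)) (star_mul_self_nonneg _))
  refine ⟨Q, fun γ => ?_, fun T hT => ?_, fun c hc => e3 c ?_, fun S hS hUS => e4 S hS ?_⟩
  · have hγ : γ ∈ Subgroup.closure (Set.range x₁ ∪ Set.range x₂ ∪ Set.range x₃) :=
      hg ▸ Subgroup.mem_top γ
    induction hγ using Subgroup.closure_induction with
    | mem γ h =>
      rcases h with (⟨a, rfl⟩ | ⟨a, rfl⟩) | ⟨a, rfl⟩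
      · exact f1 _ (z p1 (add_nonneg p2.nonneg p3.nonneg) (by rw [← e1, add_assoc])) a
      · exact f2 _ (z p2 (add_nonneg p1.nonneg p3.nonneg) (by rw [← e1, add_assoc, add_left_comm])) a
      · exact f3 _ (z p3 (add_nonneg p1.nonneg p2.nonneg) (by rw [← e1, add_comm])) a
    | one => rw [map_one, one_mul]
    | mul a b _ _ ha hb => rw [map_mul, mul_assoc, hb, ha]
    | inv a _ ha => rw [← ha, ← mul_assoc, ← map_mul, inv_mul_cancel, map_one, one_mul, ha]
  · rw [eq_comm, ← sub_eq_zero, ← one_sub_mul, e2, mul_assoc, add_mul, add_mul, k1 T hT, k2 T hT,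
      k3 T hT, add_zero, add_zero, mul_zero]
  · exact ((c1 c hc).add_right (c2 c hc)).add_right (c3 c hc)
  · exact add_mem (add_mem (s1 S hUS) (s2 S hUS)) (s3 S hUS)

end

end Vale.Agent.P212
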