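import Vale.Agent.P212.Roe

/-! Topology of Rips complexes and the square roots of the barycentric coordinates. -/

namespace Vale.Agent.P212

noncomputable section

variable {X : Type} [MetricSpace X] {r : ℕ}

lemma val_def {Y : Type} [TopologicalSpace Y] (f : C0 Y) (y : Y) : val f y = f y := rfl

lemma c0_ext {Y : Type} [TopologicalSpace Y] {f g : C0 Y} (h : ∀ y, val f y = val g y) : f = g :=
  ZeroAtInftyContinuousMap.ext h

lemma val_mul {Y : Type} [TopologicalSpace Y] (f g : C0 Y) (y : Y) :
    val (f * g) y = val f y * val g y := rfl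

lemma val_sum {Y ι : Type} [TopologicalSpace Y] (s : Finset ι) (f : ι → C0 Y) (y : Y) :
    val (∑ i ∈ s, f i) y = ∑ i ∈ s, val (f i) y := by
  classical
  induction s using Finset.induction_on with
  | empty => rfl
  | insert a s ha ih =>
    rw [Finset.sum_insert ha, Finset.sum_insert ha, ← ih]
    rfl

lemma continuous_coord (x : X) : Continuous fun t : Rips X r => t.1 x := by
  refine continuous_iSup_dom.2 fun σ => continuous_coinduced_dom.2 ?_
  let _ : TopologicalSpace {t : Rips X r // Function.support t.1 ⊆ σ} :=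
    TopologicalSpace.induced (fun t => t.1.1) Pi.topologicalSpace
  exact (continuous_apply x).comp continuous_induced_dom

/-- A map into a finite subcomplex is continuous if its coordinates are. -/
lemma continuous_into {Ω : Type} [TopologicalSpace Ω] (σ : Finset X) (g : Ω → Rips X r)
    (hσ : ∀ ω, Function.support (g ω).1 ⊆ σ) (hc : ∀ x, Continuous fun ω => (g ω).1 x) :
    Continuous g := by
  refine continuous_iSup_rng (i := σ) ?_
  let _ : TopologicalSpace {t : Rips X r // Function.support t.1 ⊆ σ} :=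
    TopologicalSpace.induced (fun t => t.1.1) Pi.topologicalSpace
  have h1 : Continuous fun ω => (⟨g ω, hσ ω⟩ : {t : Rips X r // Function.support t.1 ⊆ σ}) :=
    continuous_induced_rng.2 (continuous_pi hc)
  let _ : TopologicalSpace (Rips X r) := TopologicalSpace.coinduced
    (fun t : {t : Rips X r // Function.support t.1 ⊆ σ} => t.1) inferInstance
  have h2 : Continuous fun t : {t : Rips X r // Function.support t.1 ⊆ σ} => t.1 :=
    continuous_coinduced_rng
  exact h2.comp h1

lemma isCompact_sub (σ : Finset X) :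
    IsCompact {t : Rips X r | Function.support t.1 ⊆ σ} := by
  let K : Set (X → ℝ) := {t | (∀ x, 0 ≤ t x) ∧ (∀ x, x ∉ σ → t x = 0) ∧ ∑ x ∈ σ, t x = 1 ∧
    ∀ x y, (r : ℝ) < dist x y → t x * t y = 0}
  have hcl : IsClosed K := by
    refine IsClosed.inter ?_ (IsClosed.inter ?_ (IsClosed.inter ?_ ?_))
    · exact isClosed_Ici (a := (0 : X → ℝ))
    · show IsClosed {t : X → ℝ | ∀ x, x ∉ σ → t x = 0}
      simp only [Set.ofPred_forall]
      exact isClosed_iInter fun x => isClosed_iInter fun _ =>
        isClosed_eq (continuous_apply x) continuous_const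
    · exact isClosed_eq (continuous_finsetSum _ fun x _ => continuous_apply x) continuous_const
    · show IsClosed {t : X → ℝ | ∀ x y, (r : ℝ) < dist x y → t x * t y = 0}
      simp only [Set.ofPred_forall]
      exact isClosed_iInter fun x => isClosed_iInter fun y => isClosed_iInter fun _ =>
        isClosed_eq ((continuous_apply x).mul (continuous_apply y)) continuous_const
  have hK : IsCompact K := by
    refine (isCompact_Icc (a := (0 : X → ℝ)) (b := 1)).of_isClosed_subset hcl fun t ht => ?_
    refine ⟨ht.1, fun x => ?_⟩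
    by_cases hx : x ∈ σ
    · exact (Finset.single_le_sum (fun y _ => ht.1 y) hx).trans_eq ht.2.2.1
    · rw [ht.2.1 x hx]
      exact zero_le_one
  have hs : ∀ t : K, Function.support t.1 ⊆ σ := fun t x hx => by
    by_contra h
    exact hx (t.2.2.1 x h)
  let g : K → Rips X r := fun t => ⟨t.1, t.2.1, σ.finite_toSet.subset (hs t),
    (finsum_eq_sum_of_support_subset _ (hs t)).trans t.2.2.2.1, fun x y hx hy => by
      by_contra h
      exact mul_ne_zero hx hy (t.2.2.2.2 x y (not_le.1 h))⟩
  have hg : Continuous g :=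
    continuous_into σ g hs fun x => (continuous_apply x).comp continuous_subtype_val
  have : CompactSpace K := isCompact_iff_compactSpace.1 hK
  have e : {t : Rips X r | Function.support t.1 ⊆ σ} = Set.range g := by
    refine Set.Subset.antisymm (fun t ht => ?_) ?_
    · refine ⟨⟨t.1, t.2.1, fun x hx => ?_, ?_, fun x y hxy => ?_⟩, rfl⟩
      · by_contra h
        exact hx (ht h)
      · exact (finsum_eq_sum_of_support_subset _ ht).symm.trans t.2.2.2.1
      · by_contra h
        exact absurd (t.2.2.2.2 x y (left_ne_zero_of_mul h) (right_ne_zero_of_mul h))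
          (not_le.2 hxy)
    · rintro _ ⟨t, rfl⟩
      exact hs t
  rw [e]
  exact isCompact_range hg

lemma sum_coord (t : Rips X r) (s : Finset X) (h : ∀ x, t.1 x ≠ 0 → x ∈ s) :
    ∑ x ∈ s, t.1 x = 1 := by
  exact (finsum_eq_sum_of_support_subset _ fun x hx => h x hx).symm.trans t.2.2.2.1

lemma sum_coord_le (t : Rips X r) (s : Finset X) : ∑ x ∈ s, t.1 x ≤ 1 := by
  classical
  refine LE.le.trans_eq ?_ (sum_coord t (s ∪ t.2.2.1.toFinset) fun x hx =>
    Finset.mem_union_right _ (t.2.2.1.mem_toFinset.2 hx))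
  exact Finset.sum_le_sum_of_subset_of_nonneg Finset.subset_union_left fun x _ _ => t.2.1 x

/-- A function vanishing at infinity is small away from finitely many open stars. -/
lemma c0_finite (f : C0 (Rips X r)) {ε : ℝ} (hε : 0 < ε) :
    ∃ s : Finset X, ∀ t, ε ≤ ‖val f t‖ → ∃ x ∈ s, t.1 x ≠ 0 := by
  have h1 : ∀ᶠ t in Filter.cocompact (Rips X r), f t ∈ Metric.ball (0 : ℂ) ε :=
    (zero_at_infty f).eventually (Metric.ball_mem_nhds 0 hε)
  obtain ⟨K, hK, h2⟩ := Filter.mem_cocompact.1 h1
  obtain ⟨s, hs⟩ := hK.elim_finite_subcover (fun x : X => {t : Rips X r | t.1 x ≠ 0})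
    (fun x => isOpen_ne_fun (continuous_coord x) continuous_const) fun t _ => by
      by_contra h
      have h3 := sum_coord t ∅ fun x hx => (h (Set.mem_iUnion.2 ⟨x, hx⟩)).elim
      simp at h3
  refine ⟨s, fun t ht => ?_⟩
  have h3 : t ∈ K := by
    by_contra h
    exact absurd (mem_ball_zero_iff.1 (h2 h)) (not_lt.2 ht)
  obtain ⟨x, hx, h4⟩ := Set.mem_iUnion₂.1 (hs h3)
  exact ⟨x, hx, h4⟩

lemma exists_sq (h : BddGeom X) (r : ℕ) : ∃ s : X → C0 (Rips X r),
    ∀ x t, val (s x) t = Complex.ofReal (Real.sqrt (t.1 x)) := by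
  refine ⟨fun x => ⟨⟨fun t => Complex.ofReal (Real.sqrt (t.1 x)),
    Complex.continuous_ofReal.comp (continuous_coord x).sqrt⟩, ?_⟩, fun _ _ => rfl⟩
  refine tendsto_const_nhds.congr' ?_
  filter_upwards [(isCompact_sub (r := r) (h.finBalls x r).toFinset).compl_mem_cocompact] with t ht
  have h1 : t.1 x = 0 := by
    by_contra h1
    exact ht fun y hy => by simpa using t.2.2.2.2 x y h1 hy
  simp [h1]

/-- The square roots of the barycentric coordinates. -/
def sq (h : BddGeom X) (r : ℕ) : X → C0 (Rips X r) := (exists_sq h r).choose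

variable {h : BddGeom X}

lemma val_sq (x : X) (t : Rips X r) : val (sq h r x) t = Complex.ofReal (Real.sqrt (t.1 x)) :=
  (exists_sq h r).choose_spec x t

lemma val_sq_ne {x : X} {t : Rips X r} : val (sq h r x) t ≠ 0 ↔ t.1 x ≠ 0 := by
  rw [val_sq, Ne, Complex.ofReal_eq_zero, Real.sqrt_eq_zero (t.2.1 x)]

lemma val_sq_mul_self (x : X) (t : Rips X r) :
    val (sq h r x) t * val (sq h r x) t = Complex.ofReal (t.1 x) := by
  rw [val_sq, ← Complex.ofReal_mul, Real.mul_self_sqrt (t.2.1 x)]

lemma star_sq (x : X) : star (sq h r x) = sq h r x := by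
  refine c0_ext fun t => ?_
  show star (val (sq h r x) t) = _
  rw [val_sq]
  exact Complex.conj_ofReal _

lemma sq_mul_sq_eq_zero {x y : X} (hxy : (r : ℝ) < dist x y) : sq h r x * sq h r y = 0 := by
  refine c0_ext fun t => ?_
  show val (sq h r x) t * val (sq h r y) t = 0
  by_contra h1
  exact absurd (t.2.2.2.2 x y (val_sq_ne.1 (left_ne_zero_of_mul h1))
    (val_sq_ne.1 (right_ne_zero_of_mul h1))) (not_le.2 hxy)

lemma norm_sum_sq_le (s : Finset X) : ‖∑ x ∈ s, sq h r x * sq h r x‖ ≤ 1 := by
  rw [← ZeroAtInftyContinuousMap.norm_toBCF_eq_norm, BoundedContinuousFunction.norm_le zero_le_one]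
  intro t
  show ‖val (∑ x ∈ s, sq h r x * sq h r x) t‖ ≤ 1
  rw [val_sum]
  simp only [val_mul, val_sq_mul_self]
  rw [← Complex.ofReal_sum, Complex.norm_real, Real.norm_of_nonneg
    (Finset.sum_nonneg fun x _ => t.2.1 x)]
  exact sum_coord_le t s

/-- The partition of unity identity, tested against a function supported in the star of `x`. -/
lemma sum_sq_mul (s : Finset X) (x : X) (hs : ∀ y, dist x y ≤ r → y ∈ s) (g : C0 (Rips X r)) :
    ∑ y ∈ s, sq h r x * sq h r y * (sq h r y * g) = sq h r x * g := by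
  refine c0_ext fun t => ?_
  rw [val_sum]
  simp only [val_mul]
  by_cases hx : t.1 x = 0
  · have h1 : val (sq h r x) t = 0 := by
      by_contra h1
      exact val_sq_ne.1 h1 hx
    simp [h1]
  · have h1 := sum_coord t s fun y hy => hs y (t.2.2.2.2 x y hx hy)
    have h2 : ∀ y, val (sq h r x) t * val (sq h r y) t * (val (sq h r y) t * val g t) =
        val (sq h r x) t * val g t * Complex.ofReal (t.1 y) := fun y => by
      rw [← val_sq_mul_self (h := h) y t]
      ring
    simp only [h2]
    rw [← Finset.mul_sum, ← Complex.ofReal_sum, h1, Complex.ofReal_one, mul_one]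

lemma res_sq {r' : ℕ} (x : X) : Res (sq h r' x) (sq h r x) := by
  intro t t' e
  rw [val_sq, val_sq, e]

lemma Res.mul {r' : ℕ} {f g : C0 (Rips X r)} {f' g' : C0 (Rips X r')} (hf : Res f' f)
    (hg : Res g' g) : Res (f' * g') (f * g) := by
  intro t t' e
  rw [val_mul, val_mul, hf t t' e, hg t t' e]

end

end Vale.Agent.P212
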