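import Vale.Agent.P212.Cpt

/-! Finite propagation operators and the algebraic Roe algebra. -/

namespace Vale.Agent.P212

noncomputable section

variable {X Y : Type} [MetricSpace X]

/-- Finite propagation for the pseudometric pulled back along `f`. -/
def FinProp (f : Y → X) (T : Op (l2 Y HN)) : Prop :=
  ∃ R : ℝ, ∀ y y', R < dist (f y) (f y') → entry T y y' = 0

/-- All matrix entries are compact. -/
def LocCpt (T : Op (l2 Y HN)) : Prop := ∀ y y', Cpt (entry T y y')

/-- Balls of the pulled back pseudometric are finite. -/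
def FinBalls (f : Y → X) : Prop := ∀ (x : X) (R : ℝ), {y | dist x (f y) ≤ R}.Finite

lemma FinProp.mul {f : Y → X} {S T : Op (l2 Y HN)} (hS : FinProp f S) (hT : FinProp f T) :
    FinProp f (S * T) := by
  obtain ⟨R, hR⟩ := hS
  obtain ⟨R', hR'⟩ := hT
  refine ⟨R + R', fun y y' h => ?_⟩
  rw [entry_mul_finset S T y y' ∅ fun z _ => ?_, Finset.sum_empty]
  by_cases h1 : R < dist (f y) (f z)
  · exact Or.inl (hR _ _ h1)
  · exact Or.inr (hR' _ _ (by linarith [dist_triangle (f y) (f z) (f y')]))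

lemma FinProp.add {f : Y → X} {S T : Op (l2 Y HN)} (hS : FinProp f S) (hT : FinProp f T) :
    FinProp f (S + T) := by
  obtain ⟨R, hR⟩ := hS
  obtain ⟨R', hR'⟩ := hT
  refine ⟨max R R', fun y y' h => ?_⟩
  rw [entry_add, hR _ _ ((le_max_left _ _).trans_lt h), hR' _ _ ((le_max_right _ _).trans_lt h),
    add_zero]

lemma FinProp.star {f : Y → X} {T : Op (l2 Y HN)} (hT : FinProp f T) : FinProp f (star T) := by
  obtain ⟨R, hR⟩ := hT
  refine ⟨R, fun y y' h => ?_⟩
  rw [entry_star, hR _ _ (by rwa [dist_comm]), star_zero]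

lemma FinProp.algebraMap (f : Y → X) (c : ℂ) : FinProp f (algebraMap ℂ (Op (l2 Y HN)) c) := by
  refine ⟨0, fun y y' h => ?_⟩
  rw [Algebra.algebraMap_eq_smul_one, entry_smul, entry_one_ne, smul_zero]
  rintro rfl
  simp at h

/-- The star algebra of finite propagation operators. -/
def DD (f : Y → X) : StarSubalgebra ℂ (Op (l2 Y HN)) where
  carrier := {T | FinProp f T}
  mul_mem' := FinProp.mul
  add_mem' := FinProp.add
  algebraMap_mem' := FinProp.algebraMap f
  star_mem' := FinProp.star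

lemma mem_DD {f : Y → X} {T : Op (l2 Y HN)} : T ∈ DD f ↔ FinProp f T := Iff.rfl

lemma IsPb.mem_DD {f : Y → X} {T : Op (l2 Y HN)} {φ : Y → Y} {d : Y → Op HN} (h : IsPb T φ d)
    (C : ℝ) (hC : ∀ y, d y ≠ 0 → dist (f (φ y)) (f y) ≤ C) : T ∈ DD f := by
  refine ⟨C, fun y y' h1 => ?_⟩
  by_cases e : y' = φ y
  · subst e
    rw [h.entry_self]
    by_contra h2
    exact absurd (hC y h2) (by rwa [dist_comm, not_le])
  · exact h.entry_ne e

lemma chi_mem_DD (f : Y → X) (s : Set Y) : chi HN s ∈ DD f :=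
  (isPb_chi s).mem_DD 0 fun y _ => by simp

lemma dg_mem_DD (f : Y → X) (a : Op HN) : dg Y HN a ∈ DD f :=
  (isPb_dg a).mem_DD 0 fun y _ => by simp

lemma BddGeom.finBalls (h : BddGeom X) : FinBalls (id : X → X) := fun x R => by
  obtain ⟨N, hN⟩ := h R
  refine (Set.finite_of_encard_le_coe (hN x)).subset fun y hy => ?_
  rw [Metric.mem_closedBall, dist_comm]
  exact hy

lemma FinBalls.of_fibres (h : BddGeom X) {f : Y → X} (hf : ∀ x, (f ⁻¹' {x}).Finite) :
    FinBalls f := fun x R =>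
  ((h.finBalls x R).biUnion fun z _ => hf z).subset fun y hy =>
    Set.mem_biUnion (x := f y) hy rfl

namespace LocCpt

variable {f : Y → X} {S T : Op (l2 Y HN)}

lemma zero : LocCpt (0 : Op (l2 Y HN)) := fun y y' => by
  rw [entry_zero]
  exact Cpt.zero

lemma add (hS : LocCpt S) (hT : LocCpt T) : LocCpt (S + T) := fun y y' => by
  rw [entry_add]
  exact (hS y y').add (hT y y')

lemma sub (hS : LocCpt S) (hT : LocCpt T) : LocCpt (S - T) := fun y y' => by
  rw [entry_sub]
  exact (hS y y').sub (hT y y')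

lemma smul (hS : LocCpt S) (c : ℂ) : LocCpt (c • S) := fun y y' => by
  rw [entry_smul]
  exact (hS y y').smul c

lemma star (hS : LocCpt S) : LocCpt (star S) := fun y y' => by
  rw [entry_star]
  exact (hS y' y).star

lemma mul_left (hf : FinBalls f) (hS : S ∈ DD f) (hT : LocCpt T) : LocCpt (S * T) := fun y y' => by
  obtain ⟨R, hR⟩ := hS
  rw [entry_mul_finset S T y y' (hf (f y) R).toFinset fun z hz =>
    Or.inl (hR _ _ (by simpa using hz))]
  exact Cpt.sum _ _ fun z _ => (hT z y').mul_left _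

lemma mul_right (hf : FinBalls f) (hS : LocCpt S) (hT : T ∈ DD f) : LocCpt (S * T) := fun y y' => by
  obtain ⟨R, hR⟩ := hT
  rw [entry_mul_finset S T y y' (hf (f y') R).toFinset fun z hz =>
    Or.inr (hR _ _ (by rw [dist_comm]; simpa using hz))]
  exact Cpt.sum _ _ fun z _ => (hS y z).mul_right _

end LocCpt

lemma mem_CX (h : BddGeom X) {T : Op (l2 X HN)} :
    T ∈ CX X ↔ LocCpt T ∧ T ∈ DD (id : X → X) := by
  refine ⟨fun hT => ?_, fun hT => NonUnitalStarAlgebra.subset_adjoin ℂ _ hT⟩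
  let A : NonUnitalStarSubalgebra ℂ (Op (l2 X HN)) :=
    { carrier := {T | LocCpt T ∧ T ∈ DD (id : X → X)}
      add_mem' := fun h1 h2 => ⟨h1.1.add h2.1, add_mem h1.2 h2.2⟩
      zero_mem' := ⟨LocCpt.zero, zero_mem _⟩
      mul_mem' := fun h1 h2 => ⟨LocCpt.mul_left h.finBalls h1.2 h2.1, mul_mem h1.2 h2.2⟩
      smul_mem' := fun c _ h1 => ⟨h1.1.smul c, SMulMemClass.smul_mem c h1.2⟩
      star_mem' := fun h1 => ⟨h1.1.star, star_mem h1.2⟩ }
  exact NonUnitalStarAlgebra.adjoin_le (S := A) (fun _ h1 => h1) hT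

end

end Vale.Agent.P212
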