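import Mathlib

/-!
Statement level definitions for P212: Rips complexes, odd K-homology cycles, coarse K-homology,
the algebraic Roe algebra, its maximal completion, `K₁` and the odd coarse assembly map.
-/

namespace Vale.Agent.P212

noncomputable section

/-- Complex Hilbert spaces. -/
structure Hilb where
  car : Type
  [nacg : NormedAddCommGroup car]
  [ips : InnerProductSpace ℂ car]
  [cs : CompleteSpace car]

attribute [instance] Hilb.nacg Hilb.ips Hilb.cs

/-- Bounded operators between Hilbert spaces. -/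
abbrev Hom (H K : Hilb) : Type := ContinuousLinearMap (RingHom.id ℂ) H.car K.car

/-- Bounded operators on a Hilbert space. -/
abbrev Op (H : Hilb) : Type := Hom H H

/-- The C*-algebra structure of the bounded operators. -/
instance opAlg (H : Hilb) : CStarAlgebra (Op H) := inferInstance

/-- Compact operators. -/
def Cpt {H K : Hilb} (T : Hom H K) : Prop := IsCompactOperator T

/-- The Hilbert space `ℂ`. -/
def cc : Hilb := ⟨ℂ⟩

/-- The Hilbert space `ℓ²(X; H) = ℓ²(X) ⊗ H`. -/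
def l2 (X : Type) (H : Hilb) : Hilb := ⟨lp (fun _ : X => H.car) 2⟩

/-- The Hilbert space `ℓ²(ℕ)`. -/
def HN : Hilb := l2 ℕ cc

/-- Evaluation at `x`, from `ℓ²(X; H)` to `H`. -/
def ev {X : Type} {H : Hilb} (x : X) : Hom (l2 X H) H := lp.evalCLM ℂ (fun _ : X => H.car) 2 x

open Classical in
/-- The inclusion of `H` in `ℓ²(X; H)` as the functions supported at `x`. -/
def inc {X : Type} {H : Hilb} (x : X) : Hom H (l2 X H) :=
  lp.singleContinuousLinearMap ℂ (fun _ : X => H.car) 2 x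

/-- Composition of bounded operators. -/
def Hom.cmp {H K L : Hilb} (a : Hom K L) (b : Hom H K) : Hom H L := ContinuousLinearMap.comp a b

/-- The matrix entry `T_{xy}` of an operator from `ℓ²(Y; H)` to `ℓ²(X; K)`. -/
def entry {X Y : Type} {H K : Hilb} (T : Hom (l2 Y H) (l2 X K)) (x : X) (y : Y) : Hom H K :=
  (ev x).cmp (T.cmp (inc y))

/-- Uniformly discrete metric spaces. -/
def UnifDiscrete (X : Type) [MetricSpace X] : Prop :=
  ∃ δ : ℝ, 0 < δ ∧ ∀ x y : X, x ≠ y → δ ≤ dist x y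

/-- Bounded geometry: balls of each radius have uniformly bounded cardinality. -/
def BddGeom (X : Type) [MetricSpace X] : Prop :=
  ∀ R : ℝ, ∃ N : ℕ, ∀ x : X, (Metric.closedBall x R).encard ≤ N

/-- The Rips complex `P_r(X)`, points given by barycentric coordinates. -/
def Rips (X : Type) [MetricSpace X] (r : ℕ) : Type :=
  {t : X → ℝ // (∀ x, 0 ≤ t x) ∧ (Function.support t).Finite ∧ finsum t = 1 ∧
    ∀ x y, t x ≠ 0 → t y ≠ 0 → dist x y ≤ r}

/-- The weak topology: coherent with the Euclidean topology of the finite subcomplexes. -/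
instance ripsTop (X : Type) [MetricSpace X] (r : ℕ) : TopologicalSpace (Rips X r) :=
  ⨆ σ : Finset X, TopologicalSpace.coinduced
    (fun t : {t : Rips X r // Function.support t.1 ⊆ σ} => t.1)
    (TopologicalSpace.induced (fun t => t.1.1) Pi.topologicalSpace)

/-- The algebra `C₀(Y)`. -/
abbrev C0 (Y : Type) [TopologicalSpace Y] : Type := ZeroAtInftyContinuousMap Y ℂ

/-- The C*-algebra structure of `C₀(Y)`. -/
instance c0Alg (Y : Type) [TopologicalSpace Y] : NonUnitalCStarAlgebra (C0 Y) := inferInstance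

section generic

variable {A A' B : Type} [NonUnitalCStarAlgebra A] [NonUnitalCStarAlgebra A'] [CStarAlgebra B]

/-- Odd Fredholm modules over `A` in `B`, where `K` is the set of compact elements of `B`. -/
structure FMod (A B : Type) [NonUnitalCStarAlgebra A] [CStarAlgebra B] (K : B → Prop) where
  π : NonUnitalStarAlgHom ℂ A B
  F : B
  c_star : ∀ f, K (π f * (F - star F))
  c_sq : ∀ f, K (π f * (F * F - 1))
  c_comm : ∀ f, K (π f * F - F * π f)

/-- Operator homotopy of Fredholm modules. -/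
def FMod.Htpy {K : B → Prop} (Z₀ Z₁ : FMod A B K) : Prop :=
  ∃ Z : unitInterval → FMod A B K, Z 0 = Z₀ ∧ Z 1 = Z₁ ∧ (∀ t, (Z t).π = Z₀.π) ∧
    Continuous fun t => (Z t).F

/-- `a` is the image of `a₁ ⊕ a₂` under the operator `(V₁ V₂) : H ⊕ H → H`. -/
def IsBlock (V₁ V₂ a a₁ a₂ : B) : Prop := a = V₁ * a₁ * star V₁ + V₂ * a₂ * star V₂

/-- `Z` is unitarily equivalent to the direct sum `Z₁ ⊕ Z₂`. -/
def FMod.IsSum {K : B → Prop} (Z Z₁ Z₂ : FMod A B K) : Prop :=
  ∃ V₁ V₂ : B, star V₁ * V₁ = 1 ∧ star V₂ * V₂ = 1 ∧ IsBlock V₁ V₂ 1 1 1 ∧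
    IsBlock V₁ V₂ Z.F Z₁.F Z₂.F ∧ ∀ f, IsBlock V₁ V₂ (Z.π f) (Z₁.π f) (Z₂.π f)

/-- `Z'` is `Z` composed with the homomorphism `A' → A` whose graph is `res`. -/
def FMod.Along {K : B → Prop} (res : A' → A → Prop) (Z : FMod A B K) (Z' : FMod A' B K) : Prop :=
  Z'.F = Z.F ∧ ∀ f' f, res f' f → Z'.π f' = Z.π f

/-- The entry `(p x y + ∑ z, p x z * F * p z y) / 2` of `(P + P F P) / 2`, where
`p x y = π (s x * s y)`. -/
def FMod.halfEntry {K : B → Prop} {X : Type} (Z : FMod A B K) (s : X → A) (x y : X) : B :=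
  (1 / 2 : ℂ) • (Z.π (s x * s y) + finsum fun z => Z.π (s x * s z) * Z.F * Z.π (s z * s y))

/-- The star algebra generated by a set of elements. -/
def gen (s : Set B) : NonUnitalStarSubalgebra ℂ B := NonUnitalStarAlgebra.adjoin ℂ s

/-- Star homomorphisms out of a star subalgebra. -/
abbrev SHom (S : NonUnitalStarSubalgebra ℂ B) (A : Type) [NonUnitalCStarAlgebra A] : Type :=
  NonUnitalStarAlgHom ℂ S A

/-- The norm of the image of an element. -/
def SHom.nrm {S : NonUnitalStarSubalgebra ℂ B} (ι : SHom S A) (T : S) : ℝ := ‖ι T‖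

/-- `ι : S → A` is the completion of `S` in the universal norm. -/
def IsMaxCompletion {S : NonUnitalStarSubalgebra ℂ B} (ι : SHom S A) : Prop :=
  DenseRange ι ∧ ∀ T : S, IsLUB {c : ℝ | ∃ (K : Hilb) (ρ : SHom S (Op K)), c = ρ.nrm T} (ι.nrm T)

/-- `1 + c = exp (2 π i a)`, computed in the completion `A`, for `a` idempotent modulo `S`. -/
def IsExp {S : NonUnitalStarSubalgebra ℂ B} (ι : SHom S A) (a : B) (c : A) : Prop :=
  ∃ b : ℕ → S, (∀ j, (b j).val = a ^ (j + 1) - a) ∧
    HasSum (fun j : ℕ => ((2 * Real.pi * Complex.I) ^ (j + 1) / (j + 1).factorial : ℂ) • ι (b j)) c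

end generic

/-- Odd Fredholm modules over `C₀(P_r(X))` on `ℓ²(ℕ)`: cycles for `KK₁(C₀(P_r(X)), ℂ)`. -/
def Cyc (X : Type) [MetricSpace X] (r : ℕ) : Type := FMod (C0 (Rips X r)) (Op HN) Cpt

/-- The value of a function in `C₀(Y)`. -/
def val {Y : Type} [TopologicalSpace Y] (f : C0 Y) (y : Y) : ℂ := f y

/-- `f` is the restriction of `f'` to the subcomplex `P_r(X)` of `P_r'(X)`. -/
def Res {X : Type} [MetricSpace X] {r r' : ℕ} (f' : C0 (Rips X r')) (f : C0 (Rips X r)) : Prop :=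
  ∀ (t : Rips X r) (t' : Rips X r'), t.1 = t'.1 → val f t = val f' t'

/-- Cycles over all Rips complexes. -/
abbrev CycX (X : Type) [MetricSpace X] : Type := Σ r : ℕ, Cyc X r

/-- The relations of the groups `KK₁(C₀(P_r(X)), ℂ)` and of their direct limit. -/
inductive KXrel (X : Type) [MetricSpace X] : FreeAbelianGroup (CycX X) → Prop
  | htpy (r : ℕ) (Z₀ Z₁ : Cyc X r) (h : FMod.Htpy Z₀ Z₁) : KXrel X (.of ⟨r, Z₀⟩ - .of ⟨r, Z₁⟩)
  | sum (r : ℕ) (Z Z₁ Z₂ : Cyc X r) (h : FMod.IsSum Z Z₁ Z₂) :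
      KXrel X (.of ⟨r, Z⟩ - .of ⟨r, Z₁⟩ - .of ⟨r, Z₂⟩)
  | push (r r' : ℕ) (Z : Cyc X r) (Z' : Cyc X r') (hr : r ≤ r') (h : FMod.Along Res Z Z') :
      KXrel X (.of ⟨r, Z⟩ - .of ⟨r', Z'⟩)

/-- The abelian group with given generators and relations. -/
abbrev Pres {α : Type} (rel : FreeAbelianGroup α → Prop) : Type :=
  FreeAbelianGroup α ⧸ AddSubgroup.closure {x | rel x}

/-- The class of a generator. -/
def Pres.cls {α : Type} (rel : FreeAbelianGroup α → Prop) (a : α) : Pres rel :=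
  QuotientAddGroup.mk (FreeAbelianGroup.of a)

/-- The group structure of a presented abelian group. -/
instance presGroup {α : Type} (rel : FreeAbelianGroup α → Prop) : AddCommGroup (Pres rel) :=
  inferInstance

/-- The coarse K-homology group `KX₁(X)`. -/
abbrev KX1 (X : Type) [MetricSpace X] : Type := Pres (KXrel X)

/-- Matrices `c` over `A` such that `1 + c` is invertible. -/
structure QInv (A : Type) [NonUnitalCStarAlgebra A] where
  n : ℕ
  c : Matrix (Fin n) (Fin n) A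
  qi : IsQuasiregular c

/-- The relations of `K₁(A)`: homotopy, block sum, and triviality of the identity. -/
inductive K1rel (A : Type) [NonUnitalCStarAlgebra A] : FreeAbelianGroup (QInv A) → Prop
  | htpy (n : ℕ) (c c' : Matrix (Fin n) (Fin n) A) (h : IsQuasiregular c) (h' : IsQuasiregular c')
      (p : JoinedIn {d | IsQuasiregular d} c c') : K1rel A (.of ⟨n, c, h⟩ - .of ⟨n, c', h'⟩)
  | sum (u u₁ u₂ : QInv A) (e : Fin u₁.n ⊕ Fin u₂.n ≃ Fin u.n)
      (h : u.c = Matrix.reindex e e (Matrix.fromBlocks u₁.c 0 0 u₂.c)) :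
      K1rel A (.of u - .of u₁ - .of u₂)
  | one (u : QInv A) (h : u.c = 0) : K1rel A (.of u)

/-- The group `K₁(A)`. -/
abbrev K1 (A : Type) [NonUnitalCStarAlgebra A] : Type := Pres (K1rel A)

/-- `x` is the class in `K₁(A)` of the invertible element `1 + c`. -/
def IsClass {A : Type} [NonUnitalCStarAlgebra A] (c : A) (x : K1 A) : Prop :=
  ∃ h : IsQuasiregular (Matrix.of fun _ _ : Fin 1 => c),
    x = Pres.cls (K1rel A) ⟨1, Matrix.of fun _ _ => c, h⟩

/-- Locally compact operators of finite propagation on `ℓ²(X) ⊗ ℓ²(ℕ)`. -/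
def roeSet (X : Type) [MetricSpace X] : Set (Op (l2 X HN)) :=
  {T | (∀ x y, Cpt (entry T x y)) ∧ ∃ R : ℝ, ∀ x y, R < dist x y → entry T x y = 0}

/-- The algebraic Roe algebra `ℂ[X]`. -/
def CX (X : Type) [MetricSpace X] : NonUnitalStarSubalgebra ℂ (Op (l2 X HN)) := gen (roeSet X)

/-- `a = V (1 + F') V* / 2` with `V ξ = (π(√t_x) ξ)_x` and `F' = ∑ x, π(√t_x) F π(√t_x)`. -/
def IsIndexOp {X : Type} [MetricSpace X] {r : ℕ} (Z : Cyc X r) (a : Op (l2 X HN)) : Prop :=
  ∃ s : X → C0 (Rips X r), (∀ x t, val (s x) t = Complex.ofReal (Real.sqrt (t.1 x))) ∧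
    ∀ x y, entry a x y = FMod.halfEntry Z s x y

/-- `μ` is the coarse assembly map in degree one. -/
def IsAssembly {X : Type} [MetricSpace X] {A : Type} [NonUnitalCStarAlgebra A] (ι : SHom (CX X) A)
    (μ : KX1 X →+ K1 A) : Prop :=
  ∀ (r : ℕ) (Z : Cyc X r), ∃ (a : Op (l2 X HN)) (c : A), IsIndexOp Z a ∧ IsExp ι a c ∧
    IsClass c (μ (Pres.cls (KXrel X) ⟨r, Z⟩))

/-- Rational injectivity of a homomorphism of abelian groups. -/
def RatInjective {M N : Type} [AddCommGroup M] [AddCommGroup N] (μ : M →+ N) : Prop :=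
  Function.Injective (LinearMap.rTensor ℚ μ.toIntLinearMap)

end

end Vale.Agent.P212
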