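import Vale.Agent.P212.Sw0

/-! Lifting an operator from the bottom loops to the mapping tori. -/

namespace Vale.Agent.P212

noncomputable section

namespace SW

variable {X Γ : Type} [MetricSpace X] [Group Γ] (w : SW X Γ)

/-- `a` lives on the bottom loops and has propagation at most two along them. -/
def Supp (a : Op (l2 X HN)) : Prop :=
  ∀ x x', entry a x x' ≠ 0 → ∃ y ∈ w.Bot, ∃ δ : ℤ, |δ| ≤ 2 ∧ x = w.f y ∧ x' = w.f ((w.ρ ^ δ) y)

lemma swB_add (δ ε : ℤ) (y : w.Y) : (w.ρ ^ δ) ((w.ρ ^ ε) y) = (w.ρ ^ (δ + ε)) y := by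
  rw [zpow_add, Equiv.Perm.mul_apply]

lemma swB_ind {P : ℤ → Prop} (h0 : P 0) (h : ∀ δ, P (1 + δ) ↔ P δ) (δ : ℤ) : P δ := by
  induction δ using Int.induction_on with
  | zero => exact h0
  | succ n ih => exact add_comm (1 : ℤ) n ▸ (h n).2 ih
  | pred n ih => exact (h _).1 (by simpa using ih)

lemma swB_comm {g : w.Y → w.Y} (h : ∀ y, g (w.ρ y) = w.ρ (g y)) (δ : ℤ) (y : w.Y) :
    g ((w.ρ ^ δ) y) = (w.ρ ^ δ) (g y) :=
  swB_ind (P := fun δ => g ((w.ρ ^ δ) y) = (w.ρ ^ δ) (g y)) rfl (fun δ => by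
    simp only [← w.swB_add, zpow_one, h, EmbeddingLike.apply_eq_iff_eq]) δ

lemma swB_mem {D : Set w.Y} (h : ∀ y, w.ρ y ∈ D ↔ y ∈ D) (δ : ℤ) (y : w.Y) :
    (w.ρ ^ δ) y ∈ D ↔ y ∈ D :=
  swB_ind (P := fun δ => (w.ρ ^ δ) y ∈ D ↔ y ∈ D) Iff.rfl (fun δ => by
    simp only [← w.swB_add, zpow_one, h]) δ

lemma swB_dist (δ : ℤ) (y : w.Y) : dist (w.f ((w.ρ ^ δ) y)) (w.f y) ≤ |(δ : ℝ)| := by
  have k : ∀ ε : ℤ, dist (w.f ((w.ρ ^ (ε + 1)) y)) (w.f ((w.ρ ^ ε) y)) ≤ 1 := fun ε => by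
    rw [add_comm, ← w.swB_add]
    exact w.ρ_dist _
  induction δ using Int.induction_on with
  | zero => simp
  | succ n ih =>
    refine (dist_triangle _ _ _).trans ((add_le_add (k n) ih).trans_eq ?_)
    push_cast
    rw [abs_of_nonneg (by positivity), abs_of_nonneg (by positivity), add_comm]
  | pred n ih =>
    have k' := k (-n - 1)
    rw [sub_add_cancel, dist_comm] at k'
    refine (dist_triangle _ _ _).trans ((add_le_add k' ih).trans_eq ?_)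
    push_cast
    rw [← neg_add', abs_neg, abs_neg, abs_of_nonneg (by positivity),
      abs_of_nonneg (by positivity), add_comm]

lemma swB_free {δ ε : ℤ} {y : w.Y} (h : (w.ρ ^ δ) y = (w.ρ ^ ε) y) (h' : |δ - ε| ≤ 8) :
    δ = ε := by
  refine sub_eq_zero.1 (w.ρ_free _ (w.β_mem y) _ h' ((w.ρ ^ ε).injective ?_))
  rw [w.swB_add, add_sub_cancel, ← w.swB_comm w.β_ρ, h, w.swB_comm w.β_ρ]


lemma exists_term (a : Op (l2 X HN)) (δ : ℤ) : ∃ T : DD w.f,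
    IsPb T.1 (w.ρ ^ δ : Equiv.Perm w.Y) fun y => entry a (w.f (w.β y)) (w.f ((w.ρ ^ δ) (w.β y))) := by
  obtain ⟨T, -, hT⟩ := exists_pb_inj (w.ρ ^ δ).injective
    (fun y => entry a (w.f (w.β y)) (w.f ((w.ρ ^ δ) (w.β y)))) ‖a‖ (norm_nonneg _)
    fun y => norm_entry_le a _ _
  exact ⟨⟨T, hT.mem_DD _ fun y _ => w.swB_dist δ y⟩, hT⟩

/-- The lift of `a`. -/
def lift (a : Op (l2 X HN)) : DD w.f := ∑ δ ∈ Finset.Icc (-2 : ℤ) 2, (w.exists_term a δ).choose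

variable {w} {a : Op (l2 X HN)}

open Classical in
lemma swB_entry (y y' : w.Y) : entry (w.lift a).1 y y' = ∑ δ ∈ Finset.Icc (-2 : ℤ) 2,
    if y' = (w.ρ ^ δ) y then entry a (w.f (w.β y)) (w.f ((w.ρ ^ δ) (w.β y))) else 0 := by
  rw [lift, AddSubmonoidClass.coe_finsetSum, entry_sum]
  refine Finset.sum_congr rfl fun δ _ => ?_
  split_ifs with h
  · exact h ▸ (w.exists_term a δ).choose_spec.entry_self y
  · exact (w.exists_term a δ).choose_spec.entry_ne h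

lemma swB_supp (ha : w.Supp a) {y : w.Y} {x : X} (h : entry a (w.f y) x ≠ 0) :
    ∃ δ : ℤ, |δ| ≤ 2 ∧ x = w.f ((w.ρ ^ δ) y) := by
  obtain ⟨z, hz, δ, h1, h2, h3⟩ := ha _ _ h
  exact ⟨δ, h1, w.f_bot z hz y h2 ▸ h3⟩


lemma entry_lift (ha : w.Supp a) (y : w.Y) {δ : ℤ} (hδ : |δ| ≤ 6) :
    entry (w.lift a).1 y ((w.ρ ^ δ) y) = entry a (w.f (w.β y)) (w.f ((w.ρ ^ δ) (w.β y))) := by
  rw [swB_entry]
  by_cases h2 : |δ| ≤ 2
  · rw [Finset.sum_eq_single_of_mem δ (Finset.mem_Icc.2 (abs_le.1 h2)), if_pos rfl]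
    intro ε hε hne
    rw [Finset.mem_Icc] at hε
    exact if_neg fun h => hne (w.swB_free h (by rw [abs_le] at *; omega)).symm
  rw [Finset.sum_eq_zero fun ε hε => if_neg fun h => h2 (by
    rw [Finset.mem_Icc] at hε
    rw [w.swB_free h (by rw [abs_le] at *; omega)]
    exact abs_le.2 hε)]
  by_contra h
  obtain ⟨ε, hε, e⟩ := swB_supp ha (Ne.symm h)
  refine h2 ?_
  rwa [w.swB_free (w.f_bot _ ((w.swB_mem w.bot_ρ _ _).2 (w.β_mem y)) _ e)
    (by rw [abs_le] at *; omega)]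

lemma entry_lift_ne {y y' : w.Y} (h : entry (w.lift a).1 y y' ≠ 0) :
    ∃ δ : ℤ, |δ| ≤ 2 ∧ y' = (w.ρ ^ δ) y := by
  rw [swB_entry] at h
  obtain ⟨δ, h1, h2⟩ := Finset.exists_ne_zero_of_sum_ne_zero h
  exact ⟨δ, abs_le.2 (Finset.mem_Icc.1 h1), by_contra fun h3 => h2 (if_neg h3)⟩

lemma swB_commute {T : DD w.f} {φ : w.Y → w.Y} {D : Set w.Y} (hT : w.IsPI T φ D)
    (h1 : ∀ y, φ (w.ρ y) = w.ρ (φ y)) (h2 : ∀ y, w.β (φ y) = w.β y)
    (h3 : ∀ y, w.ρ y ∈ D ↔ y ∈ D) : T * w.lift a = w.lift a * T := by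
  refine Commute.sum_right _ _ _ fun δ _ => Subtype.ext ?_
  refine (IsPb.mul hT (w.exists_term a δ).choose_spec).eq
    (IsPb.mul (w.exists_term a δ).choose_spec hT) (fun y => ?_)
    fun y _ => (w.swB_comm h1 δ y).symm
  have h4 := w.swB_mem h3 δ y
  by_cases h : y ∈ D
  · rw [h2, if_pos h, if_pos (h4.2 h), one_mul, mul_one]
  · rw [if_neg h, if_neg (h4.not.2 h), zero_mul, mul_zero]


theorem lifted_lift (ha : w.Supp a) (hs : star a = a) (hc : LocCpt (a * a - a)) :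
    w.Lifted (w.lift a) := by
  classical
  have k : ∀ (y : w.Y) (δ ε : ℤ), |δ - ε| ≤ 6 → entry (w.lift a).1 ((w.ρ ^ ε) y) ((w.ρ ^ δ) y) =
      entry a (w.f ((w.ρ ^ ε) (w.β y))) (w.f ((w.ρ ^ δ) (w.β y))) := fun y δ ε h => by
    have := entry_lift ha ((w.ρ ^ ε) y) h
    rwa [w.swB_comm w.β_ρ, w.swB_add, w.swB_add, sub_add_cancel] at this
  refine ⟨Subtype.ext (entry_ext fun y y' => (entry_star _ _ _).trans ?_), fun y y' => ?_,
    fun γ => (swB_commute (w.isPI_u γ) (w.act_ρ _) (w.β_act _) fun _ => Iff.rfl).symm,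
    swB_commute w.isPI_J w.p_ρ w.β_p fun y => (w.bot_ρ y).not,
    fun y y' h => (entry_lift_ne h).imp fun _ h => h.2⟩
  · by_cases h : ∃ δ : ℤ, |δ| ≤ 2 ∧ y' = (w.ρ ^ δ) y
    · obtain ⟨δ, h, rfl⟩ := h
      rw [entry_lift ha y (h.trans (by norm_num)), ← hs, entry_star, hs]
      exact congrArg star (k y 0 δ (by rw [abs_le] at *; omega))
    · rw [by_contra fun h' => h (entry_lift_ne h'), star_eq_zero]
      by_contra h'
      obtain ⟨δ, h1, rfl⟩ := entry_lift_ne h'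
      exact h ⟨-δ, by rwa [abs_neg], by simp⟩
  have e1 : entry ((w.lift a).1 * (w.lift a).1) y y' = ∑ ε ∈ Finset.Icc (-2 : ℤ) 2,
      entry (w.lift a).1 y ((w.ρ ^ ε) y) * entry (w.lift a).1 ((w.ρ ^ ε) y) y' := by
    rw [entry_mul_finset _ _ _ _ ((Finset.Icc (-2 : ℤ) 2).image fun ε => (w.ρ ^ ε) y)
      fun z hz => Or.inl (by_contra fun h => hz ?_), Finset.sum_image fun δ hδ ε hε h => ?_]
    · simp only [Finset.coe_Icc, Set.mem_Icc] at hδ hε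
      exact w.swB_free h (by rw [abs_le]; omega)
    · obtain ⟨δ, h1, h2⟩ := entry_lift_ne h
      exact Finset.mem_image.2 ⟨δ, Finset.mem_Icc.2 (abs_le.1 h1), h2.symm⟩
  rw [entry_sub, e1]
  by_cases h : ∃ δ : ℤ, |δ| ≤ 4 ∧ y' = (w.ρ ^ δ) y
  · obtain ⟨δ, h, rfl⟩ := h
    have c := hc (w.f (w.β y)) (w.f ((w.ρ ^ δ) (w.β y)))
    rw [entry_sub, entry_mul_finset _ _ _ _ ((Finset.Icc (-2 : ℤ) 2).image
      fun ε => w.f ((w.ρ ^ ε) (w.β y))) fun z hz => Or.inl (by_contra fun h => hz ?_),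
      Finset.sum_image fun δ hδ ε hε h => ?_] at c
    · rwa [entry_lift ha y (h.trans (by norm_num)), Finset.sum_congr rfl fun ε hε => ?_]
      rw [Finset.mem_Icc] at hε
      rw [entry_lift ha y (by rw [abs_le]; omega), k y δ ε (by rw [abs_le] at *; omega)]
    · simp only [Finset.coe_Icc, Set.mem_Icc] at hδ hε
      exact w.swB_free (w.f_bot _ ((w.swB_mem w.bot_ρ _ _).2 (w.β_mem y)) _ h)
        (by rw [abs_le]; omega)
    · obtain ⟨δ, h1, h2⟩ := swB_supp ha h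
      exact Finset.mem_image.2 ⟨δ, Finset.mem_Icc.2 (abs_le.1 h1), h2.symm⟩
  · rw [by_contra fun h' => h ((entry_lift_ne h').imp fun δ h => ⟨h.1.trans (by norm_num), h.2⟩),
      sub_zero, Finset.sum_eq_zero fun ε hε => ?_]
    · exact Cpt.zero
    rw [Finset.mem_Icc] at hε
    rw [show entry (w.lift a).1 ((w.ρ ^ ε) y) y' = 0 from by_contra fun h' => h ?_, mul_zero]
    obtain ⟨δ, h1, h2⟩ := entry_lift_ne h'
    exact ⟨δ + ε, by rw [abs_le] at *; omega, h2.trans (w.swB_add _ _ _)⟩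

lemma entry_lift_bot (ha : w.Supp a) {y y' : w.Y} (hy : y ∈ w.Bot) (hy' : y' ∈ w.Bot) :
    entry (w.lift a).1 y y' = entry a (w.f y) (w.f y') := by
  by_cases h : ∃ δ : ℤ, |δ| ≤ 2 ∧ y' = (w.ρ ^ δ) y
  · obtain ⟨δ, h, rfl⟩ := h
    rw [entry_lift ha y (h.trans (by norm_num)), w.β_bot y hy]
  · rw [by_contra fun h' => h (entry_lift_ne h'), eq_comm]
    by_contra h'
    obtain ⟨δ, h1, h2⟩ := swB_supp ha h'
    exact h ⟨δ, h1, (w.f_bot _ hy' _ h2.symm).symm⟩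

end SW

end

end Vale.Agent.P212
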