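import Vale.Agent.P212.SwA
import Vale.Agent.P212.SwB
import Vale.Agent.P212.AdW

/-! The index of an operator living on the bottom loops vanishes. -/

namespace Vale.Agent.P212

noncomputable section

theorem swindle {X Γ : Type} [MetricSpace X] [Group Γ] (w : SW X Γ) (hbg : BddGeom X)
    (hΓ : HasQ Γ) {B : Type} [CStarAlgebra B] {A : NonUnitalStarSubalgebra ℂ B}
    [hA : IsClosed (A : Set B)] (σ : DD (id : X → X) →⋆ₙₐ[ℂ] B) (h1 : ∀ T, σ T ∈ idl A)
    (h2 : ∀ T : DD (id : X → X), LocCpt T.1 → σ T ∈ A) (a : DD (id : X → X)) (ha : w.Supp a.1)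
    (hs : star a.1 = a.1) (hc : LocCpt (a.1 * a.1 - a.1)) : bd A (σ a) = 0 := by
  classical
  obtain ⟨ψ, k1, k2, k3⟩ := exists_adW w.f w.fib_fin w.Bot w.f_bot
  have hb := SW.lifted_lift ha hs hc
  have key := SW.swindleY hbg hΓ (σ.comp ψ) (fun T => h1 _) (fun T hT => h2 _ (k1 T hT)) hb
  have e : ψ (w.ch w.Bot * w.lift a.1) = a := by
    have e0 : ∀ y y', entry (w.ch w.Bot * w.lift a.1).1 y y' =
        if y ∈ w.Bot then entry (w.lift a.1).1 y y' else 0 := fun y y' => entry_chi_mul _ _ _ _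
    have hρ : ∀ (δ : ℤ) (y : w.Y), y ∈ w.Bot → (w.ρ ^ δ) y ∈ w.Bot := fun δ y hy => by
      induction δ using Int.induction_on with
      | zero => simpa using hy
      | succ k ih => rw [add_comm, zpow_add, zpow_one, Equiv.Perm.mul_apply, w.bot_ρ]; exact ih
      | pred k ih =>
        rw [← w.bot_ρ, ← Equiv.Perm.mul_apply, ← zpow_one_add]
        simpa using ih
    refine Subtype.ext (entry_ext fun x x' => ?_)
    by_cases h : ∃ y ∈ w.Bot, ∃ y' ∈ w.Bot, x = w.f y ∧ x' = w.f y'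
    · obtain ⟨y, hy, y', hy', rfl, rfl⟩ := h
      rw [k2 _ y hy y' hy', e0, if_pos hy, SW.entry_lift_bot ha hy hy']
    · have z1 : entry a.1 x x' = 0 := by
        by_contra hne
        obtain ⟨y, hy, δ, -, rfl, rfl⟩ := ha x x' hne
        exact h ⟨y, hy, _, hρ δ y hy, rfl, rfl⟩
      rw [z1]
      by_contra hne
      obtain ⟨y, y', rfl, rfl, hne'⟩ := k3 _ _ _ hne
      rw [e0] at hne'
      split_ifs at hne' with hy
      · obtain ⟨δ, -, rfl⟩ := SW.entry_lift_ne hne'
        exact h ⟨y, hy, _, hρ δ y hy, rfl, rfl⟩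
      · exact hne' rfl
  rwa [NonUnitalStarAlgHom.comp_apply, e] at key

end

end Vale.Agent.P212
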