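import Vale.Agent.P212.Roe
import Vale.Agent.P212.Iface

/-! The operators of the swindle. -/

namespace Vale.Agent.P212

noncomputable section

namespace SW

variable {X Γ : Type} [MetricSpace X] [Group Γ] (w : SW X Γ)

open Classical in
/-- `T` is the pullback along `φ` cut down to `D`: `(T ξ) y = 1_D(y) ξ (φ y)`. -/
def IsPI (T : DD w.f) (φ : w.Y → w.Y) (D : Set w.Y) : Prop :=
  IsPb T.1 φ fun y => if y ∈ D then 1 else 0

/-- Indicator functions as finite propagation operators. -/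
def ch (D : Set w.Y) : DD w.f := ⟨chi HN D, chi_mem_DD _ _⟩

open Classical in
lemma sw0_norm (D : Set w.Y) (y : w.Y) : ‖(if y ∈ D then 1 else 0 : Op HN)‖ ≤ 1 := by
  split_ifs
  · exact ContinuousLinearMap.norm_id_le
  · simp

lemma sw0_mul {S T : DD w.f} {φ ψ : w.Y → w.Y} {D E : Set w.Y} (hS : w.IsPI S ψ E)
    (hT : w.IsPI T φ D) : w.IsPI (S * T) (fun y => φ (ψ y)) (E ∩ ψ ⁻¹' D) := by
  have h := IsPb.mul hS hT
  intro ξ y
  refine (h ξ y).trans ?_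
  by_cases h1 : y ∈ E <;> by_cases h2 : ψ y ∈ D <;> simp [h1, h2]

lemma sw0_eq {S T : DD w.f} {φ ψ : w.Y → w.Y} {D E : Set w.Y} (hS : w.IsPI S ψ E)
    (hT : w.IsPI T φ D) (h1 : E = D) (h2 : ∀ y ∈ E, ψ y = φ y) : S = T := by
  subst h1
  refine Subtype.ext (IsPb.eq hS hT (fun _ => rfl) fun y hy => h2 y ?_)
  by_contra h
  exact hy (if_neg h)

lemma exists_u : ∃ u : Γ →* DD w.f, ∀ γ, w.IsPI (u γ) (w.act γ⁻¹) Set.univ := by
  have h : ∀ γ, ∃ T : DD w.f, w.IsPI T (w.act γ⁻¹) Set.univ := fun γ => by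
    obtain ⟨T, -, hT⟩ := exists_pb_inj (w.act γ⁻¹).injective _ 1 zero_le_one (w.sw0_norm Set.univ)
    obtain ⟨C, hC⟩ := w.act_dist γ⁻¹
    exact ⟨⟨T, hT.mem_DD C fun y _ => hC y⟩, hT⟩
  choose u hu using h
  have h1 : w.IsPI 1 id Set.univ := fun ξ y => by simp
  exact ⟨{ toFun := u
           map_one' := w.sw0_eq (hu 1) h1 rfl fun y _ => by simp
           map_mul' := fun γ γ' => w.sw0_eq (hu _) (w.sw0_mul (hu γ) (hu γ')) (by simp)
             fun y _ => by simp }, hu⟩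

/-- The permutation representation. -/
def u : Γ →* DD w.f := w.exists_u.choose

lemma isPI_u (γ : Γ) : w.IsPI (w.u γ) (w.act γ⁻¹) Set.univ := w.exists_u.choose_spec γ

lemma star_u (γ : Γ) : star (w.u γ) = w.u γ⁻¹ := by
  have h := IsPb.adj_equiv (w.isPI_u γ)
  refine Subtype.ext (IsPb.eq h (w.isPI_u γ⁻¹) (fun y => ?_) fun y _ => ?_)
  · simp only [Set.mem_univ, if_true]
    exact star_one (Op HN)
  · rw [← Equiv.Perm.inv_def, ← map_inv]

lemma bot_act_iff (γ : Γ) (y : w.Y) : w.act γ y ∈ w.Bot ↔ y ∈ w.Bot := by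
  refine ⟨fun h => ?_, fun h => by rwa [w.bot_act γ y h]⟩
  have h1 := w.bot_act γ⁻¹ _ h
  rw [map_inv, Equiv.Perm.inv_def, Equiv.symm_apply_apply] at h1
  rwa [h1]

lemma exists_J : ∃ J : DD w.f, w.IsPI J w.p w.Botᶜ := by
  classical
  obtain ⟨F, hF⟩ := w.P3
  obtain ⟨T, hT⟩ := exists_pb_card w.p _ 1 F.card (w.sw0_norm w.Botᶜ) fun x s hs => by
    refine (Finset.card_le_card fun y hy => ?_).trans
      (Finset.card_image_le (s := F) (f := fun g => (w.act g).symm (w.sec x)))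
    obtain ⟨g, hg, e⟩ := hF y fun h => (hs y hy).2 (if_neg (not_not.2 h))
    exact Finset.mem_image.2 ⟨g, hg, by rw [← (hs y hy).1, e, Equiv.symm_apply_apply]⟩
  exact ⟨⟨T, hT.mem_DD 1 fun y _ => w.p_dist y⟩, hT⟩

lemma exists_J' : ∃ J' : DD w.f, w.IsPI J' w.sec w.Topᶜ := by
  classical
  have h0 : ∀ y {_ : Decidable (y ∈ w.Topᶜ)}, (if y ∈ w.Topᶜ then 1 else 0 : Op HN) ≠ 0 →
      w.p (w.sec y) = y := fun y _ h => w.p_sec y fun h1 => h (if_neg (not_not.2 h1))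
  obtain ⟨T, hT⟩ := exists_pb_card w.sec _ 1 1 (w.sw0_norm w.Topᶜ) fun x s hs =>
    Finset.card_le_one.2 fun y hy y' hy' => by
      rw [← h0 y (hs y hy).2, ← h0 y' (hs y' hy').2, (hs y hy).1, (hs y' hy').1]
  refine ⟨⟨T, hT.mem_DD 1 fun y hy => ?_⟩, hT⟩
  have := w.p_dist (w.sec y)
  rwa [h0 y hy, dist_comm] at this

/-- Pullback along the level map. -/
def J : DD w.f := w.exists_J.choose

/-- Pullback along the section. -/
def J' : DD w.f := w.exists_J'.choose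

lemma isPI_J : w.IsPI w.J w.p w.Botᶜ := w.exists_J.choose_spec

lemma isPI_J' : w.IsPI w.J' w.sec w.Topᶜ := w.exists_J'.choose_spec

variable {w}

lemma isPI_ch (D : Set w.Y) : w.IsPI (w.ch D) id D := isPb_chi D

lemma IsPI.mul {S T : DD w.f} {φ ψ : w.Y → w.Y} {D E : Set w.Y} (hS : w.IsPI S ψ E)
    (hT : w.IsPI T φ D) : w.IsPI (S * T) (fun y => φ (ψ y)) (E ∩ ψ ⁻¹' D) := w.sw0_mul hS hT

lemma IsPI.eq {S T : DD w.f} {φ ψ : w.Y → w.Y} {D E : Set w.Y} (hS : w.IsPI S ψ E)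
    (hT : w.IsPI T φ D) (h1 : E = D) (h2 : ∀ y ∈ E, ψ y = φ y) : S = T := w.sw0_eq hS hT h1 h2

lemma sw0_sum {T : DD w.f} {φ : w.Y → w.Y} {D : Set w.Y} (hT : w.IsPI T φ D) (F : Finset Γ)
    (σ : w.Y → Γ) (hσ : ∀ y ∈ D, σ y ∈ F) {A : Γ → DD w.f} {φ' : Γ → w.Y → w.Y}
    (hA : ∀ s, w.IsPI (A s) (φ' s) ({y | σ y = s} ∩ D)) (h : ∀ y ∈ D, φ' (σ y) y = φ y) :
    T = ∑ s ∈ F, A s := by
  refine Subtype.ext (ContinuousLinearMap.ext fun ξ => l2_ext fun y => ?_)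
  rw [hT ξ y, AddSubmonoidClass.coe_finsetSum, sum_apply, map_sum]
  by_cases hy : y ∈ D
  · rw [Finset.sum_eq_single (σ y) (fun s _ hs => by rw [hA s ξ y]; simp [hs.symm])
      fun h1 => absurd (hσ y hy) h1, hA _ ξ y, h y hy]
    simp [hy]
  · rw [Finset.sum_eq_zero fun s _ => by rw [hA s ξ y]; simp [hy]]
    simp [hy]

/-- Piecewise group elements: `T` is a finite sum of cut down translates of `S`. -/
lemma IsPI.piecewise {S T : DD w.f} {φ ψ : w.Y → w.Y} {D : Set w.Y} (hS : w.IsPI S ψ D)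
    (hT : w.IsPI T φ D) (F : Finset Γ) (h : ∀ y ∈ D, ∃ s ∈ F, φ y = w.act s (ψ y)) :
    ∃ E : Γ → Set w.Y, S = ∑ s ∈ F, w.ch (E s) * S ∧ T = ∑ s ∈ F, w.ch (E s) * S * w.u s⁻¹ := by
  choose! σ h1 h2 using h
  refine ⟨fun s => {y | σ y = s}, sw0_sum hS F σ h1 (fun s => (isPI_ch _).mul hS) fun _ _ => rfl,
    sw0_sum hT F σ h1 (φ' := fun s y => w.act s (ψ y)) (fun s => ?_) fun y hy => (h2 y hy).symm⟩
  simpa using ((isPI_ch {y | σ y = s}).mul hS).mul (w.isPI_u s⁻¹)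

variable (w)

/-- The properties of the lifted index operator that are used in the swindle. -/
structure Lifted (b : DD w.f) : Prop where
  sa : star b = b
  cpt : LocCpt (b.1 * b.1 - b.1)
  comm_u : ∀ γ, Commute b (w.u γ)
  comm_J : w.J * b = b * w.J
  supp : ∀ y y', entry b.1 y y' ≠ 0 → ∃ δ : ℤ, y' = (w.ρ ^ δ) y

end SW

end

end Vale.Agent.P212
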