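import Vale.Agent.P212.SwT
import Vale.Agent.P212.K1b
import Vale.Agent.P212.PropT

/-! The swindle on the mapping tori. -/

namespace Vale.Agent.P212

noncomputable section

/-- The algebraic form of the swindle. -/
theorem swindle_alg {B D : Type} [CStarAlgebra B] {A : NonUnitalStarSubalgebra ℂ B}
    [hA : IsClosed (A : Set B)] [Ring D] (Θ : D →ₙ+* B) (h1 : ∀ T, Θ T ∈ idl A) {Q : B}
    (qA : Q ∈ idl A) (qQ : Q * Q = Q) {b cB cT J J' e : D} (iB : cB * cB = cB) (iT : cT * cT = cT)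
    (bB : Commute b cB) (bT : Commute b cT) (qb : Commute (Θ b) Q) (qB : Commute (Θ cB) Q)
    (qT : Commute (Θ cT) Q) (hb : Θ (b * b - b) ∈ A) (hJ : J * b = b * J)
    (j1 : Q * (Θ J * Q) = Θ J * Q) (j2 : Q * (Θ J' * Q) = Θ J' * Q)
    (j3 : Θ (J * J') * Q = Θ (1 - cB) * Q) (j4 : J' * J = 1 - cT) (j5 : J * (1 - cT) = J)
    (e1 : e * e = e) (e2 : Commute (Θ e) Q) (e3 : Θ (e - cT * b) ∈ A)
    (bot : Q * Θ (cB * b) = Θ (cB * b)) : bd A (Θ (cB * b)) = 0 := by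
  have prod : ∀ x y : D, Commute (Θ y) Q → Θ x * Q * (Θ y * Q) = Θ (x * y) * Q := fun x y hy => by
    rw [mul_assoc, ← mul_assoc Q, ← hy.eq, mul_assoc, qQ, ← mul_assoc, map_mul]
  have cq : ∀ c : D, Commute (Θ c) Q → Commute (Θ (c * b)) Q := fun c hc => by
    rw [map_mul]; exact hc.mul_left qb
  have cq' : ∀ c : D, Commute (Θ c) Q → Commute (Θ ((1 - c) * b)) Q := fun c hc => by
    rw [sub_mul, one_mul, map_sub]; exact qb.sub_left (cq c hc)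
  have mul : ∀ c c' : D, Commute (Θ (c' * b)) Q → Commute b c' →
      Θ (c * b) * Q * (Θ (c' * b) * Q) = Θ (c * c' * (b * b)) * Q := fun c c' hq hc => by
    rw [prod _ _ hq, mul_assoc c, ← mul_assoc b, hc.eq, mul_assoc c', ← mul_assoc c]
  have ess : ∀ c : D, c * c = c → Commute (Θ (c * b)) Q → Commute b c →
      EssI A (Θ (c * b) * Q) := fun c hi hq hc => by
    refine ⟨mul_mem (h1 _) qA, ?_⟩
    rw [mul c c hq hc, hi, ← sub_mul, ← map_sub, ← mul_sub, map_mul]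
    exact mul_idl (idl_mul (h1 _) hb) qA
  have idem' : ∀ c : D, c * c = c → (1 - c) * (1 - c) = 1 - c := fun c hc => by
    rw [mul_sub, mul_one, sub_mul, one_mul, hc, sub_self, sub_zero]
  have comm' : ∀ c : D, Commute b c → Commute b (1 - c) := fun c hc =>
    (Commute.one_right b).sub_right hc
  have split : ∀ c : D, c * c = c → Commute (Θ c) Q → Commute b c →
      bd A (Θ b * Q) = bd A (Θ (c * b) * Q) + bd A (Θ ((1 - c) * b) * Q) := fun c hi hq hc => by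
    rw [← bd_add (ess c hi (cq c hq) hc) (ess _ (idem' c hi) (cq' c hq) (comm' c hc))
      (by rw [mul _ _ (cq' c hq) (comm' c hc), mul_sub, mul_one, hi, sub_self, zero_mul, map_zero,
        zero_mul])
      (by rw [mul _ _ (cq c hq) hc, sub_mul, one_mul, hi, sub_self, zero_mul, map_zero, zero_mul]),
      ← add_mul, ← map_add, ← add_mul, add_sub_cancel, one_mul]
  have conj : bd A (Θ ((1 - cB) * b) * Q) = bd A (Θ ((1 - cT) * b) * Q) := by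
    rw [← bd_conj (V := Θ J) (V' := Θ J' * Q) (ess _ (idem' _ iT) (cq' _ qT) (comm' _ bT)) (h1 _)
      (mul_mem (h1 _) qA) ?_]
    · congr 1
      rw [mul_assoc, mul_assoc, j2, ← mul_assoc, ← map_mul, ← mul_assoc J, j5, hJ,
        ← mul_assoc, ← map_mul, mul_assoc b, map_mul Θ b, mul_assoc, j3, ← mul_assoc, ← map_mul,
        (comm' _ bB).eq]
    · rw [(cq' _ qT).eq, mul_assoc (Θ J'), mul_assoc (Θ J'), ← mul_assoc (Q * Θ J),
        mul_assoc Q, j1, mul_assoc (Θ J), ← (cq' _ qT).eq, ← mul_assoc, ← mul_assoc,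
        ← map_mul, ← map_mul, j4, ← mul_assoc, idem' _ iT]
  have top : bd A (Θ (cT * b) * Q) = 0 := by
    rw [← bd_congr (a' := Θ e * Q) (ess _ iT (cq _ qT) bT) ?_]
    · exact bd_idem (by rw [prod _ _ e2, e1])
    · rw [← sub_mul, ← map_sub]
      exact mul_idl e3 qA
  have k1 := split _ iB qB bB
  have k2 := split _ iT qT bT
  rw [k2, top, conj, zero_add, (cq _ qB).eq, bot] at k1
  exact add_eq_right.1 k1.symm

namespace SW

variable {X Γ : Type} [MetricSpace X] [Group Γ] {w : SW X Γ}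

variable {B : Type} [CStarAlgebra B] {A : NonUnitalStarSubalgebra ℂ B}

/-- The Kazhdan projection of the permutation representation. -/
lemma exists_Q (hΓ : HasQ Γ) (hA : IsClosed (A : Set B)) (Θ : DD w.f →⋆ₙₐ[ℂ] B)
    (h1 : ∀ T, Θ T ∈ idl A) : ∃ Q ∈ idl A, Q * Q = Q ∧
      (∀ x γ, Θ (x * w.u γ) * Q = Θ x * Q) ∧
      (∀ x, (∀ γ, Commute x (w.u γ)) → Commute (Θ x) Q) ∧
      (∀ x, (∀ γ, Θ (w.u γ * x) * Q = Θ x * Q) → Q * (Θ x * Q) = Θ x * Q) ∧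
      ∀ x, (∀ γ, w.u γ * x = x) → Q * Θ x = Θ x := by
  have l1 : ∀ x, Θ 1 * Θ x = Θ x := fun x => by rw [← map_mul, one_mul]
  have r1 : ∀ x, Θ x * Θ 1 = Θ x := fun x => by rw [← map_mul, mul_one]
  let U : Γ →* B :=
    { toFun := fun γ => Θ (w.u γ) + (1 - Θ 1)
      map_one' := by rw [map_one, add_sub_cancel]
      map_mul' := fun γ γ' => by
        simp only [map_mul, mul_add, add_mul, mul_sub, sub_mul, mul_one, one_mul, l1, r1]
        abel }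
  have hl : ∀ x γ, Θ x * U γ = Θ (x * w.u γ) := fun x γ => by
    show Θ x * (Θ (w.u γ) + (1 - Θ 1)) = _
    rw [mul_add, mul_sub, mul_one, r1, sub_self, add_zero, map_mul]
  have hr : ∀ x γ, U γ * Θ x = Θ (w.u γ * x) := fun x γ => by
    show (Θ (w.u γ) + (1 - Θ 1)) * Θ x = _
    rw [add_mul, sub_mul, one_mul, l1, sub_self, add_zero, map_mul]
  obtain ⟨Q, q1, q2, q3, q4⟩ := hΓ B U fun γ => by
    show star (Θ (w.u γ) + (1 - Θ 1)) = Θ (w.u γ⁻¹) + (1 - Θ 1)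
    rw [star_add, star_sub, star_one, ← map_star Θ, ← map_star Θ, star_one, w.star_u]
  refine ⟨Q, q4 _ (isClosed_idl hA) fun γ => add_mem (h1 _) (sub_mem (one_mem _) (h1 _)),
    q2 Q q1, fun x γ => ?_, fun x hx => q3 _ fun γ => ?_, fun x hx => q2 _ fun γ => ?_,
    fun x hx => q2 _ fun γ => ?_⟩
  · rw [← hl, mul_assoc, q1]
  · show Θ x * U γ = U γ * Θ x
    rw [hl, hr, (hx γ).eq]
  · rw [← mul_assoc, hr, hx]
  · rw [hr, hx]

lemma pw {Θ : DD w.f →⋆ₙₐ[ℂ] B} {Q : B} (hQ : ∀ x γ, Θ (x * w.u γ) * Q = Θ x * Q)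
    {S T : DD w.f} {φ ψ : w.Y → w.Y} {D : Set w.Y} (hS : w.IsPI S ψ D)
    (hT : w.IsPI T φ D) (F : Finset Γ) (h : ∀ y ∈ D, ∃ s ∈ F, φ y = w.act s (ψ y)) :
    Θ T * Q = Θ S * Q := by
  obtain ⟨E, e1, e2⟩ := hS.piecewise hT F h
  conv_rhs => rw [e1]
  rw [e2, map_sum, map_sum, Finset.sum_mul, Finset.sum_mul]
  exact Finset.sum_congr rfl fun s _ => hQ _ _

lemma ch_idem (s : Set w.Y) : w.ch s * w.ch s = w.ch s :=
  Subtype.ext ((chi_mul_chi s s).trans (by rw [Set.inter_self]; rfl))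

lemma ch_compl (s : Set w.Y) : w.ch sᶜ = 1 - w.ch s :=
  eq_sub_of_add_eq' (Subtype.ext (chi_add_compl s))

lemma ch_comm_u {s : Set w.Y} (hs : ∀ γ y, w.act γ y ∈ s ↔ y ∈ s) (γ : Γ) :
    Commute (w.ch s) (w.u γ) :=
  ((isPI_ch s).mul (w.isPI_u γ)).eq ((w.isPI_u γ).mul (isPI_ch s))
    (Set.ext fun y => ⟨fun h => ⟨trivial, (hs _ y).2 h.1⟩, fun h => ⟨(hs _ y).1 h.2, trivial⟩⟩)
    fun _ _ => rfl

theorem swindleY (hbg : BddGeom X) (hΓ : HasQ Γ) [hA : IsClosed (A : Set B)]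
    (Θ : DD w.f →⋆ₙₐ[ℂ] B) (h1 : ∀ T, Θ T ∈ idl A) (h2 : ∀ T : DD w.f, LocCpt T.1 → Θ T ∈ A)
    {b : DD w.f} (hb : w.Lifted b) : bd A (Θ (w.ch w.Bot * b)) = 0 := by
  obtain ⟨Q, qA, qQ, q1, q2, q3, q4⟩ := exists_Q hΓ hA Θ h1
  have hfb : FinBalls w.f := FinBalls.of_fibres hbg w.fib_fin
  have hB := w.bot_act_iff
  have hT := w.top_act
  have pre : ∀ s : Set w.Y, (∀ γ y, w.act γ y ∈ s ↔ y ∈ s) → ∀ γ,
      Set.univ ∩ (w.act γ) ⁻¹' sᶜ = sᶜ := fun s hs γ =>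
    Set.ext fun y => ⟨fun h k => h.2 ((hs γ y).2 k), fun h => ⟨trivial, fun k => h ((hs γ y).1 k)⟩⟩
  have j1 : Q * (Θ w.J * Q) = Θ w.J * Q := q3 _ fun γ => by
    obtain ⟨S, hS⟩ := w.P1 γ⁻¹
    have k := (w.isPI_u γ).mul w.isPI_J
    rw [pre _ hB] at k
    exact pw q1 w.isPI_J k S hS
  have j2 : Q * (Θ w.J' * Q) = Θ w.J' * Q := q3 _ fun γ => by
    obtain ⟨S, hS⟩ := w.P2 γ⁻¹
    have k := (w.isPI_u γ).mul w.isPI_J'
    rw [pre _ hT] at k
    exact pw q1 w.isPI_J' k S hS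
  have j3 : Θ (w.J * w.J') * Q = Θ (w.ch w.Botᶜ) * Q := by
    obtain ⟨S, hS⟩ := w.P3
    have k := w.isPI_J.mul w.isPI_J'
    rw [show w.Botᶜ ∩ w.p ⁻¹' w.Topᶜ = w.Botᶜ by ext y; simp [w.p_mem]] at k
    exact pw q1 (isPI_ch _) k S hS
  have j4 : w.J' * w.J = w.ch w.Topᶜ :=
    (w.isPI_J'.mul w.isPI_J).eq (isPI_ch _) (by ext y; simp [w.sec_mem])
      fun y hy => w.p_sec y hy.1
  have j5 : w.J * w.ch w.Topᶜ = w.J :=
    (w.isPI_J.mul (isPI_ch _)).eq w.isPI_J (by ext y; simp [w.p_mem]) fun _ _ => rfl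
  have bot : Q * Θ (w.ch w.Bot * b) = Θ (w.ch w.Bot * b) := q4 _ fun γ => by
    have k : w.u γ * w.ch w.Bot = w.ch w.Bot :=
      ((w.isPI_u γ).mul (isPI_ch _)).eq (isPI_ch _)
        (Set.ext fun y => ⟨fun h => (hB _ y).1 h.2, fun h => ⟨trivial, (hB _ y).2 h⟩⟩)
        fun y hy => w.bot_act _ y ((hB _ _).1 hy.2)
    exact (mul_assoc _ _ _).symm.trans (congrArg (· * b) k)
  obtain ⟨e, e1, e2, e3⟩ := hb.top
  rw [ch_compl] at j3 j4 j5
  exact swindle_alg (D := DD w.f) (Θ : DD w.f →ₙ+* B) h1 qA qQ (ch_idem _) (ch_idem _)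
    hb.comm_bot hb.comm_top (q2 _ hb.comm_u) (q2 _ (ch_comm_u hB)) (q2 _ (ch_comm_u hT))
    (h2 _ hb.cpt) hb.comm_J j1 j2 j3 j4 j5 e1 (q2 _ e2) (h2 _ e3) bot

end SW

end

end Vale.Agent.P212
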