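import Vale.Agent.P212.Sw0
import Vale.Agent.P212.Lift

/-! The lifted operator on the top level. -/

namespace Vale.Agent.P212

noncomputable section

namespace SW

variable {X Γ : Type} [MetricSpace X] [Group Γ] {w : SW X Γ}

lemma swT_zpow {α : Type} {g : w.Y → α} {P : w.Y → Prop} (hP : ∀ y, P (w.ρ y) ↔ P y)
    (hg : ∀ y, P y → g (w.ρ y) = g y) (δ : ℤ) (y : w.Y) (hy : P y) :
    P ((w.ρ ^ δ) y) ∧ g ((w.ρ ^ δ) y) = g y := by
  induction δ using Int.induction_on with
  | zero => simpa using hy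
  | succ k ih =>
    rw [add_comm, zpow_add, zpow_one, Equiv.Perm.mul_apply]
    exact ⟨(hP _).2 ih.1, (hg _ ih.1).trans ih.2⟩
  | pred k ih =>
    have e : (w.ρ ^ (-(k : ℤ))) y = w.ρ ((w.ρ ^ (-(k : ℤ) - 1)) y) := by
      rw [← Equiv.Perm.mul_apply, ← zpow_one_add]
      simp
    rw [e] at ih
    exact ⟨(hP _).1 ih.1, (hg _ ((hP _).1 ih.1)).symm.trans ih.2⟩

lemma swT_comm {b : DD w.f} (hb : w.Lifted b) {s : Set w.Y} (hs : ∀ y, w.ρ y ∈ s ↔ y ∈ s) :
    Commute (chi HN s) b.1 := (commute_chi_iff _ _).2 fun y y' h => by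
  obtain ⟨δ, rfl⟩ := hb.supp y y' h
  exact (swT_zpow (P := fun _ => True) (g := fun y => y ∈ s) (fun _ => Iff.rfl)
    (fun y _ => propext (hs y)) δ y trivial).2.symm.to_iff

lemma Lifted.comm_bot {b : DD w.f} (hb : w.Lifted b) : Commute b (w.ch w.Bot) :=
  Subtype.ext (swT_comm hb w.bot_ρ).symm.eq

lemma Lifted.comm_top {b : DD w.f} (hb : w.Lifted b) : Commute b (w.ch w.Top) :=
  Subtype.ext (swT_comm hb w.top_ρ).symm.eq

lemma swT_chi {Y : Type} {s t : Set Y} (h : ∀ y ∈ t, y ∉ s) : chi HN t * chi HN s = 0 := by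
  rw [chi_mul_chi, show t ∩ s = ∅ from Set.eq_empty_of_forall_notMem fun y hy => h y hy.1 hy.2,
    chi_empty]

lemma swT_chi_u {s : Set w.Y} (hs : ∀ γ y, w.act γ y ∈ s ↔ y ∈ s) (γ : Γ) :
    Commute (w.u γ).1 (chi HN s) :=
  congrArg Subtype.val (((w.isPI_u γ).mul (isPI_ch s)).eq ((isPI_ch s).mul (w.isPI_u γ))
    (Set.ext fun y => ⟨fun h => ⟨(hs _ y).1 h.2, trivial⟩, fun h => ⟨trivial, (hs _ y).2 h.1⟩⟩)
    fun _ _ => rfl)

/-- On the top level the lifted operator is a locally compact perturbation of an invariant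
projection. -/
theorem Lifted.top {b : DD w.f} (hb : w.Lifted b) : ∃ e : DD w.f, e * e = e ∧
    (∀ γ, Commute e (w.u γ)) ∧ LocCpt (e.1 - (w.ch w.Top * b).1) := by
  classical
  let s : ℕ → Set w.Y := fun n => w.Top ∩ {y | w.blk y = n}
  have hc : ∀ n, Commute (chi HN (s n)) b.1 := fun n => swT_comm hb fun y => by
    simp only [s, Set.mem_inter_iff, Set.mem_ofPred_eq, w.top_ρ, w.blk_ρ]
  have hi : ∀ n, chi HN (s n) * chi HN (s n) = chi HN (s n) := fun n => by
    rw [chi_mul_chi, Set.inter_self]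
  have hsa : star b.1 = b.1 := congrArg Subtype.val hb.sa
  have h1 : ∀ n, star (chi HN (s n) * b.1) = chi HN (s n) * b.1 := fun n => by
    rw [star_mul, hsa, star_chi, (hc n).eq]
  have h2 : ∀ n, Cpt (chi HN (s n) * b.1 * (chi HN (s n) * b.1) - chi HN (s n) * b.1) := fun n => by
    have e : chi HN (s n) * b.1 * (chi HN (s n) * b.1) - chi HN (s n) * b.1 =
        chi HN (s n) * (b.1 * b.1 - b.1) * chi HN (s n) := by
      have e0 : chi HN (s n) * b.1 * (chi HN (s n) * b.1) = chi HN (s n) * (b.1 * b.1) := by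
        rw [mul_assoc, ← mul_assoc b.1, ← (hc n).eq, mul_assoc, ← mul_assoc, hi]
      rw [e0, mul_assoc _ (_ - _), ← ((hc n).mul_right (hc n)).sub_right (hc n) |>.eq,
        ← mul_assoc (chi HN (s n)) (chi HN (s n)), hi, mul_sub]
    rw [e]
    refine Cpt.of_finite (s := s n) ((w.blk_fin n).subset Set.inter_subset_right)
      (fun x y h => ?_) fun x y => ?_
    · rw [entry_mul_chi, entry_chi_mul] at h
      by_contra h0
      refine h ?_
      split_ifs with a1 a2
      · exact absurd ⟨a2, a1⟩ h0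
      · rfl
      · rfl
    · rw [entry_mul_chi, entry_chi_mul]
      split_ifs
      exacts [hb.cpt x y, Cpt.zero, Cpt.zero]
  choose e e1 e2 e3 e4 e5 e6 using fun n => exists_lift (h1 n) (h2 n)
  have z1 : ∀ n x y, entry (e n) x y ≠ 0 → x ∈ s n := fun n x y h => by
    by_contra hx
    have := e6 n (chi HN {x}) (by
      rw [← mul_assoc, swT_chi (by rintro _ rfl; exact hx), zero_mul])
    refine h ?_
    have k := entry_chi_mul {x} (e n) x y
    rw [this, entry_zero, if_pos (Set.mem_singleton x)] at k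
    exact k.symm
  have z2 : ∀ n x y, entry (e n) x y ≠ 0 → y ∈ s n := fun n x y h => z1 n y x fun h0 => h (by
    rw [← e2 n, entry_star, h0, star_zero])
  obtain ⟨E, hE⟩ := exists_blockSum w.blk e e3 fun n x y h => ⟨(z1 n x y h).2, (z2 n x y h).2⟩
  have ent : ∀ x y, entry E x y = entry (e (w.blk x)) x y := fun x y => by
    rw [← hE, entry_chi_mul, if_pos (by exact rfl)]
  have hf : ∀ n x y, entry (e n) x y ≠ 0 → w.f y = w.f x := fun n x y h => by
    have k : Commute (chi HN (w.f ⁻¹' {w.f x})) (chi HN (s n) * b.1) :=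
      (commute_chi_iff _ _).2 fun z z' hz => by
        rw [entry_chi_mul] at hz
        split_ifs at hz with h0
        · obtain ⟨δ, rfl⟩ := hb.supp z z' hz
          rw [Set.mem_preimage, Set.mem_preimage,
            (swT_zpow w.top_ρ w.top_f δ z h0.1).2]
        · exact absurd rfl hz
    exact ((commute_chi_iff _ _).1 (e5 n _ k) x y h).1 rfl
  have hm : E ∈ DD w.f := ⟨0, fun y y' h => by
    by_contra h0
    rw [ent] at h0
    simp [hf _ _ _ h0] at h⟩
  have cE : ∀ n, Commute (chi HN {x | w.blk x = n}) E := (fun n => (commute_chi_iff _ _).2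
    fun x y h => by
      rw [ent] at h
      have := (z2 _ x y h).2
      simp only [Set.mem_ofPred_eq] at this ⊢
      rw [this])
  refine ⟨⟨E, hm⟩, Subtype.ext (ext_blocks w.blk fun n => ?_),
    fun γ => Subtype.ext (ext_blocks w.blk fun n => ?_), fun x y => ?_⟩
  · change chi HN _ * (E * E) = chi HN _ * E
    have k : chi HN {x | w.blk x = n} = chi HN {x | w.blk x = n} * chi HN {x | w.blk x = n} := by
      rw [chi_mul_chi, Set.inter_self]
    conv_lhs => rw [k, mul_assoc, ← mul_assoc _ E, (cE n).eq, mul_assoc, ← mul_assoc, hE]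
    rw [e1, hE]
  · change chi HN _ * (E * (w.u γ).1) = chi HN _ * ((w.u γ).1 * E)
    have k1 := swT_chi_u (s := {x | w.blk x = n}) (fun γ y => by
      simp only [Set.mem_ofPred_eq, w.blk_act]) γ
    have k2 := swT_chi_u (s := s n) (fun γ y => by
      simp only [s, Set.mem_inter_iff, Set.mem_ofPred_eq, w.blk_act, w.top_act]) γ
    have k3 : Commute (w.u γ).1 b.1 := congrArg Subtype.val (hb.comm_u γ).symm.eq
    rw [← mul_assoc, hE, ← mul_assoc, ← k1.eq, mul_assoc, hE, (e5 n _ (k2.mul_right k3)).eq]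
  · have k := (e4 (w.blk x)).entry x y
    rw [entry_sub, entry_chi_mul] at k
    change Cpt (entry (E - chi HN w.Top * b.1) x y)
    rw [entry_sub, ent, entry_chi_mul]
    simpa [s] using k

end SW

end

end Vale.Agent.P212
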