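import Vale.Agent.P212.Ext
import Vale.Agent.P212.K1a

/-! The universal representation and the maximal completion. -/

namespace Vale.Agent.P212

noncomputable section

/-- Hilbert space direct sum. -/
def dsum {I : Type} (K : I → Hilb) : Hilb := ⟨lp (fun i : I => (K i).car) 2⟩

lemma univ_diag {I : Type} (K : I → Hilb) (a : ∀ i, Op (K i)) {c : ℝ} (h : ∀ i, ‖a i‖ ≤ c) :
    ∃ T : lp (fun i : I => (K i).car) 2 →L[ℂ] lp (fun i : I => (K i).car) 2,
      ∀ ξ i, T ξ i = a i (ξ i) := by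
  have hb : ∀ (ξ : lp (fun i : I => (K i).car) 2) i, ‖a i (ξ i)‖ ≤ ‖((c : ℂ) • ξ) i‖ := by
    intro ξ i
    rw [lp.coeFn_smul, Pi.smul_apply, norm_smul, Complex.norm_real]
    exact (a i).le_of_opNorm_le ((h i).trans (le_abs_self c)) _
  let L : lp (fun i : I => (K i).car) 2 →ₗ[ℂ] lp (fun i : I => (K i).car) 2 :=
    { toFun := fun ξ => ⟨fun i => a i (ξ i), (lp.memℓp ((c : ℂ) • ξ)).mono' (hb ξ)⟩
      map_add' := fun ξ η => lp.ext (funext fun i => map_add (a i) _ _)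
      map_smul' := fun z ξ => lp.ext (funext fun i => map_smul (a i) _ _) }
  refine ⟨L.mkContinuous ‖(c : ℂ)‖ (fun ξ => ?_), fun _ _ => rfl⟩
  rw [← norm_smul]
  exact lp.norm_mono (by norm_num) (hb ξ)

/-- Direct sum of a uniformly bounded family of representations. -/
lemma exists_dsum_rep {I D : Type} [NonUnitalNonAssocRing D] [StarRing D] [Module ℂ D]
    (K : I → Hilb) (σ : ∀ i, D →⋆ₙₐ[ℂ] Op (K i)) (hb : ∀ m, ∃ c : ℝ, ∀ i, ‖σ i m‖ ≤ c) :
    ∃ τ : D →⋆ₙₐ[ℂ] Op (dsum K), ∀ m i, ‖σ i m‖ ≤ ‖τ m‖ := by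
  classical
  choose c hc using hb
  choose T hT using fun m => univ_diag K (fun i => σ i m) (hc m)
  have ext : ∀ S S' : lp (fun i : I => (K i).car) 2 →L[ℂ] lp (fun i : I => (K i).car) 2,
      (∀ ξ i, S ξ i = S' ξ i) → S = S' := fun S S' h =>
    ContinuousLinearMap.ext fun ξ => lp.ext (funext (h ξ))
  have h1 : ∀ (z : ℂ) m, T (z • m) = z • T m := fun z m => ext _ _ fun ξ i => by
    rw [hT, map_smul, smul_apply, smul_apply,
      lp.coeFn_smul, Pi.smul_apply, hT]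
  have h2 : T 0 = 0 := ext _ _ fun ξ i => by
    rw [hT, map_zero]
    rfl
  have h3 : ∀ m n, T (m + n) = T m + T n := fun m n => ext _ _ fun ξ i => by
    rw [hT, map_add, add_apply, add_apply,
      lp.coeFn_add, Pi.add_apply, hT, hT]
  have h4 : ∀ m n, T (m * n) = T m * T n := fun m n => ext _ _ fun ξ i => by
    rw [hT, map_mul, mul_apply_eq_comp, mul_apply_eq_comp, hT, hT]
  have h5 : ∀ m, T (star m) = star (T m) := fun m => by
    rw [ContinuousLinearMap.star_eq_adjoint, ContinuousLinearMap.eq_adjoint_iff]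
    intro ξ η
    rw [lp.inner_eq_tsum, lp.inner_eq_tsum]
    refine tsum_congr fun i => ?_
    rw [hT, hT, map_star, ContinuousLinearMap.star_eq_adjoint,
      ContinuousLinearMap.adjoint_inner_left]
  refine ⟨{ toFun := T
            map_smul' := h1
            map_zero' := h2
            map_add' := h3
            map_mul' := h4
            map_star' := h5 }, fun m i => ?_⟩
  refine ContinuousLinearMap.opNorm_le_bound _ (norm_nonneg _) fun v => ?_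
  have h6 := lp.norm_apply_le_norm (by norm_num) (T m (lp.single 2 i v)) i
  rw [hT, lp.single_apply_self] at h6
  refine h6.trans (((T m).le_opNorm _).trans ?_)
  rw [lp.norm_single (by norm_num)]
  exact le_rfl

variable {B : Type} [CStarAlgebra B] {D : StarSubalgebra ℂ B} {C : NonUnitalStarSubalgebra ℂ B}

theorem exists_env (hCD : ∀ T ∈ C, T ∈ D) (hI : ∀ m ∈ D, ∀ T ∈ C, m * T ∈ C)
    (hb : ∀ m ∈ D, ∃ c, 0 ≤ c ∧ Bd C m c) :
    ∃ (K : Hilb) (σ : D →⋆ₙₐ[ℂ] Op K) (A : NonUnitalStarSubalgebra ℂ (Op K))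
      (_ : IsClosed (A : Set (Op K))) (ι : SHom C A), IsMaxCompletion ι ∧
      (∀ T : C, (ι T).1 = σ ⟨T.1, hCD _ T.2⟩) ∧ ∀ m, σ m ∈ idl A := by
  let j : C →⋆ₙₐ[ℂ] D :=
    { toFun := fun T => ⟨T.1, hCD _ T.2⟩
      map_smul' := fun _ _ => rfl
      map_zero' := rfl
      map_add' := fun _ _ => rfl
      map_mul' := fun _ _ => rfl
      map_star' := fun _ => rfl }
  let S : C → Set ℝ := fun T => {c : ℝ | ∃ (K : Hilb) (ρ : SHom C (Op K)), c = ρ.nrm T}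
  have hS : ∀ T, BddAbove (S T) := fun T => by
    obtain ⟨c, c0, hc⟩ := hb T.1 (hCD _ T.2)
    refine ⟨c, ?_⟩
    rintro _ ⟨K, ρ, rfl⟩
    obtain ⟨σ, h1, h2⟩ := exists_ext hCD hI hb K ρ
    rw [SHom.nrm, ← h1]
    exact h2 _ c c0 hc
  have h1 : ∀ z : C × ℕ, ∃ (K : Hilb) (σ : D →⋆ₙₐ[ℂ] Op K),
      sSup (S z.1) - 1 / ((z.2 : ℝ) + 1) < ‖σ (j z.1)‖ ∧
        ∀ (m : D) (c : ℝ), 0 ≤ c → Bd C m.1 c → ‖σ m‖ ≤ c := fun z => by
    obtain ⟨_, ⟨K, ρ, rfl⟩, h⟩ := exists_lt_of_lt_csSup (s := S z.1) ⟨_, cc, 0, rfl⟩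
      (sub_lt_self _ (Nat.one_div_pos_of_nat (n := z.2)))
    obtain ⟨σ, h2, h3⟩ := exists_ext hCD hI hb K ρ
    exact ⟨K, σ, h.trans_eq (congrArg norm (h2 _).symm), h3⟩
  choose K σ h2 h3 using h1
  obtain ⟨τ, hτ⟩ := exists_dsum_rep K σ (fun m => by
    obtain ⟨c, c0, hc⟩ := hb m.1 m.2
    exact ⟨c, fun i => h3 i m c c0 hc⟩)
  let ρ : SHom C (Op (dsum K)) := τ.comp j
  let A := (NonUnitalStarAlgHom.range ρ).topologicalClosure
  have hA : ∀ T, ρ T ∈ A := fun T => NonUnitalStarSubalgebra.le_topologicalClosure _ ⟨T, rfl⟩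
  refine ⟨dsum K, τ, A, NonUnitalStarSubalgebra.isClosed_topologicalClosure _,
    NonUnitalStarAlgHom.codRestrict ρ A hA, ⟨?_, fun T => IsGreatest.isLUB ⟨⟨_, ρ, rfl⟩, ?_⟩⟩,
    fun _ => rfl, fun m a ha => ⟨?_, ?_⟩⟩
  · refine Subtype.dense_iff.2 (closure_mono ?_)
    rintro _ ⟨T, rfl⟩
    exact ⟨_, ⟨T, rfl⟩, rfl⟩
  · intro c hc
    refine (le_csSup (hS T) hc).trans (le_of_forall_pos_le_add fun ε hε => ?_)
    obtain ⟨k, hk⟩ := exists_nat_one_div_lt hε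
    have h4 := (h2 (T, k)).trans_le (hτ _ _)
    show _ ≤ ‖τ (j T)‖ + ε
    linarith
  · refine map_mem_closure (f := fun a => τ m * a) (by fun_prop) ha ?_
    rintro _ ⟨T, rfl⟩
    exact ⟨⟨m.1 * T.1, hI _ m.2 _ T.2⟩, map_mul τ m (j T)⟩
  · refine map_mem_closure (f := fun a => a * τ m) (by fun_prop) ha ?_
    rintro _ ⟨T, rfl⟩
    exact ⟨⟨T.1 * m.1, by simpa using star_mem (hI _ (star_mem m.2) _ (star_mem T.2))⟩,
      map_mul τ (j T) m⟩

end

end Vale.Agent.P212
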